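import Vale.Agent.P098.Cone.Defs

/-!
# P098: algebra of the Hessian of a one-homogeneous harmonic function

A Kato inequality for symmetric traceless tensors killed by the position vector, the interior
inequality it gives for powers of the length of the Hessian, and the algebra on the free boundary.
-/

namespace Vale.Agent.P098.Cone

open Finset

noncomputable section

variable {d : ℕ}

/-- The euclidean inner product. -/
def dot (p q : Fin d → ℝ) : ℝ := ∑ i, p i * q i

/-- The Frobenius inner product of two matrices. -/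
def dot2 (P Q : Fin d → Fin d → ℝ) : ℝ := ∑ i, ∑ j, P i j * Q i j

/-- The inner product of two tensors of order three. -/
def dot3 (S T : Fin d → Fin d → Fin d → ℝ) : ℝ := ∑ i, ∑ j, ∑ k, S i j k * T i j k

/-- A matrix applied to a vector. -/
def app (P : Fin d → Fin d → ℝ) (p : Fin d → ℝ) (i : Fin d) : ℝ := ∑ j, P i j * p j

/-- The symmetrised product of a symmetric matrix and a vector. -/
def sym3 (P : Fin d → Fin d → ℝ) (p : Fin d → ℝ) (i j k : Fin d) : ℝ :=
  P i j * p k + P j k * p i + P k i * p j

theorem dot3_self_nonneg (S : Fin d → Fin d → Fin d → ℝ) : 0 ≤ dot3 S S :=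
  sum_nonneg fun _ _ => sum_nonneg fun _ _ => sum_nonneg fun _ _ => mul_self_nonneg _

theorem dot_self_nonneg (p : Fin d → ℝ) : 0 ≤ dot p p := sum_nonneg fun _ _ => mul_self_nonneg _

theorem dot2_self_nonneg (P : Fin d → Fin d → ℝ) : 0 ≤ dot2 P P :=
  sum_nonneg fun _ _ => sum_nonneg fun _ _ => mul_self_nonneg _

theorem dot_sq_le (p q : Fin d → ℝ) : dot p q ^ 2 ≤ dot p p * dot q q := by
  simpa [dot, sq] using sum_mul_sq_le_sq_mul_sq univ p q

theorem dot2_sq_le (P Q : Fin d → Fin d → ℝ) : dot2 P Q ^ 2 ≤ dot2 P P * dot2 Q Q := by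
  simpa [dot2, sq, ← Fintype.sum_prod_type'] using
    sum_mul_sq_le_sq_mul_sq univ (fun z : Fin d × Fin d => P z.1 z.2) fun z => Q z.1 z.2

theorem dot3_sq_le (S T : Fin d → Fin d → Fin d → ℝ) : dot3 S T ^ 2 ≤ dot3 S S * dot3 T T := by
  simpa [dot3, sq, ← Fintype.sum_prod_type'] using
    sum_mul_sq_le_sq_mul_sq univ (fun z : Fin d × Fin d × Fin d => S z.1 z.2.1 z.2.2)
      fun z => T z.1 z.2.1 z.2.2

/-- Contraction with a symmetrised product. -/
theorem dot3_sym3 {S : Fin d → Fin d → Fin d → ℝ} (h1 : ∀ i j k, S i j k = S j i k)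
    (h2 : ∀ i j k, S i j k = S i k j) (P : Fin d → Fin d → ℝ) (p : Fin d → ℝ) :
    dot3 S (sym3 P p) = 3 * ∑ k, dot2 (fun i j => S i j k) P * p k := by
  have e : ∀ i j k, S i j k * sym3 P p i j k
      = S i j k * P i j * p k + S j k i * P j k * p i + S k i j * P k i * p j := fun i j k => by
    rw [sym3, show S j k i = S i j k by rw [h2 j k i, h1 j i k], show S k i j = S i j k by
      rw [h1 k i j, h2 i k j]]
    ring
  have hswap : ∀ f : Fin d → Fin d → Fin d → ℝ, (∑ i, ∑ j, ∑ k, f i j k) = ∑ j, ∑ k, ∑ i, f i j k :=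
    fun f => sum_comm.trans (sum_congr rfl fun _ _ => sum_comm)
  set F : Fin d → Fin d → Fin d → ℝ := fun i j k => S i j k * P i j * p k
  have hF : dot3 S (sym3 P p) = 3 * ∑ i, ∑ j, ∑ k, F i j k := by
    simp only [dot3, e, sum_add_distrib]
    have h3 : (∑ i, ∑ j, ∑ k, F j k i) = ∑ i, ∑ j, ∑ k, F i j k := hswap fun i j k => F j k i
    have h4 : (∑ i, ∑ j, ∑ k, F k i j) = ∑ i, ∑ j, ∑ k, F i j k :=
      (hswap fun i j k => F k i j).trans (hswap fun j k i => F k i j)
    linarith
  rw [hF, hswap, hswap]
  simp only [F, dot2, sum_mul]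

/-- Inner products of symmetrised products. -/
theorem sym3_dot3 {P Q : Fin d → Fin d → ℝ} (hP : ∀ i j, P i j = P j i) (hQ : ∀ i j, Q i j = Q j i)
    (p q : Fin d → ℝ) :
    dot3 (sym3 P p) (sym3 Q q) = 3 * dot2 P Q * dot p q + 6 * dot (app P q) (app Q p) := by
  rw [dot3_sym3 (fun i j k => ?_) (fun i j k => ?_)]
  · have e : ∀ k, dot2 (fun i j => sym3 P p i j k) Q
        = dot2 P Q * p k + 2 * ∑ j, P j k * app Q p j := fun k => by
      simp only [dot2, sym3, add_mul, sum_add_distrib, sum_mul, app, mul_sum, two_mul]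
      rw [add_assoc]
      congr 1
      · exact sum_congr rfl fun _ _ => sum_congr rfl fun _ _ => by ring
      congr 1
      · rw [sum_comm]
        exact sum_congr rfl fun i _ => sum_congr rfl fun j _ => by rw [hQ i j]; ring
      · exact sum_congr rfl fun i _ => sum_congr rfl fun j _ => by rw [hP k i]; ring
    simp only [e, dot, app, mul_sum, add_mul, sum_mul, sum_add_distrib, mul_add]
    congr 1
    · exact sum_congr rfl fun _ _ => by ring
    · rw [sum_comm]
      exact sum_congr rfl fun _ _ => sum_comm.trans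
        (sum_congr rfl fun _ _ => sum_congr rfl fun _ _ => by ring)
  · simp only [sym3, hP j i, hP i k, hP k j]; ring
  · simp only [sym3, hP i k, hP k j, hP j i]; ring

theorem app_sub_smul (P Q : Fin d → Fin d → ℝ) (t : ℝ) (p : Fin d → ℝ) (i : Fin d) :
    app (fun i j => P i j - t * Q i j) p i = app P p i - t * app Q p i := by
  simp only [app, sub_mul, sum_sub_distrib, mul_sum, mul_assoc]

theorem dot2_symm (P Q : Fin d → Fin d → ℝ) : dot2 P Q = dot2 Q P := by
  simp only [dot2, mul_comm]

theorem dot_comm (p q : Fin d → ℝ) : dot p q = dot q p := by simp only [dot, mul_comm]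

theorem dot_app {P : Fin d → Fin d → ℝ} (hP : ∀ i j, P i j = P j i) (p q : Fin d → ℝ) :
    dot (app P p) q = dot p (app P q) := by
  simp only [dot, app, sum_mul, mul_sum]
  rw [sum_comm]
  exact sum_congr rfl fun i _ => sum_congr rfl fun j _ => by rw [hP j i]; ring

/-- The identity of the orthogonal complement of `x`. -/
def perp (x : Fin d → ℝ) (i j : Fin d) : ℝ := (if i = j then 1 else 0) - x i * x j / dot x x

theorem app_perp {x p : Fin d → ℝ} (h : dot x p = 0) (i : Fin d) : app (perp x) p i = p i := by
  simp only [app, perp, sub_mul, sum_sub_distrib, ite_mul, one_mul, zero_mul, sum_ite_eq, mem_univ,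
    if_true]
  have e : ∑ j, x i * x j / dot x x * p j = x i / dot x x * dot x p := by
    rw [show dot x p = ∑ j, x j * p j from rfl, mul_sum]
    exact sum_congr rfl fun _ _ => by ring
  rw [e, h]
  ring

theorem dot2_perp {x : Fin d → ℝ} (P : Fin d → Fin d → ℝ) :
    dot2 P (perp x) = (∑ i, P i i) - dot x (app P x) / dot x x := by
  simp only [dot2, perp, mul_sub, sum_sub_distrib, mul_ite, mul_one, mul_zero, sum_ite_eq, mem_univ,
    if_true, dot, app, mul_sum, sum_div]
  congr 1
  exact sum_congr rfl fun _ _ => sum_congr rfl fun _ _ => by ring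

theorem perp_sq {x : Fin d → ℝ} (hx : dot x x ≠ 0) : dot2 (perp x) (perp x) = (d : ℝ) - 1 := by
  rw [dot2_perp]
  have h1 : dot x (app (perp x) x) = 0 := by
    have : ∀ i, app (perp x) x i = 0 := fun i => by
      simp only [app, perp, sub_mul, sum_sub_distrib, ite_mul, one_mul, zero_mul, sum_ite_eq, mem_univ,
        if_true]
      rw [show ∑ j, x i * x j / dot x x * x j = x i / dot x x * dot x x by
        rw [dot, mul_sum]; exact sum_congr rfl fun _ _ => by ring, div_mul_cancel₀ _ hx, sub_self]
    simp [dot, this]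
  have h2 : ∑ i, perp x i i = (d : ℝ) - 1 := by
    simp only [perp, if_pos, sum_sub_distrib]
    rw [← sum_div, show ∑ i, x i * x i = dot x x from rfl, div_self hx]
    simp
  rw [h1, h2]
  simp

/-- The Kato inequality. -/
theorem kato (hd : 3 ≤ d) {x : Fin d → ℝ} (hx : dot x x ≠ 0) {A : Fin d → Fin d → ℝ}
    (hA : ∀ i j, A i j = A j i) (htr : ∑ i, A i i = 0) (hAx : ∀ i, app A x i = 0)
    {S : Fin d → Fin d → Fin d → ℝ} (h1 : ∀ i j k, S i j k = S j i k) (h2 : ∀ i j k, S i j k = S i k j)
    (hS : ∀ k, ∑ i, S i i k = 0) (hSx : ∀ i j, ∑ k, S i j k * x k = 0) :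
    ((d : ℝ) + 1) * ∑ k, dot2 (fun i j => S i j k) A ^ 2 ≤ ((d : ℝ) - 1) * (dot2 A A * dot3 S S) := by
  set v : Fin d → ℝ := fun k => dot2 (fun i j => S i j k) A
  set w := app A v
  set n : ℝ := (d : ℝ) - 1
  have hn : 2 ≤ n := by
    have : (3 : ℝ) ≤ d := by exact_mod_cast hd
    simp only [n]; linarith
  have hxv : dot x v = 0 := by
    simp only [dot, v, dot2, mul_sum]
    rw [sum_comm]
    refine sum_eq_zero fun i _ => ?_
    rw [sum_comm]
    refine sum_eq_zero fun j _ => ?_
    calc ∑ k, x k * (S i j k * A i j) = A i j * ∑ k, S i j k * x k := by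
          rw [mul_sum]; exact sum_congr rfl fun _ _ => by ring
      _ = 0 := by rw [hSx]; ring
  have hxw : dot x w = 0 := by
    rw [← dot_app hA x v, show app A x = fun _ => 0 from funext hAx]; simp [dot]
  have hδ : ∀ i j, perp x i j = perp x j i := fun i j => by
    simp only [perp, eq_comm (a := i), mul_comm (x i)]
  have hAδ : dot2 A (perp x) = 0 := by
    rw [dot2_perp, htr, show app A x = fun _ => 0 from funext hAx]; simp [dot]
  have hδv : app (perp x) v = v := funext (app_perp hxv)
  have hδw : app (perp x) w = w := funext (app_perp hxw)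
  set V := dot v v
  set W := dot w w
  set a := dot2 A A
  have hwv : dot (app A w) v = W := dot_app hA w v
  -- the bound for `A v`
  have hW : W * n ≤ (n - 1) * (a * V) := by
    set c := dot w v
    have hc : c ^ 2 ≤ W * V := dot_sq_le w v
    set P : Fin d → Fin d → ℝ := fun i j => (w i * v j + v i * w j) / 2 - c / n * perp x i j
    have e1 : dot2 A P = W := by
      have : dot2 A P = (dot w w + dot w w) / 2 - c / n * dot2 A (perp x) := by
        simp only [P, dot2, mul_sub, sum_sub_distrib, mul_sum]
        congr 1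
        · rw [show dot w w + dot w w = (∑ i, ∑ j, A i j * (w i * v j)) + ∑ i, ∑ j, A i j * (v i * w j) by
            rw [← show dot (app A w) v = dot w w from hwv]
            simp only [dot, app, sum_mul]
            congr 1
            · rw [sum_comm]
              exact sum_congr rfl fun i _ => sum_congr rfl fun j _ => by rw [hA j i]; ring
            · exact sum_congr rfl fun i _ => sum_congr rfl fun j _ => by ring,
            ← sum_add_distrib, sum_div]
          refine sum_congr rfl fun i _ => ?_
          rw [← sum_add_distrib, sum_div]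
          exact sum_congr rfl fun j _ => by ring
        · exact sum_congr rfl fun _ _ => sum_congr rfl fun _ _ => by ring
      rw [this, hAδ]; ring
    have e2 : dot2 P P = (W * V + c ^ 2) / 2 - c ^ 2 / n := by
      have hs : ∀ p q : Fin d → ℝ, dot2 (fun i j => p i * q j) (perp x) = dot p (app (perp x) q) := by
        intro p q
        simp only [dot2, dot, app, mul_sum]
        exact sum_congr rfl fun i _ => sum_congr rfl fun j _ => by ring
      have hq : ∀ p q p' q' : Fin d → ℝ, dot2 (fun i j => p i * q j) (fun i j => p' i * q' j)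
          = dot p p' * dot q q' := by
        intro p q p' q'
        simp only [dot2, dot, sum_mul, mul_sum]
        rw [sum_comm]
        exact sum_congr rfl fun i _ => sum_congr rfl fun j _ => by ring
      have ex : dot2 P P = (dot2 (fun i j => w i * v j) (fun i j => w i * v j)
          + 2 * dot2 (fun i j => w i * v j) (fun i j => v i * w j)
          + dot2 (fun i j => v i * w j) (fun i j => v i * w j)) / 4
          - c / n * (dot2 (fun i j => w i * v j) (perp x) + dot2 (fun i j => v i * w j) (perp x))
          + (c / n) ^ 2 * dot2 (perp x) (perp x) := by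
        simp only [P, dot2, mul_sum, sum_div, ← sum_add_distrib, ← sum_sub_distrib]
        exact sum_congr rfl fun i _ => sum_congr rfl fun j _ => by ring
      rw [ex, hq, hq, hq, hs, hs, hδv, hδw, perp_sq hx, dot_comm v w]
      simp only [W, V, c, n]
      field_simp
      ring
    have h := dot2_sq_le A P
    rw [e1, e2] at h
    have h' : (W * V + c ^ 2) / 2 - c ^ 2 / n ≤ (n - 1) / n * (W * V) := by
      rw [div_mul_eq_mul_div, le_div_iff₀ (by linarith), sub_mul, div_mul_cancel₀ _ (by linarith)]
      nlinarith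
    have hW0 : 0 ≤ W := dot_self_nonneg w
    rcases hW0.eq_or_lt with h0 | h0
    · rw [← h0, zero_mul]
      exact mul_nonneg (by linarith) (mul_nonneg (dot2_self_nonneg A) (dot_self_nonneg v))
    have h2 : W ^ 2 * n ≤ W * ((n - 1) * (a * V)) := by
      calc W ^ 2 * n ≤ a * ((n - 1) / n * (W * V)) * n :=
            mul_le_mul_of_nonneg_right
              (h.trans (mul_le_mul_of_nonneg_left h' (dot2_self_nonneg A))) (by linarith)
        _ = _ := by field_simp
    rw [sq, mul_assoc] at h2
    exact le_of_mul_le_mul_left h2 h0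
  -- the test tensor
  set T : Fin d → Fin d → Fin d → ℝ := fun i j k =>
    sym3 A v i j k - 2 / (n + 2) * sym3 (perp x) w i j k
  have eS : dot3 S T = 3 * V := by
    have : dot3 S T = dot3 S (sym3 A v) - 2 / (n + 2) * dot3 S (sym3 (perp x) w) := by
      simp only [T, dot3, mul_sum, ← sum_sub_distrib]
      exact sum_congr rfl fun i _ => sum_congr rfl fun j _ => sum_congr rfl fun k _ => by ring
    rw [this, dot3_sym3 h1 h2, dot3_sym3 h1 h2]
    have e0 : ∀ k, dot2 (fun i j => S i j k) (perp x) = 0 := fun k => by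
      rw [dot2_perp, hS k, zero_sub, neg_eq_zero, div_eq_zero_iff]
      left
      refine sum_eq_zero fun i _ => ?_
      refine mul_eq_zero_of_right _ ?_
      simp only [app, h2 i _ k]
      exact hSx i k
    simp only [e0, zero_mul, sum_const_zero, mul_zero, sub_zero, V, dot, v]
  have eT : dot3 T T = 3 * a * V + 6 * W * n / (n + 2) := by
    have : dot3 T T = dot3 (sym3 A v) (sym3 A v) - 2 * (2 / (n + 2)) * dot3 (sym3 A v) (sym3 (perp x) w)
        + (2 / (n + 2)) ^ 2 * dot3 (sym3 (perp x) w) (sym3 (perp x) w) := by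
      simp only [T, dot3, mul_sum, ← sum_sub_distrib, ← sum_add_distrib]
      exact sum_congr rfl fun i _ => sum_congr rfl fun j _ => sum_congr rfl fun k _ => by ring
    rw [this, sym3_dot3 hA hA, sym3_dot3 hA hδ, sym3_dot3 hδ hδ, hδv, hδw, hAδ, perp_sq hx, hwv,
      show (d : ℝ) - 1 = n from rfl]
    have : n + 2 ≠ 0 := by linarith
    simp only [show dot (app A v) (app A v) = W from rfl, show dot w w = W from rfl,
      show dot2 A A = a from rfl, show dot v v = V from rfl]
    field_simp
    ring
  have h := dot3_sq_le S T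
  rw [eS, eT] at h
  have hmain : 3 * V ^ 2 ≤ dot3 S S * (a * V) * (3 * n / (n + 2)) := by
    have h3 : 3 * a * V + 6 * W * n / (n + 2) ≤ a * V * (9 * n / (n + 2)) := by
      rw [← sub_nonneg]
      have : a * V * (9 * n / (n + 2)) - (3 * a * V + 6 * W * n / (n + 2))
          = (6 * ((n - 1) * (a * V) - W * n)) / (n + 2) := by field_simp; ring
      rw [this]
      exact div_nonneg (by linarith) (by linarith)
    have h4 := h.trans (mul_le_mul_of_nonneg_left h3 (dot3_self_nonneg S))
    rw [show dot3 S S * (a * V * (9 * n / (n + 2))) = 3 * (dot3 S S * (a * V) * (3 * n / (n + 2))) by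
      ring] at h4
    linarith
  have hV : (∑ k, dot2 (fun i j => S i j k) A ^ 2) = V := by simp only [V, dot, v, sq]
  rw [hV, show (d : ℝ) + 1 = n + 2 by simp only [n]; ring]
  rcases (dot_self_nonneg v).eq_or_lt with h0 | h0
  · rw [show V = 0 from h0.symm, mul_zero]
    exact mul_nonneg (by linarith) (mul_nonneg (dot2_self_nonneg A) (dot3_self_nonneg S))
  have h5 : (n + 2) * V ^ 2 ≤ V * (n * (a * dot3 S S)) := by
    rw [← mul_div_assoc, le_div_iff₀ (by linarith)] at hmain
    linarith
  rw [sq, ← mul_assoc, mul_comm ((n + 2) * V)] at h5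
  exact le_of_mul_le_mul_left h5 h0

end

end Vale.Agent.P098.Cone
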