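import Vale.Agent.P098.Cone.Calculus
import Vale.Agent.P098.Cone.Algebra

/-!
# P098: identities on a regular cone, up to the free boundary
-/

namespace Vale.Agent.P098.Cone

open Set Filter Topology Finset
open scoped ContDiff

noncomputable section

variable {d : ℕ} {u w : (Fin d → ℝ) → ℝ} {O : Set (Fin d → ℝ)} {x : Fin d → ℝ}

/-- The gradient. -/
def grad (w : (Fin d → ℝ) → ℝ) (x : Fin d → ℝ) : Fin d → ℝ := fun i => pd w i x

/-- The Hessian. -/
def hessMat (w : (Fin d → ℝ) → ℝ) (x : Fin d → ℝ) : Fin d → Fin d → ℝ := fun i j => hess w i j x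

/-- The third derivatives. -/
def third (w : (Fin d → ℝ) → ℝ) (x : Fin d → ℝ) : Fin d → Fin d → Fin d → ℝ :=
  fun i j k => pd (hess w i j) k x

theorem contDiffOn_hess {n m k : WithTop ℕ∞} [DerivOrder n m] [DerivOrder m k] (hw : ContDiffOn ℝ n w O)
    (hO : IsOpen O) (i j : Fin d) : ContDiffOn ℝ k (hess w i j) O :=
  contDiffOn_pd (contDiffOn_pd hw hO i) hO j

theorem contDiffOn_third (hw : ContDiffOn ℝ 4 w O) (hO : IsOpen O) (i j k : Fin d) :
    ContDiffOn ℝ 1 (fun x => third w x i j k) O :=
  contDiffOn_pd (contDiffOn_hess hw hO i j) hO k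

theorem hess_comm_of {n m k : WithTop ℕ∞} [h₁ : DerivOrder n m] [h₂ : DerivOrder m k]
    (hw : ContDiffOn ℝ n w O) (hO : IsOpen O) (hx : x ∈ O) (i j : Fin d) :
    hess w i j x = hess w j i x := by
  have h2 : (2 : WithTop ℕ∞) ≤ n := one_add_one_eq_two.symm.trans_le
    ((add_le_add (le_add_self.trans h₂.le) le_rfl).trans h₁.le)
  exact hess_comm ((hw.contDiffAt (hO.mem_nhds hx)).of_le h2) i j

theorem third_comm₁ (hw : ContDiffOn ℝ 4 w O) (hO : IsOpen O) (hx : x ∈ O) (i j k : Fin d) :
    third w x i j k = third w x j i k :=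
  pd_congr (by filter_upwards [hO.mem_nhds hx] with y hy using hess_comm_of hw hO hy i j) k

theorem third_comm₂ (hw : ContDiffOn ℝ 4 w O) (hO : IsOpen O) (hx : x ∈ O) (i j k : Fin d) :
    third w x i j k = third w x i k j :=
  hess_comm_of (contDiffOn_pd hw hO i) hO hx j k

namespace RegularCone

theorem continuous (h : RegularCone u O w) : Continuous u := h.lipschitz.choose_spec.continuous

theorem isOpen_pos (h : RegularCone u O w) : IsOpen {y | 0 < u y} :=
  isOpen_lt continuous_const h.continuous

theorem map_zero (h : RegularCone u O w) : u 0 = 0 := by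
  have := h.homog 2 0 two_pos
  rw [smul_zero] at this
  linarith

theorem mem_of_pos (h : RegularCone u O w) (hx : 0 < u x) : x ∈ O :=
  h.cover x (subset_closure hx) fun e => by rw [e, h.map_zero] at hx; exact lt_irrefl _ hx

theorem eventually_eq (h : RegularCone u O w) (hx : 0 < u x) : w =ᶠ[𝓝 x] u := by
  filter_upwards [h.isOpen_pos.mem_nhds hx] with y hy using h.agree y (h.mem_of_pos hy) hy

/-- A function continuous on `O` and zero on the positivity set is zero up to the free boundary. -/
theorem eq_zero_of_pos (h : RegularCone u O w) {g : (Fin d → ℝ) → ℝ} (hg : ContinuousOn g O)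
    (h0 : ∀ y, 0 < u y → g y = 0) (hx : x ∈ closure {y | 0 < u y}) (hxO : x ∈ O) : g x = 0 := by
  obtain ⟨s, hs, hlim⟩ := mem_closure_iff_seq_limit.1 hx
  have h1 : Tendsto (fun n => g (s n)) atTop (𝓝 (g x)) :=
    ((hg x hxO).tendsto).comp (tendsto_nhdsWithin_iff.2
      ⟨hlim, .of_forall fun n => h.mem_of_pos (hs n)⟩)
  exact tendsto_nhds_unique h1 (by simp [h0 _ (hs _)])

theorem w_eq (h : RegularCone u O w) (hx : x ∈ closure {y | 0 < u y}) (hxO : x ∈ O) : w x = u x :=
  sub_eq_zero.1 (h.eq_zero_of_pos (g := fun y => w y - u y)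
    (h.smooth.continuousOn.sub h.continuous.continuousOn)
    (fun y hy => by rw [h.agree y (h.mem_of_pos hy) hy, sub_self]) hx hxO)

theorem u_eq_zero_of_frontier (h : RegularCone u O w) (hx : x ∈ frontier {y | 0 < u y}) : u x = 0 := by
  rw [h.isOpen_pos.frontier_eq] at hx
  exact le_antisymm (not_lt.1 hx.2) (h.nonneg x)

theorem mem_closure_of_frontier (hx : x ∈ frontier {y | 0 < u y}) : x ∈ closure {y | 0 < u y} :=
  frontier_subset_closure hx

theorem frontier_or_pos (h : RegularCone u O w) (hx : x ∈ closure {y | 0 < u y}) :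
    x ∈ frontier {y | 0 < u y} ∨ 0 < u x := by
  by_cases hp : 0 < u x
  · exact .inr hp
  · exact .inl (h.isOpen_pos.frontier_eq ▸ ⟨hx, hp⟩)

theorem euler_pos (h : RegularCone u O w) (hx : 0 < u x) : dot x (grad w x) = w x := by
  have hO := h.mem_of_pos hx
  have h1 : HasDerivAt (fun r : ℝ => w (r • x)) (fderiv ℝ w x x) 1 := by
    have := ((differentiableAt_of_smooth h.smooth h.isOpen (by rwa [one_smul]) :
      DifferentiableAt ℝ w ((1 : ℝ) • x)).hasFDerivAt).comp_hasDerivAt (1 : ℝ)
        ((hasDerivAt_id (1 : ℝ)).smul_const x)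
    simpa [Function.comp_def] using this
  have h2 : (fun r : ℝ => w (r • x)) =ᶠ[𝓝 1] fun r => r * u x := by
    filter_upwards [lt_mem_nhds one_pos] with r hr
    have hpos : 0 < u (r • x) := by rw [h.homog r x hr]; exact mul_pos hr hx
    rw [h.agree _ (h.mem_of_pos hpos) hpos, h.homog r x hr]
  have h3 := (h1.congr_of_eventuallyEq h2.symm).unique ((hasDerivAt_id (1 : ℝ)).mul_const (u x))
  rw [fderiv_eq_sum] at h3
  rw [h.agree x hO hx]
  simpa [dot, grad] using h3

theorem hess_radial_pos (h : RegularCone u O w) (hx : 0 < u x) (j : Fin d) :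
    ∑ i, x i * hess w i j x = 0 := by
  have hd : ∀ i, DifferentiableAt ℝ (pd w i) x := fun i =>
    differentiableAt_of_smooth (contDiffOn_pd h.smooth h.isOpen i) h.isOpen (h.mem_of_pos hx)
  have e : (fun y => ∑ i, y i * pd w i y) =ᶠ[𝓝 x] w := by
    filter_upwards [h.isOpen_pos.mem_nhds hx] with y hy using h.euler_pos hy
  have h1 := pd_congr e j
  rw [pd_sum _ (F := fun i y => y i * pd w i y) (fun i _ => (differentiableAt_apply i x).mul (hd i))] at h1
  simp only [pd_mul (differentiableAt_apply _ x) (hd _), pd_coord, mul_ite, mul_one, mul_zero,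
    sum_add_distrib, Finset.sum_ite_eq, Finset.mem_univ, if_true] at h1
  exact add_eq_right.1 h1

theorem third_radial_pos (h : RegularCone u O w) (hx : 0 < u x) (i j : Fin d) :
    ∑ k, third w x i j k * x k = -hess w i j x := by
  have hO := h.mem_of_pos hx
  have hd : ∀ a b, DifferentiableAt ℝ (hess w a b) x := fun a b =>
    differentiableAt_of_smooth (contDiffOn_hess h.smooth h.isOpen a b) h.isOpen hO
  have e : (fun y => ∑ k, y k * hess w k i y) =ᶠ[𝓝 x] fun _ => 0 := by
    filter_upwards [h.isOpen_pos.mem_nhds hx] with y hy using h.hess_radial_pos hy i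
  have h1 := pd_congr e j
  rw [pd_const, pd_sum _ (F := fun k y => y k * hess w k i y)
    (fun k _ => (differentiableAt_apply k x).mul (hd k i))] at h1
  simp only [pd_mul (differentiableAt_apply _ x) (hd _ _), pd_coord, mul_ite, mul_one, mul_zero,
    sum_add_distrib, Finset.sum_ite_eq, Finset.mem_univ, if_true] at h1
  have e2 : ∑ k, third w x i j k * x k = ∑ k, x k * pd (hess w k i) j x := sum_congr rfl fun k _ => by
    rw [third_comm₂ h.smooth h.isOpen hO i j k, third_comm₁ h.smooth h.isOpen hO i k j, mul_comm]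
    rfl
  rw [e2, hess_comm_of h.smooth h.isOpen hO i j]
  linarith

theorem trace_pos (h : RegularCone u O w) (hx : 0 < u x) : ∑ i, hess w i i x = 0 := by
  rw [← h.harmonic x hx]
  refine sum_congr rfl fun i _ => pd_congr ?_ i
  filter_upwards [(h.eventually_eq hx).eventuallyEq_nhds] with y hy using pd_congr hy i

theorem third_trace_pos (h : RegularCone u O w) (hx : 0 < u x) (k : Fin d) :
    ∑ i, third w x i i k = 0 := by
  have hd : ∀ i ∈ Finset.univ, DifferentiableAt ℝ (hess w i i) x := fun i _ =>
    differentiableAt_of_smooth (contDiffOn_hess h.smooth h.isOpen i i) h.isOpen (h.mem_of_pos hx)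
  have e : (fun y => ∑ i, hess w i i y) =ᶠ[𝓝 x] fun _ => 0 := by
    filter_upwards [h.isOpen_pos.mem_nhds hx] with y hy using h.trace_pos hy
  have h1 := pd_congr e k
  rwa [pd_const, pd_sum _ (F := fun i => hess w i i) hd] at h1

theorem euler (h : RegularCone u O w) (hx : x ∈ closure {y | 0 < u y}) (hxO : x ∈ O) :
    dot x (grad w x) = w x :=
  sub_eq_zero.1 (h.eq_zero_of_pos (g := fun y => dot y (grad w y) - w y)
    ((continuousOn_finsetSum _ fun i _ => (continuous_apply i).continuousOn.mul
      (contDiffOn_pd h.smooth h.isOpen i).continuousOn).sub h.smooth.continuousOn)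
    (fun y hy => by rw [h.euler_pos hy, sub_self]) hx hxO)

theorem app_hess_radial (h : RegularCone u O w) (hx : x ∈ closure {y | 0 < u y}) (hxO : x ∈ O)
    (i : Fin d) : app (hessMat w x) x i = 0 := by
  refine h.eq_zero_of_pos (g := fun y => app (hessMat w y) y i) (continuousOn_finsetSum _ fun j _ =>
    (contDiffOn_hess h.smooth h.isOpen i j).continuousOn.mul (continuous_apply j).continuousOn)
    (fun y hy => ?_) hx hxO
  refine Eq.trans (sum_congr rfl fun j _ => ?_) (h.hess_radial_pos hy i)
  simp only [hessMat]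
  rw [hess_comm_of h.smooth h.isOpen (h.mem_of_pos hy) i j, mul_comm]

theorem trace (h : RegularCone u O w) (hx : x ∈ closure {y | 0 < u y}) (hxO : x ∈ O) :
    ∑ i, hess w i i x = 0 :=
  h.eq_zero_of_pos (g := fun y => ∑ i, hess w i i y) (continuousOn_finsetSum _ fun i _ =>
    (contDiffOn_hess h.smooth h.isOpen i i).continuousOn) (fun _ hy => h.trace_pos hy) hx hxO

theorem third_trace (h : RegularCone u O w) (hx : x ∈ closure {y | 0 < u y}) (hxO : x ∈ O) (k : Fin d) :
    ∑ i, third w x i i k = 0 :=
  h.eq_zero_of_pos (g := fun y => ∑ i, third w y i i k) (continuousOn_finsetSum _ fun i _ =>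
    (contDiffOn_third h.smooth h.isOpen i i k).continuousOn) (fun _ hy => h.third_trace_pos hy k) hx hxO

/-- On a smaller open set the gradient of `w` does not vanish. -/
theorem shrink (h : RegularCone u O w) :
    RegularCone u {y | y ∈ O ∧ 0 < dot (grad w y) (grad w y) ∧ y ≠ 0} w where
  lipschitz := h.lipschitz
  nonneg := h.nonneg
  homog := h.homog
  isOpen := by
    have hc : ContinuousOn (fun y => dot (grad w y) (grad w y)) O := continuousOn_finsetSum _ fun i _ =>
      (contDiffOn_pd h.smooth h.isOpen i).continuousOn.mul (contDiffOn_pd h.smooth h.isOpen i).continuousOn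
    have e : {y | y ∈ O ∧ 0 < dot (grad w y) (grad w y) ∧ y ≠ 0}
        = (O ∩ (fun y => dot (grad w y) (grad w y)) ⁻¹' Ioi 0) ∩ ({0}ᶜ : Set (Fin d → ℝ)) := by
      ext y; simp [and_assoc]
      tauto
    rw [e]
    exact (hc.isOpen_inter_preimage h.isOpen isOpen_Ioi).inter isOpen_compl_singleton
  cover := fun y hy h0 => by
    refine ⟨h.cover y hy h0, ?_, h0⟩
    rcases h.frontier_or_pos hy with hf | hp
    · have := h.free y hf h0
      simp only [sq] at this
      rw [show dot (grad w y) (grad w y) = ∑ i, pd w i y * pd w i y from rfl, this]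
      exact one_pos
    · refine (dot_self_nonneg _).lt_of_ne fun h0' => ?_
      have hz : ∀ i, grad w y i = 0 := fun i =>
        mul_self_eq_zero.1 ((sum_eq_zero_iff_of_nonneg fun j _ => mul_self_nonneg (grad w y j)).1 h0'.symm i
          (Finset.mem_univ i))
      have := h.euler_pos hp
      rw [h.agree y (h.mem_of_pos hp) hp] at this
      simp [dot, hz] at this
      linarith
  smooth := h.smooth.mono fun y hy => hy.1
  agree := fun y hy => h.agree y hy.1
  harmonic := h.harmonic
  free := h.free

end RegularCone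

end

end Vale.Agent.P098.Cone
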