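import Vale.Agent.P098.Cone.Algebra

/-!
# P098: the interior inequality, and the curvature condition in dimension five
-/

namespace Vale.Agent.P098.Cone

open Finset

noncomputable section

variable {d : ℕ}

/-- The interior inequality for the regularised power of the length of the Hessian. -/
theorem interior_ineq (hd : 3 ≤ d) {x : Fin d → ℝ} (hx : dot x x ≠ 0) {A : Fin d → Fin d → ℝ}
    (hA : ∀ i j, A i j = A j i) (htr : ∑ i, A i i = 0) (hAx : ∀ i, app A x i = 0)
    {S : Fin d → Fin d → Fin d → ℝ} (h1 : ∀ i j k, S i j k = S j i k) (h2 : ∀ i j k, S i j k = S i k j)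
    (hS : ∀ k, ∑ i, S i i k = 0) (hSx : ∀ i j, ∑ k, S i j k * x k = -A i j)
    {q η : ℝ} (hq : ((d : ℝ) - 3) / ((d : ℝ) - 1) ≤ q) (hη : 0 ≤ η) :
    (dot2 A A + η) * (((1 + q) * (dot2 A A + η) - ((d : ℝ) - 1) * η) / dot x x) ≤
      (dot2 A A + η) * (dot3 S S + (4 - (d : ℝ)) * η / dot x x)
        - (2 - q) * ∑ k, (dot2 (fun i j => S i j k) A - η * x k / dot x x) ^ 2 := by
  set r := dot x x
  set a := dot2 A A
  have hAx' : app A x = fun _ => 0 := funext hAx
  set S' : Fin d → Fin d → Fin d → ℝ := fun i j k => S i j k + sym3 A x i j k / r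
  have hs1 : ∀ i j k, sym3 A x i j k = sym3 A x j i k := fun i j k => by
    simp only [sym3, hA j i, hA i k, hA k j]; ring
  have hs2 : ∀ i j k, sym3 A x i j k = sym3 A x i k j := fun i j k => by
    simp only [sym3, hA i k, hA k j, hA j i]; ring
  have hc : ∀ i, ∑ j, A i j * x j = 0 := hAx
  have g1 : ∀ i j k, S' i j k = S' j i k := fun i j k => by simp only [S', h1 i j k, hs1 i j k]
  have g2 : ∀ i j k, S' i j k = S' i k j := fun i j k => by simp only [S', h2 i j k, hs2 i j k]
  have gx : ∀ i j, ∑ k, S' i j k * x k = 0 := fun i j => by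
    have e : ∑ k, sym3 A x i j k * x k = A i j * r := by
      calc ∑ k, sym3 A x i j k * x k
          = ∑ k, (A i j * (x k * x k) + x i * (A j k * x k) + x j * (A i k * x k)) :=
            sum_congr rfl fun k _ => by simp only [sym3, hA k i]; ring
        _ = A i j * r := by
            rw [sum_add_distrib, sum_add_distrib, ← mul_sum, ← mul_sum, ← mul_sum, hc, hc]
            simp [r, dot]
    simp only [S', add_mul, sum_add_distrib, hSx i j, div_mul_eq_mul_div, ← sum_div, e]
    rw [mul_div_assoc, div_self hx]
    ring
  have gt : ∀ k, ∑ i, S' i i k = 0 := fun k => by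
    have e : ∑ i, sym3 A x i i k = 0 := by
      calc ∑ i, sym3 A x i i k = ∑ i, (A i i * x k + 2 * (A k i * x i)) :=
            sum_congr rfl fun i _ => by simp only [sym3, hA i k]; ring
        _ = 0 := by rw [sum_add_distrib, ← sum_mul, htr, ← mul_sum, hc]; ring
    simp only [S', sum_add_distrib, hS k, ← sum_div, e, zero_div, add_zero]
  set v : Fin d → ℝ := fun k => dot2 (fun i j => S' i j k) A
  have hxv : ∑ k, v k * x k = 0 := by
    simp only [v, dot2, sum_mul]
    rw [sum_comm]
    refine sum_eq_zero fun i _ => ?_
    rw [sum_comm]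
    refine sum_eq_zero fun j _ => ?_
    calc ∑ k, S' i j k * A i j * x k = A i j * ∑ k, S' i j k * x k := by
          rw [mul_sum]; exact sum_congr rfl fun _ _ => by ring
      _ = 0 := by rw [gx]; ring
  have hv : ∀ k, dot2 (fun i j => S i j k) A = v k - a * x k / r := fun k => by
    have e : ∑ i, ∑ j, sym3 A x i j k * A i j = a * x k := by
      calc ∑ i, ∑ j, sym3 A x i j k * A i j
          = ∑ i, ∑ j, (A i j * A i j * x k + A j k * (A j i * x i) + A i k * (A i j * x j)) :=
            sum_congr rfl fun i _ => sum_congr rfl fun j _ => by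
              simp only [sym3, hA j i, hA k i]; ring
        _ = (∑ i, ∑ j, A i j * A i j * x k) + (∑ j, ∑ i, A j k * (A j i * x i))
              + ∑ i, ∑ j, A i k * (A i j * x j) := by
            simp only [sum_add_distrib]
            rw [sum_comm (f := fun i j => A j k * (A j i * x i))]
        _ = a * x k := by
            simp only [← mul_sum, hc, mul_zero, sum_const_zero, add_zero, a, dot2, sum_mul]
    simp only [v, S', dot2, add_mul, sum_add_distrib, div_mul_eq_mul_div, ← sum_div, e]
    ring
  have hSS : dot3 S S = dot3 S' S' + 3 * a / r := by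
    have e : dot3 S S = dot3 S' S' - 2 / r * dot3 S' (sym3 A x)
        + 1 / r ^ 2 * dot3 (sym3 A x) (sym3 A x) := by
      simp only [S', dot3, mul_sum, ← sum_sub_distrib, ← sum_add_distrib]
      exact sum_congr rfl fun i _ => sum_congr rfl fun j _ => sum_congr rfl fun k _ => by ring
    rw [e, dot3_sym3 g1 g2, sym3_dot3 hA hA, hxv, hAx',
      show dot x x = r from rfl, show dot2 A A = a from rfl]
    simp only [dot, mul_zero, sum_const_zero]
    field_simp
    ring
  have hsum : ∑ k, (dot2 (fun i j => S i j k) A - η * x k / r) ^ 2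
      = (∑ k, v k ^ 2) + (a + η) ^ 2 / r := by
    calc ∑ k, (dot2 (fun i j => S i j k) A - η * x k / r) ^ 2
        = ∑ k, (v k ^ 2 - 2 * (a + η) / r * (v k * x k) + (a + η) ^ 2 / r ^ 2 * (x k * x k)) :=
          sum_congr rfl fun k _ => by rw [hv]; ring
      _ = _ := by
          rw [sum_add_distrib, sum_sub_distrib, ← mul_sum, ← mul_sum, hxv,
            show ∑ k, x k * x k = r from rfl]
          field_simp
          ring
  have hk := kato hd hx hA htr hAx g1 g2 gt gx
  rw [hSS, hsum]
  have hd' : (3 : ℝ) ≤ d := by exact_mod_cast hd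
  have hkey : (2 - q) * ∑ k, v k ^ 2 ≤ (a + η) * dot3 S' S' := by
    have hc2 : (2 - q) * ((d : ℝ) - 1) ≤ (d : ℝ) + 1 := by
      rw [div_le_iff₀ (by linarith)] at hq
      linarith
    have hmain : (2 - q) * ∑ k, v k ^ 2 ≤ a * dot3 S' S' := by
      have h0 : 0 ≤ ∑ k, v k ^ 2 := sum_nonneg fun _ _ => sq_nonneg _
      have : ((d : ℝ) - 1) * ((2 - q) * ∑ k, v k ^ 2) ≤ ((d : ℝ) - 1) * (a * dot3 S' S') := by
        refine le_trans ?_ hk
        rw [← mul_assoc, mul_comm ((d : ℝ) - 1)]
        exact mul_le_mul_of_nonneg_right hc2 h0
      exact le_of_mul_le_mul_left this (by linarith)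
    linarith [mul_nonneg hη (dot3_self_nonneg S')]
  rw [← sub_nonneg]
  calc (0 : ℝ) ≤ (a + η) * dot3 S' S' - (2 - q) * ∑ k, v k ^ 2 := sub_nonneg.2 hkey
    _ = _ := by ring

/-- On the free boundary: a symmetric matrix vanishing on the orthogonal complement of a unit vector. -/
theorem boundary_trace {N : Fin d → ℝ} (hN : dot N N = 1) {R : Fin d → Fin d → ℝ}
    (hR : ∀ i j, R i j = R j i) (h0 : ∀ v, dot v N = 0 → dot (app R v) v = 0)
    {A : Fin d → Fin d → ℝ} (hA : ∀ i j, A i j = A j i) {h : ℝ} (hAN : ∀ i, app A N i = h * N i) :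
    dot2 R A = h * ∑ i, R i i := by
  set r := app R N
  set ρ := dot r N
  have hP : ∀ v w, dot v N = 0 → dot w N = 0 → dot (app R v) w = 0 := by
    intro v w hv hw
    have h3 := h0 (fun i => v i + w i) (by
      rw [show dot (fun i => v i + w i) N = dot v N + dot w N by
        simp only [dot, add_mul, sum_add_distrib], hv, hw, add_zero])
    have e : dot (app R fun i => v i + w i) (fun i => v i + w i)
        = dot (app R v) v + 2 * dot (app R v) w + dot (app R w) w := by
      have e1 : dot (app R w) v = dot (app R v) w := by rw [dot_app hR w v, dot_comm]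
      have e2 : app R (fun i => v i + w i) = fun i => app R v i + app R w i := funext fun i => by
        simp only [app, mul_add, sum_add_distrib]
      rw [e2, show dot (fun i => app R v i + app R w i) (fun i => v i + w i)
        = dot (app R v) v + dot (app R v) w + (dot (app R w) v + dot (app R w) w) by
          simp only [dot, add_mul, mul_add, sum_add_distrib]; ring]
      rw [e1]; ring
    rw [e, h0 v hv, h0 w hw] at h3
    linarith
  have hent : ∀ k l, R k l = N k * r l + r k * N l - ρ * N k * N l := by
    intro k l
    set v : Fin d → ℝ := fun i => (if i = k then 1 else 0) - N k * N i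
    set w : Fin d → ℝ := fun i => (if i = l then 1 else 0) - N l * N i
    have hperp : ∀ k, dot (fun i => (if i = k then (1 : ℝ) else 0) - N k * N i) N = 0 := fun k => by
      have : ∑ i, N k * N i * N i = N k := by
        rw [show ∑ i, N k * N i * N i = N k * dot N N by
          rw [dot, mul_sum]; exact sum_congr rfl fun _ _ => by ring, hN, mul_one]
      simp [dot, sub_mul, sum_sub_distrib, ite_mul, this]
    have h3 := hP v w (hperp k) (hperp l)
    have hv : app R v = fun i => R i k - N k * r i := funext fun i => by
      simp only [app, v, r, mul_sub, sum_sub_distrib, mul_ite, mul_one, mul_zero, sum_ite_eq', mem_univ,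
        if_true, mul_sum]
      congr 1
      exact sum_congr rfl fun _ _ => by ring
    have e : dot (app R v) w = R l k - N k * r l - N l * r k + N k * N l * ρ := by
      rw [hv]
      have e4 : ∑ i, (R i k - N k * r i) * (N l * N i) = N l * r k - N k * N l * ρ := by
        simp only [sub_mul, sum_sub_distrib]
        congr 1
        · simp only [r, app, mul_sum]
          exact sum_congr rfl fun i _ => by rw [hR i k]; ring
        · simp only [ρ, dot, mul_sum]
          exact sum_congr rfl fun i _ => by ring
      simp only [dot, w, mul_sub, sum_sub_distrib, mul_ite, mul_one, mul_zero, sum_ite_eq', mem_univ,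
        if_true, e4]
      ring
    rw [e, hR l k] at h3
    linarith
  have htr : ∑ i, R i i = ρ := by
    calc ∑ i, R i i = ∑ i, (2 * (r i * N i) - ρ * (N i * N i)) :=
          sum_congr rfl fun i _ => by rw [hent i i]; ring
      _ = ρ := by
          rw [sum_sub_distrib, ← mul_sum, ← mul_sum, show ∑ i, r i * N i = ρ from rfl,
            show ∑ i, N i * N i = 1 from hN]
          ring
  rw [htr]
  have hN' : ∀ i, ∑ j, A i j * N j = h * N i := hAN
  calc dot2 R A = ∑ i, ∑ j, (N i * (A j i * r j) + r i * (A i j * N j) - ρ * (N i * (A i j * N j))) :=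
        sum_congr rfl fun i _ => sum_congr rfl fun j _ => by rw [hent i j, hA j i]; ring
    _ = (∑ j, r j * ∑ i, A j i * N i) + (∑ i, r i * ∑ j, A i j * N j)
          - ρ * ∑ i, N i * ∑ j, A i j * N j := by
        simp only [sum_sub_distrib, sum_add_distrib, mul_sum]
        congr 2
        rw [sum_comm]
        exact sum_congr rfl fun i _ => sum_congr rfl fun j _ => by ring
    _ = h * ρ := by
        simp only [hN', mul_left_comm _ h, ← mul_sum, show ∑ i, r i * N i = ρ from rfl,
          show ∑ i, N i * N i = 1 from hN]
        ring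

/-- Curvatures between zero and three quarters of the mean curvature satisfy the cubic condition. -/
theorem pinched_cubic {N : Fin d → ℝ} (hN : dot N N = 1) {A : Fin d → Fin d → ℝ}
    (hA : ∀ i j, A i j = A j i) (htr : ∑ i, A i i = 0) {h : ℝ} (hAN : ∀ i, app A N i = h * N i)
    (hpos : ∀ v, dot v N = 0 → 0 ≤ dot (app A v) v)
    (hup : ∀ v, dot v N = 0 → dot (app A v) v ≤ 3 / 4 * -h * dot v v) :
    dot2 (fun i j => ∑ k, A i k * A k j) A ≤ -(1 / 4) * -h * dot2 A A := by
  set c := 3 / 4 * -h
  set T : Fin d → Fin d → ℝ := fun i j => A i j - h * (N i * N j)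
  have hT : ∀ i j, T i j = T j i := fun i j => by simp only [T, hA i j, mul_comm (N i)]
  have hTv : ∀ v, app T v = fun i => app A v i - h * dot N v * N i := fun v => funext fun i => by
    rw [app_sub_smul]
    simp only [app, dot, mul_sum, sum_mul]
    congr 1
    exact sum_congr rfl fun _ _ => by ring
  have hTN : app T N = fun _ => 0 := by rw [hTv]; funext i; rw [hAN, hN]; ring
  -- `T` is the tangential part
  have hform : ∀ v, dot (app T v) v
      = dot (app A fun i => v i - dot N v * N i) (fun i => v i - dot N v * N i) := fun v => by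
    set s := dot N v
    have e : app A (fun i => v i - s * N i) = fun i => app A v i - s * (h * N i) := funext fun i => by
      rw [← hAN i]
      simp only [app, mul_sub, sum_sub_distrib, mul_sum]
      congr 1
      exact sum_congr rfl fun _ _ => by ring
    have e1 : ∑ i, app A v i * N i = h * s := by
      have := dot_app hA v N
      rw [show app A N = fun i => h * N i from funext hAN] at this
      rw [show ∑ i, app A v i * N i = dot (app A v) N from rfl, this]
      simp only [s, dot, mul_sum]
      exact sum_congr rfl fun _ _ => by ring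
    rw [hTv, e]
    calc dot (fun i => app A v i - h * s * N i) v = dot (app A v) v - h * s * s := by
          simp only [dot, sub_mul, sum_sub_distrib, mul_sum, s, sum_mul]
          congr 1
          rw [sum_comm]
          exact sum_congr rfl fun _ _ => sum_congr rfl fun _ _ => by ring
      _ = ∑ i, (app A v i * v i - s * (app A v i * N i) - h * s * (N i * v i)
            + h * s * s * (N i * N i)) := by
          rw [sum_add_distrib, sum_sub_distrib, sum_sub_distrib, ← mul_sum, ← mul_sum, ← mul_sum, e1,
            show ∑ i, N i * v i = s from rfl, show ∑ i, N i * N i = 1 from hN,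
            show dot (app A v) v = ∑ i, app A v i * v i from rfl]
          ring
      _ = _ := sum_congr rfl fun i _ => by ring
  have hperp : ∀ v, dot (fun i => v i - dot N v * N i) N = 0 := fun v => by
    calc dot (fun i => v i - dot N v * N i) N = ∑ i, (N i * v i - dot N v * (N i * N i)) :=
          sum_congr rfl fun _ _ => by ring
      _ = 0 := by
          rw [sum_sub_distrib, ← mul_sum, show ∑ i, N i * N i = 1 from hN,
            show ∑ i, N i * v i = dot N v from rfl]
          ring
  have hT0 : ∀ v, 0 ≤ dot (app T v) v := fun v => hform v ▸ hpos _ (hperp v)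
  have htrT : ∑ i, T i i = -h := by
    simp only [T, sum_sub_distrib, htr, ← mul_sum, show ∑ i, N i * N i = 1 from hN]
    ring
  have hh : 0 ≤ -h := by
    rw [← htrT]
    refine sum_nonneg fun i _ => ?_
    simpa [dot, app] using hT0 fun j => if j = i then 1 else 0
  have hc0 : 0 ≤ c := mul_nonneg (by norm_num) hh
  have hTc : ∀ v, dot (app T v) v ≤ c * dot v v := fun v => by
    rw [hform]
    refine (hup _ (hperp v)).trans (mul_le_mul_of_nonneg_left ?_ hc0)
    calc dot (fun i => v i - dot N v * N i) (fun i => v i - dot N v * N i)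
        = dot v v - dot N v ^ 2 := by
          calc _ = ∑ i, (v i * v i - 2 * dot N v * (N i * v i) + dot N v ^ 2 * (N i * N i)) :=
                sum_congr rfl fun _ _ => by ring
            _ = _ := by
                rw [sum_add_distrib, sum_sub_distrib, ← mul_sum, ← mul_sum,
                  show ∑ i, N i * N i = 1 from hN, show ∑ i, N i * v i = dot N v from rfl,
                  show ∑ i, v i * v i = dot v v from rfl]
                ring
      _ ≤ _ := sub_le_self _ (sq_nonneg _)
  -- Cauchy-Schwarz for the form of `T`
  have hCS : ∀ v, dot (app T v) (app T v) ≤ c * dot (app T v) v := fun v => by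
    set w := app T v
    have hq : ∀ t : ℝ, 0 ≤ dot (app T w) w * (t * t) + 2 * dot w w * t + dot w v := fun t => by
      have h3 := hT0 fun i => v i + t * w i
      have e : app T (fun i => v i + t * w i) = fun i => w i + t * app T w i := funext fun i => by
        simp only [app, w, mul_add, sum_add_distrib, mul_sum]
        congr 1
        exact sum_congr rfl fun _ _ => sum_congr rfl fun _ _ => by ring
      rw [e] at h3
      refine h3.trans_eq ?_
      have e2 : ∑ i, app T w i * v i = dot w w := dot_app hT w v
      calc dot (fun i => w i + t * app T w i) (fun i => v i + t * w i)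
          = ∑ i, (app T w i * w i * (t * t) + (app T w i * v i) * t + w i * w i * t + w i * v i) :=
            sum_congr rfl fun _ _ => by ring
        _ = _ := by
            rw [sum_add_distrib, sum_add_distrib, sum_add_distrib, ← sum_mul, ← sum_mul, ← sum_mul, e2,
              show ∑ i, app T w i * w i = dot (app T w) w from rfl,
              show ∑ i, w i * w i = dot w w from rfl, show ∑ i, w i * v i = dot w v from rfl]
            ring
    have h3 := discrim_le_zero hq
    rw [discrim] at h3
    have h4 : dot w w * dot w w ≤ dot w w * (c * dot w v) := by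
      have h6 : dot (app T w) w * dot w v ≤ c * dot w w * dot w v :=
        mul_le_mul_of_nonneg_right (hTc w) (hT0 v)
      linarith
    rcases (dot_self_nonneg w).eq_or_lt with h5 | h5
    · rw [← h5]; exact mul_nonneg hc0 (hT0 v)
    · exact le_of_mul_le_mul_left h4 h5
  set e : Fin d → Fin d → ℝ := fun k j => if j = k then 1 else 0
  have hcol : ∀ k, app T (e k) = fun i => T i k := fun k => funext fun i => by simp [app, e]
  have hT2 : dot2 T T ≤ c * -h := by
    calc dot2 T T = ∑ k, dot (app T (e k)) (app T (e k)) := by
          simp only [hcol, dot, dot2]; rw [sum_comm]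
      _ ≤ ∑ k, c * dot (app T (e k)) (e k) := sum_le_sum fun k _ => hCS _
      _ = _ := by rw [← mul_sum, ← htrT]; simp [hcol, dot, e]
  have hT3 : dot2 (fun i j => ∑ k, T i k * T k j) T ≤ c * dot2 T T := by
    calc dot2 (fun i j => ∑ k, T i k * T k j) T
        = ∑ j, dot (app T fun i => T i j) (fun i => T i j) := by
          simp only [dot2, dot, app]; rw [sum_comm]
      _ ≤ ∑ j, c * dot (fun i => T i j) (fun i => T i j) := sum_le_sum fun j _ => hTc _
      _ = _ := by rw [← mul_sum]; simp only [dot, dot2]; rw [sum_comm]
  have hNT : ∀ i, ∑ k, T i k * N k = 0 := fun i => congr_fun hTN i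
  have eA : dot2 A A = dot2 T T + h ^ 2 := by
    calc dot2 A A = ∑ i, ∑ j, (T i j * T i j + 2 * h * (N i * (T i j * N j))
          + h ^ 2 * (N i * N i * (N j * N j))) :=
        sum_congr rfl fun i _ => sum_congr rfl fun j _ => by simp only [T]; ring
      _ = _ := by
          simp only [sum_add_distrib, ← mul_sum, hNT, mul_zero, sum_const_zero, add_zero,
            show ∑ i, N i * N i = 1 from hN, mul_one, dot2]
  have eA2 : ∀ i j, ∑ k, A i k * A k j = (∑ k, T i k * T k j) + h ^ 2 * (N i * N j) := fun i j => by
    calc ∑ k, A i k * A k j = ∑ k, (T i k * T k j + h * N j * (T i k * N k) + h * N i * (T j k * N k)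
          + h ^ 2 * (N i * N j) * (N k * N k)) :=
        sum_congr rfl fun k _ => by simp only [T, hA j k]; ring
      _ = _ := by
          simp only [sum_add_distrib, ← mul_sum, hNT, mul_zero, add_zero,
            show ∑ i, N i * N i = 1 from hN, mul_one]
  have eA3 : dot2 (fun i j => ∑ k, A i k * A k j) A = dot2 (fun i j => ∑ k, T i k * T k j) T + h ^ 3 := by
    calc dot2 (fun i j => ∑ k, A i k * A k j) A
        = ∑ i, ∑ j, ((∑ k, T i k * T k j) * T i j + h * N i * ((∑ k, T i k * T k j) * N j)
          + h ^ 2 * (N i * (T i j * N j)) + h ^ 3 * (N i * N i * (N j * N j))) :=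
        sum_congr rfl fun i _ => sum_congr rfl fun j _ => by beta_reduce; rw [eA2]; simp only [T]; ring
      _ = _ := by
          have e5 : ∀ i, ∑ j, (∑ k, T i k * T k j) * N j = 0 := fun i => by
            simp only [sum_mul]
            rw [sum_comm]
            exact sum_eq_zero fun k _ => by simp only [mul_assoc, ← mul_sum, hNT, mul_zero]
          simp only [sum_add_distrib, ← mul_sum, hNT, e5, mul_zero, sum_const_zero, add_zero,
            show ∑ i, N i * N i = 1 from hN, mul_one, dot2]
  rw [eA3, eA]
  simp only [c] at hT3 hT2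
  have h7 := mul_le_mul_of_nonneg_left hT2 hh
  linarith

end

end Vale.Agent.P098.Cone
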