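import Vale.Agent.P098.Cone.Basic
import Vale.Agent.P098.Cone.Pointwise

/-!
# P098: the Hessian on the free boundary

Differentiating `|∇w| = 1` twice along the zero set of `w` expresses the normal derivative of the square
of the Hessian through the Hessian.
-/

namespace Vale.Agent.P098.Cone

open Set Filter Topology Finset
open scoped ContDiff

noncomputable section

variable {d : ℕ} {u w f g : (Fin d → ℝ) → ℝ} {O : Set (Fin d → ℝ)} {y n v : Fin d → ℝ}

/-- Near a free boundary point the positivity set of `w` lies in that of `u`. -/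
theorem RegularCone.pos_near (h : RegularCone u O w) (hy : y ∈ frontier {z | 0 < u z}) (hyO : y ∈ O)
    (hy0 : y ≠ 0) : ∀ᶠ z in 𝓝 y, 0 < w z → 0 < u z := by
  set N := grad w y
  have hN : dot N N = 1 := (sum_congr rfl fun i _ => (sq (pd w i y)).symm).trans (h.free y hy hy0)
  have hcont : ContinuousOn (fun z => fderiv ℝ w z N) O :=
    ((h.smooth.continuousOn_fderiv_of_isOpen h.isOpen (by simp)).clm_apply continuousOn_const)
  have hfy : fderiv ℝ w y N = 1 := by rw [fderiv_eq_sum]; exact hN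
  obtain ⟨ρ, hρ, hρs⟩ := Metric.mem_nhds_iff.1 (show {z | z ∈ O ∧ 1 / 2 < fderiv ℝ w z N} ∈ 𝓝 y from
    inter_mem (h.isOpen.mem_nhds hyO)
      ((hcont.continuousAt (h.isOpen.mem_nhds hyO)).eventually (lt_mem_nhds (show (1 : ℝ) / 2 < fderiv ℝ w y N by rw [hfy]; norm_num))))
  set σ := ρ / (2 * (‖N‖ + 1))
  have hσ : 0 < σ := by positivity
  have hmem : ∀ z ∈ Metric.ball y (ρ / 2), ∀ s ∈ Icc (0 : ℝ) σ, z + s • N ∈ Metric.ball y ρ := by
    intro z hz s hs
    rw [Metric.mem_ball, dist_eq_norm] at hz ⊢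
    calc ‖z + s • N - y‖ ≤ ‖z - y‖ + ‖s • N‖ := by rw [add_sub_right_comm]; exact norm_add_le _ _
      _ < ρ / 2 + ρ / 2 := by
          refine add_lt_add_of_lt_of_le hz ?_
          rw [norm_smul, Real.norm_eq_abs, abs_of_nonneg hs.1]
          calc s * ‖N‖ ≤ σ * (‖N‖ + 1) := mul_le_mul hs.2 (by linarith) (norm_nonneg _) hσ.le
            _ = ρ / 2 := by simp only [σ]; field_simp
      _ = ρ := by ring
  have hmono : ∀ z ∈ Metric.ball y (ρ / 2), ∀ s ∈ Icc (0 : ℝ) σ, w z + s / 2 ≤ w (z + s • N) := by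
    intro z hz s hs
    have hd : ∀ r ∈ Icc (0 : ℝ) σ,
        HasDerivAt (fun r => w (z + r • N) - r / 2) (fderiv ℝ w (z + r • N) N - 1 / 2) r := fun r hr => by
      have h1 : HasDerivAt (fun r : ℝ => z + r • N) N r := by
        simpa using ((hasDerivAt_id r).smul_const N).const_add z
      exact ((differentiableAt_of_smooth h.smooth h.isOpen (hρs (hmem z hz r hr)).1).hasFDerivAt.comp_hasDerivAt
        r h1).sub ((hasDerivAt_id r).div_const 2)
    have h2 := monotoneOn_of_deriv_nonneg (convex_Icc (0 : ℝ) σ)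
      (fun r hr => (hd r hr).continuousAt.continuousWithinAt)
      (fun r hr => (hd r (interior_subset hr)).differentiableAt.differentiableWithinAt)
      (fun r hr => by
        rw [(hd r (interior_subset hr)).deriv]
        linarith [(hρs (hmem z hz r (interior_subset hr))).2])
      (left_mem_Icc.2 hσ.le) hs hs.1
    simp only [zero_smul, add_zero, zero_div, sub_zero] at h2
    linarith
  -- one end of a segment on which `w` is positive decides the other
  have hstay : ∀ z ∈ Metric.ball y (ρ / 2), 0 < w z → (0 < u z ↔ 0 < u (z + σ • N)) := by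
    intro z hz hwz
    have hc : ContinuousOn (fun s : ℝ => u (z + s • N)) (Set.uIcc 0 σ) :=
      (h.continuous.comp (continuous_const.add (continuous_id.smul continuous_const))).continuousOn
    have hval : ∀ s ∈ Icc (0 : ℝ) σ, 0 < u (z + s • N) → w z ≤ u (z + s • N) := fun s hs hp => by
      rw [← h.agree _ (h.mem_of_pos hp) hp]
      linarith [hmono z hz s hs, hs.1]
    by_contra hcon
    have hmid : w z / 2 ∈ Set.uIcc (u (z + (0 : ℝ) • N)) (u (z + σ • N)) := by
      rw [zero_smul, add_zero]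
      rcases not_iff.1 hcon with hh
      by_cases h0 : 0 < u z
      · have h1 : u (z + σ • N) = 0 :=
          le_antisymm (not_lt.1 fun hp => hh.2 hp h0) (h.nonneg _)
        have h2 : w z = u z := h.agree z (h.mem_of_pos h0) h0
        rw [h1, Set.mem_uIcc]
        exact .inr ⟨by linarith, by linarith⟩
      · have h1 : 0 < u (z + σ • N) := hh.1 h0
        have h2 := hval σ (right_mem_Icc.2 hσ.le) h1
        rw [le_antisymm (not_lt.1 h0) (h.nonneg _), Set.mem_uIcc]
        exact .inl ⟨by linarith, by linarith⟩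
    obtain ⟨s, hs, hs'⟩ := intermediate_value_uIcc hc hmid
    rw [Set.uIcc_of_le hσ.le] at hs
    simp only at hs'
    have := hval s hs (by linarith)
    linarith
  have hy2 : y ∈ Metric.ball y (ρ / 2) := Metric.mem_ball_self (half_pos hρ)
  have htop : 0 < u (y + σ • N) := by
    obtain ⟨p, hp, hlim⟩ := mem_closure_iff_seq_limit.1 (RegularCone.mem_closure_of_frontier hy)
    have hev : ∀ᶠ k in atTop, u (p k + σ • N) = w (p k + σ • N) := by
      filter_upwards [hlim.eventually (Metric.ball_mem_nhds y (half_pos hρ))] with k hk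
      have hwp : 0 < w (p k) := by rw [h.agree _ (h.mem_of_pos (hp k)) (hp k)]; exact hp k
      have := (hstay _ hk hwp).1 (hp k)
      rw [h.agree _ (h.mem_of_pos this) this]
    have hmemO : y + σ • N ∈ O := (hρs (hmem y hy2 σ (right_mem_Icc.2 hσ.le))).1
    have l1 : Tendsto (fun k => u (p k + σ • N)) atTop (𝓝 (u (y + σ • N))) :=
      (h.continuous.tendsto _).comp (hlim.add_const _)
    have l2 : Tendsto (fun k => w (p k + σ • N)) atTop (𝓝 (w (y + σ • N))) :=
      ((h.smooth.continuousOn.continuousAt (h.isOpen.mem_nhds hmemO)).tendsto).comp (hlim.add_const _)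
    rw [tendsto_nhds_unique (l1.congr' hev) l2]
    have hwy : w y = 0 := by
      rw [h.w_eq (RegularCone.mem_closure_of_frontier hy) hyO, h.u_eq_zero_of_frontier hy]
    linarith [hmono y hy2 σ (right_mem_Icc.2 hσ.le)]
  filter_upwards [Metric.ball_mem_nhds y (half_pos hρ),
    ((h.continuous.comp (continuous_id.add continuous_const)).tendsto y).eventually
      (lt_mem_nhds htop)] with z hz hz' hwz
  exact (hstay z hz hwz).2 hz'

/-- The zero set of `w` near a free boundary point is free boundary. -/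
theorem RegularCone.zero_near (h : RegularCone u O w) (h0 : (0 : Fin d → ℝ) ∉ O)
    (hy : y ∈ frontier {z | 0 < u z}) (hyO : y ∈ O) :
    ∀ᶠ z in 𝓝 y, w z = 0 → z ∈ frontier {z | 0 < u z} := by
  have hy0 : y ≠ 0 := fun e => h0 (e ▸ hyO)
  set N := grad w y
  have hN : dot N N = 1 := (sum_congr rfl fun i _ => (sq (pd w i y)).symm).trans (h.free y hy hy0)
  have hcont : ContinuousOn (fun z => fderiv ℝ w z N) O :=
    ((h.smooth.continuousOn_fderiv_of_isOpen h.isOpen (by simp)).clm_apply continuousOn_const)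
  have hfy : fderiv ℝ w y N = 1 := by rw [fderiv_eq_sum]; exact hN
  filter_upwards [(h.pos_near hy hyO hy0).eventually_nhds, h.isOpen.mem_nhds hyO,
    (hcont.continuousAt (h.isOpen.mem_nhds hyO)).eventually (lt_mem_nhds (show (0 : ℝ) < fderiv ℝ w y N by
      rw [hfy]; exact one_pos))] with z hz hzO hzd hwz
  rw [h.isOpen_pos.frontier_eq]
  refine ⟨?_, fun hp => by rw [h.agree z hzO hp] at hwz; exact (hwz ▸ hp : (0 : ℝ) < 0).false⟩
  -- points just above are positive
  have hd : HasDerivAt (fun s : ℝ => w (z + s • N)) (fderiv ℝ w z N) 0 := by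
    have h1 : HasDerivAt (fun r : ℝ => z + r • N) N 0 := by
      simpa using ((hasDerivAt_id (0 : ℝ)).smul_const N).const_add z
    have := ((differentiableAt_of_smooth h.smooth h.isOpen (show z + (0 : ℝ) • N ∈ O by simpa using hzO)
      ).hasFDerivAt.comp_hasDerivAt (0 : ℝ) h1)
    simpa [Function.comp_def] using this
  have hl : Tendsto (fun s : ℝ => z + s • N) (𝓝[>] 0) (𝓝 z) := by
    have : Continuous fun s : ℝ => z + s • N := by fun_prop
    simpa using (this.tendsto 0).mono_left nhdsWithin_le_nhds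
  refine mem_closure_of_tendsto hl ?_
  have h2 := ((hasDerivAt_iff_tendsto_slope.1 hd).mono_left
    (nhdsWithin_mono 0 fun s hs => ne_of_gt hs)).eventually (lt_mem_nhds hzd)
  filter_upwards [h2, hl.eventually hz, self_mem_nhdsWithin] with s hs hs' (hs0 : 0 < s)
  refine hs' ?_
  rw [slope_def_field] at hs
  have := (div_pos_iff_of_pos_right (sub_pos.2 hs0)).1 hs
  simpa [hwz] using this

/-- Zeros of `f` at height quadratic in `t` over a tangent line. -/
theorem exists_zero (hO : IsOpen O) (hf : ContDiffOn ℝ 2 f O) (hy : y ∈ O) (hf0 : f y = 0)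
    (hn : fderiv ℝ f y n = 1) (hv : fderiv ℝ f y v = 0) :
    ∃ K : ℝ, 0 ≤ K ∧ ∀ᶠ t : ℝ in 𝓝 0, ∃ s : ℝ, |s| ≤ K * t ^ 2 ∧ f (y + t • v + s • n) = 0 := by
  obtain ⟨C, hC, hCb⟩ := (((hf.fderiv_of_isOpen hO (m := 1) (by norm_num)).differentiableOn
    one_ne_zero).differentiableAt (hO.mem_nhds hy)).hasFDerivAt.isBigO_sub.exists_pos
  obtain ⟨ρ, hρ, hρs⟩ := Metric.mem_nhds_iff.1
    (inter_mem (hO.mem_nhds hy) (Asymptotics.isBigOWith_iff.1 hCb))
  have hquad : ∀ z, ‖z‖ < ρ → |f (y + z) - fderiv ℝ f y z| ≤ C * ‖z‖ ^ 2 := by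
    intro z hz
    have hsub : Metric.closedBall y ‖z‖ ⊆ Metric.ball y ρ := Metric.closedBall_subset_ball hz
    have h := (convex_closedBall y ‖z‖).norm_image_sub_le_of_norm_fderiv_le' (f := f) (φ := fderiv ℝ f y)
      (C := C * ‖z‖) (fun p hp => differentiableAt_of_smooth hf hO (hρs (hsub hp)).1)
      (fun p hp => ((hρs (hsub hp)).2).trans (mul_le_mul_of_nonneg_left
        (by simpa [dist_eq_norm] using hp) hC.le))
      (Metric.mem_closedBall_self (norm_nonneg z)) (y := y + z) (by simp [dist_eq_norm])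
    simp only [add_sub_cancel_left, hf0, sub_zero, Real.norm_eq_abs] at h
    linarith
  set K := C * (‖v‖ + 1) ^ 2 + 1
  have hK : 0 < K := by positivity
  refine ⟨K, hK.le, ?_⟩
  have e1 : ∀ᶠ t : ℝ in 𝓝 0, K * |t| * ‖n‖ ≤ 1 ∧ |t| * (‖v‖ + 1) < ρ :=
    ((Continuous.tendsto (by fun_prop) 0).eventually (ge_mem_nhds (by simp : K * |(0 : ℝ)| * ‖n‖ < 1))).and
      ((Continuous.tendsto (by fun_prop) 0).eventually (gt_mem_nhds (by simpa using hρ :
        |(0 : ℝ)| * (‖v‖ + 1) < ρ)))
  filter_upwards [e1] with t ⟨ht1, ht2⟩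
  have hnorm : ∀ s ∈ Icc (-(K * t ^ 2)) (K * t ^ 2), ‖t • v + s • n‖ ≤ |t| * (‖v‖ + 1) := fun s hs => by
    refine (norm_add_le _ _).trans ?_
    rw [norm_smul, norm_smul, Real.norm_eq_abs, Real.norm_eq_abs, mul_add, mul_one]
    refine add_le_add_right ?_ _
    calc |s| * ‖n‖ ≤ K * t ^ 2 * ‖n‖ := mul_le_mul_of_nonneg_right (abs_le.2 hs) (norm_nonneg _)
      _ = |t| * (K * |t| * ‖n‖) := by rw [← sq_abs t]; ring
      _ ≤ |t| * 1 := mul_le_mul_of_nonneg_left ht1 (abs_nonneg _)
      _ = |t| := mul_one _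
  have hval : ∀ s ∈ Icc (-(K * t ^ 2)) (K * t ^ 2),
      |f (y + t • v + s • n) - s| ≤ (K - 1) * t ^ 2 := fun s hs => by
    have h := hquad (t • v + s • n) ((hnorm s hs).trans_lt ht2)
    rw [map_add, map_smul, map_smul, hv, hn, smul_zero, zero_add, smul_eq_mul, mul_one, ← add_assoc] at h
    refine h.trans ((mul_le_mul_of_nonneg_left (pow_le_pow_left₀ (norm_nonneg _) (hnorm s hs) 2) hC.le).trans
      (le_of_eq ?_))
    simp only [K]
    rw [mul_pow, sq_abs]
    ring
  have hKt : -(K * t ^ 2) ≤ K * t ^ 2 := by linarith [mul_nonneg hK.le (sq_nonneg t)]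
  have hc : ContinuousOn (fun s : ℝ => f (y + t • v + s • n)) (Icc (-(K * t ^ 2)) (K * t ^ 2)) := by
    refine hf.continuousOn.comp (Continuous.continuousOn (by fun_prop)) fun s hs => (hρs ?_).1
    rw [Metric.mem_ball, dist_eq_norm, add_assoc, add_sub_cancel_left]
    exact (hnorm s hs).trans_lt ht2
  obtain ⟨s, hs, hs'⟩ := intermediate_value_Icc hKt hc (show (0 : ℝ) ∈ Set.Icc _ _ from
    ⟨by linarith [(abs_le.1 (hval _ (left_mem_Icc.2 hKt))).2, sq_nonneg t],
      by linarith [(abs_le.1 (hval _ (right_mem_Icc.2 hKt))).1, sq_nonneg t]⟩)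
  exact ⟨s, abs_le.2 hs, hs'⟩

/-- A function vanishing on the zero set of `f` has no tangential derivative, and no tangential second
derivative where its derivative vanishes. -/
theorem tangential (hO : IsOpen O) (hf : ContDiffOn ℝ 2 f O) (hg : ContDiffOn ℝ 2 g O) (hy : y ∈ O)
    (hf0 : f y = 0) (hzero : ∀ᶠ z in 𝓝 y, f z = 0 → g z = 0)
    (hn : fderiv ℝ f y n = 1) (hv : fderiv ℝ f y v = 0) :
    fderiv ℝ g y v = 0 ∧ (fderiv ℝ g y = 0 → fderiv ℝ (fun z => fderiv ℝ g z v) y v = 0) := by
  obtain ⟨K, hK, hzs⟩ := exists_zero hO hf hy hf0 hn hv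
  set φ : ℝ → ℝ := fun t => g (y + t • v)
  have hφ0 : φ 0 = 0 := by simpa [φ] using hzero.self_of_nhds hf0
  have hbound : ∀ ε : ℝ, 0 < ε → ∀ᶠ t in 𝓝 0, |φ t| ≤ (‖fderiv ℝ g y‖ + ε) * (K * ‖n‖) * t ^ 2 := by
    intro ε hε
    have hc : ContinuousAt (fderiv ℝ g) y :=
      (hg.continuousOn_fderiv_of_isOpen hO (by simp)).continuousAt (hO.mem_nhds hy)
    obtain ⟨ρ, hρ, hρs⟩ := Metric.mem_nhds_iff.1 (inter_mem (inter_mem (hO.mem_nhds hy)
      ((hc.norm).eventually (ge_mem_nhds (lt_add_of_pos_right ‖fderiv ℝ g y‖ hε)))) hzero)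
    have e1 : ∀ᶠ t : ℝ in 𝓝 0, |t| * ‖v‖ + K * t ^ 2 * ‖n‖ < ρ :=
      (Continuous.tendsto (by fun_prop) 0).eventually
        (gt_mem_nhds (by simpa using hρ : |(0 : ℝ)| * ‖v‖ + K * (0 : ℝ) ^ 2 * ‖n‖ < ρ))
    filter_upwards [hzs, e1] with t ⟨s, hs, hs'⟩ ht
    have hn2 : ‖s • n‖ ≤ K * t ^ 2 * ‖n‖ := by
      rw [norm_smul, Real.norm_eq_abs]; exact mul_le_mul_of_nonneg_right hs (norm_nonneg _)
    have h1 : y + t • v ∈ Metric.ball y ρ := by
      rw [Metric.mem_ball, dist_eq_norm, add_sub_cancel_left, norm_smul, Real.norm_eq_abs]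
      linarith [norm_nonneg (s • n)]
    have h2 : y + t • v + s • n ∈ Metric.ball y ρ := by
      rw [Metric.mem_ball, dist_eq_norm, add_assoc, add_sub_cancel_left]
      refine (norm_add_le _ _).trans_lt ?_
      rw [norm_smul t v, Real.norm_eq_abs]
      linarith
    have h := (convex_ball y ρ).norm_image_sub_le_of_norm_fderiv_le (f := g)
      (fun p hp => differentiableAt_of_smooth hg hO (hρs hp).1.1) (fun p hp => (hρs hp).1.2) h2 h1
    rw [(hρs h2).2 hs', sub_zero, Real.norm_eq_abs, sub_add_cancel_left, norm_neg] at h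
    calc |φ t| ≤ (‖fderiv ℝ g y‖ + ε) * (K * t ^ 2 * ‖n‖) :=
          h.trans (mul_le_mul_of_nonneg_left hn2 (by positivity))
      _ = _ := by ring
  have hline : ∀ t : ℝ, y + t • v ∈ O → HasDerivAt φ (fderiv ℝ g (y + t • v) v) t := fun t ht => by
    have h1 : HasDerivAt (fun r : ℝ => y + r • v) v t := by
      simpa using ((hasDerivAt_id t).smul_const v).const_add y
    exact (differentiableAt_of_smooth hg hO ht).hasFDerivAt.comp_hasDerivAt t h1
  have hfirst : fderiv ℝ g y v = 0 := by
    have h1 : HasDerivAt φ (fderiv ℝ g y v) 0 := by simpa using hline 0 (by simpa using hy)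
    have h2 : HasDerivAt φ 0 0 := by
      rw [hasDerivAt_iff_isLittleO_nhds_zero]
      simp only [zero_add, hφ0, sub_zero, smul_zero]
      refine (Asymptotics.IsBigO.of_bound ((‖fderiv ℝ g y‖ + 1) * (K * ‖n‖)) ?_).trans_isLittleO
        (Asymptotics.isLittleO_pow_id one_lt_two)
      filter_upwards [hbound 1 one_pos] with t ht
      simpa [Real.norm_eq_abs] using ht
    exact h1.unique h2
  refine ⟨hfirst, fun hzg => ?_⟩
  set c := fderiv ℝ (fun z => fderiv ℝ g z v) y v
  have hG : DifferentiableAt ℝ (fun z => fderiv ℝ g z v) y :=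
    differentiableAt_of_smooth ((hg.fderiv_of_isOpen hO (m := 1) (by norm_num)).clm_apply contDiffOn_const)
      hO hy
  have hline0 : Tendsto (fun r : ℝ => y + r • v) (𝓝 0) (𝓝 y) := by
    have : Continuous fun r : ℝ => y + r • v := by fun_prop
    simpa using this.tendsto 0
  have h2' : HasDerivAt (fun t : ℝ => fderiv ℝ g (y + t • v) v) c 0 := by
    have h1 : HasDerivAt (fun r : ℝ => y + r • v) v 0 := by
      simpa using ((hasDerivAt_id (0 : ℝ)).smul_const v).const_add y
    exact HasFDerivAt.comp_hasDerivAt_of_eq (0 : ℝ) hG.hasFDerivAt h1 (by simp)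
  by_contra hc0
  set ε := |c| / (8 * (K * ‖n‖ + 1))
  have hcp : 0 < |c| := abs_pos.2 hc0
  have hε : 0 < ε := by positivity
  have hsmall := hbound ε hε
  rw [hzg, norm_zero, zero_add] at hsmall
  have hlin : ∀ᶠ t in 𝓝 (0 : ℝ), |fderiv ℝ g (y + t • v) v - c * t| ≤ |c| / 8 * |t| := by
    rw [hasDerivAt_iff_isLittleO_nhds_zero] at h2'
    filter_upwards [h2'.bound (show 0 < |c| / 8 by positivity)] with t ht
    simpa [hfirst, Real.norm_eq_abs, mul_comm c] using ht
  obtain ⟨τ, hτ, hτs⟩ := Metric.mem_nhds_iff.1 (inter_mem (inter_mem hlin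
    (hline0.eventually (hO.mem_nhds hy))) hsmall)
  have hτ2 : τ / 2 ∈ Metric.ball (0 : ℝ) τ := by
    rw [Metric.mem_ball, dist_zero_right, Real.norm_eq_abs, abs_of_pos (half_pos hτ)]; linarith
  have hin : ∀ r ∈ Icc (0 : ℝ) (τ / 2), r ∈ Metric.ball (0 : ℝ) τ := fun r hr => by
    rw [Metric.mem_ball, dist_zero_right, Real.norm_eq_abs, abs_of_nonneg hr.1]
    linarith [hr.2]
  have hder : ∀ r ∈ Icc (0 : ℝ) (τ / 2), HasDerivWithinAt (fun t => φ t - c / 2 * t ^ 2)
      (fderiv ℝ g (y + r • v) v - c * r) (Icc 0 (τ / 2)) r := fun r hr => by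
    have h1 := (hline r (hτs (hin r hr)).1.2).sub ((hasDerivAt_pow 2 r).const_mul (c / 2))
    refine h1.hasDerivWithinAt.congr_deriv ?_
    push_cast
    ring
  have h3 := (convex_Icc (0 : ℝ) (τ / 2)).norm_image_sub_le_of_norm_hasDerivWithin_le hder
    (C := |c| / 8 * (τ / 2)) (fun r hr => by
      refine ((hτs (hin r hr)).1.1).trans (mul_le_mul_of_nonneg_left ?_ (by positivity))
      rw [abs_of_nonneg hr.1]; exact hr.2)
    (left_mem_Icc.2 (by linarith)) (right_mem_Icc.2 (by linarith))
  have h4 : |φ (τ / 2)| ≤ ε * (K * ‖n‖) * (τ / 2) ^ 2 := (hτs hτ2).2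
  have h6 : ε * (K * ‖n‖) ≤ |c| / 8 := by
    calc ε * (K * ‖n‖) ≤ ε * (K * ‖n‖ + 1) := mul_le_mul_of_nonneg_left (by linarith) hε.le
      _ = |c| / 8 := by simp only [ε]; field_simp
  simp only [hφ0, sq, mul_zero, sub_zero, Real.norm_eq_abs, abs_of_pos (half_pos hτ)] at h3
  have h7 : |c / 2 * (τ / 2 * (τ / 2))| = |c| / 2 * (τ / 2 * (τ / 2)) := by
    rw [abs_mul, abs_div, abs_two, abs_of_nonneg (mul_self_nonneg (τ / 2))]
  have h8 := abs_sub (φ (τ / 2)) (φ (τ / 2) - c / 2 * (τ / 2 * (τ / 2)))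
  rw [sub_sub_cancel, h7] at h8
  have h9 : 0 < |c| * (τ / 2 * (τ / 2)) := by positivity
  have h10 : |φ (τ / 2)| ≤ |c| / 8 * (τ / 2 * (τ / 2)) := by
    refine h4.trans ?_
    rw [sq]
    exact mul_le_mul_of_nonneg_right h6 (mul_self_nonneg _)
  linarith

/-- The identities on the free boundary. -/
theorem RegularCone.free_boundary (h : RegularCone u O w) (h0 : (0 : Fin d → ℝ) ∉ O)
    (hy : y ∈ frontier {z | 0 < u z}) (hyO : y ∈ O) :
    dot (grad w y) (grad w y) = 1 ∧
    (∀ i, app (hessMat w y) (grad w y) i = -meanCurv w y * grad w y i) ∧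
    dot (fun k => dot2 (fun i j => third w y i j k) (hessMat w y)) (grad w y)
      = -2 * meanCurv w y * dot2 (hessMat w y) (hessMat w y)
        - dot2 (fun i j => ∑ k, hessMat w y i k * hessMat w y k j) (hessMat w y) := by
  set N := grad w y
  set A := hessMat w y
  set H := meanCurv w y
  have hy0 : y ≠ 0 := fun e => h0 (e ▸ hyO)
  have hN : dot N N = 1 := (sum_congr rfl fun i _ => (sq (pd w i y)).symm).trans (h.free y hy hy0)
  have hA : ∀ i j, A i j = A j i := hess_comm_of h.smooth h.isOpen hyO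
  have hH : dot (app A N) N = -H := by
    simp only [H, meanCurv, neg_neg, dot, app, sum_mul]
    exact sum_congr rfl fun i _ => sum_congr rfl fun j _ => by simp only [A, N, hessMat, grad]; ring
  set g : (Fin d → ℝ) → ℝ := fun z => (∑ i, pd w i z * pd w i z) - 1
  set k : (Fin d → ℝ) → ℝ := fun z => g z - 2 * -H * w z
  have hgs : ContDiffOn ℝ 3 g O := (ContDiffOn.sum fun i _ =>
    (contDiffOn_pd h.smooth h.isOpen i).mul (contDiffOn_pd h.smooth h.isOpen i)).sub contDiffOn_const
  have hks : ContDiffOn ℝ 3 k O :=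
    hgs.sub (contDiffOn_const.mul (h.smooth.of_le (by norm_num)))
  have hw2 : ContDiffOn ℝ 2 w O := h.smooth.of_le (by norm_num)
  have hk2 : ContDiffOn ℝ 2 k O := hks.of_le (by norm_num)
  have hw0 : w y = 0 := by
    rw [h.w_eq (RegularCone.mem_closure_of_frontier hy) hyO, h.u_eq_zero_of_frontier hy]
  have hz : ∀ᶠ z in 𝓝 y, w z = 0 → k z = 0 := by
    filter_upwards [h.zero_near h0 hy hyO, h.isOpen.mem_nhds hyO] with z hz hzO hwz
    have hz0 : z ≠ 0 := fun e => h0 (e ▸ hzO)
    have := h.free z (hz hwz) hz0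
    simp only [sq] at this
    simp only [k, g, this, hwz]
    ring
  have hn1 : fderiv ℝ w y N = 1 := by rw [fderiv_eq_sum]; exact hN
  have hvN : ∀ v, dot v N = 0 → fderiv ℝ w y v = 0 := fun v hv => by rw [fderiv_eq_sum]; exact hv
  have hd : ∀ i z, z ∈ O → DifferentiableAt ℝ (pd w i) z := fun i z hz' =>
    differentiableAt_of_smooth (contDiffOn_pd h.smooth h.isOpen i) h.isOpen hz'
  have hwd : ∀ z, z ∈ O → DifferentiableAt ℝ w z := fun z hz' =>
    differentiableAt_of_smooth h.smooth h.isOpen hz'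
  have hpk : ∀ z, z ∈ O → ∀ j, pd k j z
      = 2 * (∑ i, pd w i z * hess w i j z) - 2 * -H * pd w j z := by
    intro z hz' j
    have hdg : DifferentiableAt ℝ g z := differentiableAt_of_smooth hgs h.isOpen hz'
    simp only [k]
    rw [pd_sub hdg ((differentiableAt_const _).fun_mul (hwd z hz')),
      pd_mul (differentiableAt_const _) (hwd z hz'), pd_const]
    have hds : DifferentiableAt ℝ (fun y => ∑ i, pd w i y * pd w i y) z :=
      DifferentiableAt.fun_sum fun i _ => (hd i z hz').mul (hd i z hz')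
    simp only [g]
    rw [pd_sub hds (differentiableAt_const _), pd_const,
      pd_sum _ (F := fun i y => pd w i y * pd w i y) (fun i _ => (hd i z hz').mul (hd i z hz'))]
    simp only [pd_mul (hd _ z hz') (hd _ z hz'), ← two_mul, mul_sum, mul_zero, add_zero, sub_zero]
    rfl
  have hpky : ∀ j, pd k j y = 2 * (app A N j - -H * N j) := fun j => by
    rw [hpk y hyO j]
    simp only [mul_sub, app, mul_sum, A, N, hessMat, grad, ← mul_assoc]
    congr 1
    exact sum_congr rfl fun i _ => by rw [hess_comm_of h.smooth h.isOpen hyO i j]; ring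
  -- the first order
  set e : Fin d → ℝ := fun j => app A N j - -H * N j
  have heN : dot e N = 0 := by
    calc dot e N = ∑ j, (app A N j * N j + H * (N j * N j)) := sum_congr rfl fun _ _ => by
          simp only [e]; ring
      _ = 0 := by
          rw [sum_add_distrib, ← mul_sum, show ∑ j, N j * N j = 1 from hN,
            show ∑ j, app A N j * N j = dot (app A N) N from rfl, hH]
          ring
  have h1 := (tangential h.isOpen hw2 hk2 hyO hw0 hz hn1 (hvN e heN)).1
  have hee : dot e e = 0 := by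
    rw [fderiv_eq_sum] at h1
    simp only [hpky] at h1
    rw [show ∑ i, e i * (2 * (app A N i - -H * N i)) = 2 * dot e e by
      rw [dot, mul_sum]; exact sum_congr rfl fun i _ => by simp only [e]; ring] at h1
    linarith
  have hAN : ∀ i, app A N i = -H * N i := fun i => by
    have := mul_self_eq_zero.1 ((sum_eq_zero_iff_of_nonneg fun j _ => mul_self_nonneg (e j)).1 hee i
      (Finset.mem_univ i))
    simp only [e] at this
    linarith
  refine ⟨hN, hAN, ?_⟩
  have hk0 : fderiv ℝ k y = 0 := ContinuousLinearMap.ext fun v => by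
    rw [fderiv_eq_sum]
    simp [hpky, hAN]
  -- the second order
  set R : Fin d → Fin d → ℝ := fun j l =>
    (∑ i, (third w y i j l * N i + A i j * A i l)) - -H * A j l
  have hRsym : ∀ j l, R j l = R l j := fun j l => by
    simp only [R, third_comm₂ h.smooth h.isOpen hyO _ j l, hA j l, mul_comm (A _ j)]
  have hhess : ∀ j l, hess k j l y = 2 * R j l := by
    intro j l
    have hev : (fun z => pd k j z)
        =ᶠ[𝓝 y] fun z => 2 * (∑ i, pd w i z * hess w i j z) - 2 * -H * pd w j z := by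
      filter_upwards [h.isOpen.mem_nhds hyO] with z hz' using hpk z hz' j
    have hdh : ∀ i, DifferentiableAt ℝ (hess w i j) y := fun i =>
      differentiableAt_of_smooth (contDiffOn_hess h.smooth h.isOpen i j) h.isOpen hyO
    have hs : DifferentiableAt ℝ (fun z => ∑ i, pd w i z * hess w i j z) y :=
      DifferentiableAt.fun_sum fun i _ => (hd i y hyO).mul (hdh i)
    rw [hess, pd_congr hev, pd_sub ((differentiableAt_const _).fun_mul hs) ((differentiableAt_const _).fun_mul (hd j y hyO)),
      pd_mul (differentiableAt_const _) hs, pd_mul (differentiableAt_const _) (hd j y hyO), pd_const,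
      pd_sum _ (F := fun i z => pd w i z * hess w i j z) (fun i _ => (hd i y hyO).mul (hdh i))]
    simp only [pd_mul (hd _ y hyO) (hdh _), pd_const, mul_zero, add_zero, R, mul_sub, mul_sum, ← mul_assoc]
    congr 1
    exact sum_congr rfl fun i _ => by simp only [third, A, N, hessMat, grad, hess]; ring
  have hRzero : ∀ v, dot v N = 0 → dot (app R v) v = 0 := by
    intro v hv
    have h2 := (tangential h.isOpen hw2 hk2 hyO hw0 hz hn1 (hvN v hv)).2 hk0
    have e1 : (fun z => fderiv ℝ k z v) = fun z => ∑ i, v i * pd k i z :=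
      funext fun z => fderiv_eq_sum k z v
    rw [e1, fderiv_eq_sum] at h2
    have e2 : ∀ l, pd (fun z => ∑ i, v i * pd k i z) l y = 2 * app R v l := by
      intro l
      have hdk : ∀ i, DifferentiableAt ℝ (pd k i) y := fun i =>
        differentiableAt_of_smooth (contDiffOn_pd hks h.isOpen i) h.isOpen hyO
      rw [pd_sum _ (F := fun i z => v i * pd k i z) (fun i _ => (differentiableAt_const _).mul (hdk i))]
      simp only [pd_mul (differentiableAt_const _) (hdk _), pd_const, mul_zero, add_zero, app, mul_sum]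
      exact sum_congr rfl fun i _ => by
        rw [show pd (pd k i) l y = hess k i l y from rfl, hhess i l, hRsym i l]; ring
    simp only [e2] at h2
    rw [show ∑ i, v i * (2 * app R v i) = 2 * dot (app R v) v by
      rw [dot, mul_sum]; exact sum_congr rfl fun i _ => by ring] at h2
    linarith
  have hmain := boundary_trace hN hRsym hRzero hA hAN
  have htr : ∑ j, R j j = dot2 A A := by
    have e1 : ∑ j, ∑ i, third w y i j j * N i = 0 := by
      rw [sum_comm]
      refine sum_eq_zero fun i _ => ?_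
      rw [← sum_mul, show ∑ j, third w y i j j = ∑ j, third w y j j i from sum_congr rfl fun j _ => by
        rw [third_comm₁ h.smooth h.isOpen hyO i j j, third_comm₂ h.smooth h.isOpen hyO j i j],
        h.third_trace (RegularCone.mem_closure_of_frontier hy) hyO i, zero_mul]
    have e2 : ∑ j, A j j = 0 := h.trace (RegularCone.mem_closure_of_frontier hy) hyO
    simp only [R, sum_sub_distrib, sum_add_distrib, e1, ← mul_sum, e2, zero_add, mul_zero, sub_zero, dot2]
    rw [sum_comm]
  have hRA : dot2 R A = dot (fun k => dot2 (fun i j => third w y i j k) A) N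
      + dot2 (fun i j => ∑ k, A i k * A k j) A + H * dot2 A A := by
    have e1 : dot (fun k => dot2 (fun i j => third w y i j k) A) N
        = ∑ j, ∑ l, ∑ i, third w y i j l * N i * A j l := by
      simp only [dot, dot2, sum_mul]
      rw [sum_comm]
      refine sum_congr rfl fun j _ => ?_
      rw [sum_comm]
      refine sum_congr rfl fun l _ => sum_congr rfl fun i _ => ?_
      rw [third_comm₂ h.smooth h.isOpen hyO j l i, third_comm₁ h.smooth h.isOpen hyO j i l]
      ring
    rw [e1]
    simp only [R, dot2, sub_mul, sum_sub_distrib, sum_add_distrib, add_mul, sum_mul, mul_sum, neg_mul,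
      sub_neg_eq_add]
    congr 1
    · congr 1
      exact sum_congr rfl fun j _ => sum_congr rfl fun l _ => sum_congr rfl fun i _ => by rw [hA i j]
    · simp only [sum_neg_distrib, sub_neg_eq_add, mul_assoc]
  rw [htr, hRA] at hmain
  linarith

end

end Vale.Agent.P098.Cone
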