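import Vale.Agent.P098.Cone.Defs

/-!
# P098: calculus for functions on an open set
-/

namespace Vale.Agent.P098.Cone

open MeasureTheory Set Filter Topology Function
open scoped ContDiff

noncomputable section

variable {d : ℕ} {f g : (Fin d → ℝ) → ℝ} {O : Set (Fin d → ℝ)} {x : Fin d → ℝ}

/-- `m` is the order of differentiability left after one derivative of a function of order `n`. -/
class DerivOrder (n : WithTop ℕ∞) (m : outParam (WithTop ℕ∞)) : Prop where
  le : m + 1 ≤ n

instance : DerivOrder ∞ ∞ := ⟨le_rfl⟩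
instance : DerivOrder 4 3 := ⟨by norm_num⟩
instance : DerivOrder 3 2 := ⟨by norm_num⟩
instance : DerivOrder 2 1 := ⟨by norm_num⟩
instance : DerivOrder 1 0 := ⟨by norm_num⟩

theorem DerivOrder.ne_zero (n : WithTop ℕ∞) {m : WithTop ℕ∞} [h : DerivOrder n m] : n ≠ 0 :=
  fun e => one_ne_zero (nonpos_iff_eq_zero.1 ((le_add_self.trans h.le).trans_eq e))

/-- `n` is an order of differentiability that order `k` contains. -/
class OrderBelow (n k : WithTop ℕ∞) : Prop where
  le : n ≤ k

instance (n : WithTop ℕ∞) : OrderBelow n n := ⟨le_rfl⟩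
instance : OrderBelow 1 ∞ := ⟨WithTop.coe_le_coe.2 le_top⟩
instance : OrderBelow 2 ∞ := ⟨WithTop.coe_le_coe.2 le_top⟩
instance : OrderBelow 3 ∞ := ⟨WithTop.coe_le_coe.2 le_top⟩

theorem contDiffOn_pd {n m : WithTop ℕ∞} [DerivOrder n m] (hf : ContDiffOn ℝ n f O) (hO : IsOpen O)
    (i : Fin d) : ContDiffOn ℝ m (pd f i) O :=
  (hf.fderiv_of_isOpen hO DerivOrder.le).clm_apply contDiffOn_const

theorem contDiff_pd {n m : WithTop ℕ∞} [DerivOrder n m] (hf : ContDiff ℝ n f) (i : Fin d) :
    ContDiff ℝ m (pd f i) :=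
  (hf.fderiv_right DerivOrder.le).clm_apply contDiff_const

theorem differentiableAt_of_smooth {n m : WithTop ℕ∞} [DerivOrder n m] (hf : ContDiffOn ℝ n f O)
    (hO : IsOpen O) (hx : x ∈ O) : DifferentiableAt ℝ f x :=
  (hf.differentiableOn (DerivOrder.ne_zero n)).differentiableAt (hO.mem_nhds hx)

theorem pd_add (hf : DifferentiableAt ℝ f x) (hg : DifferentiableAt ℝ g x) (i : Fin d) :
    pd (fun y => f y + g y) i x = pd f i x + pd g i x := by
  simp [pd, fderiv_fun_add hf hg]

theorem pd_sub (hf : DifferentiableAt ℝ f x) (hg : DifferentiableAt ℝ g x) (i : Fin d) :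
    pd (fun y => f y - g y) i x = pd f i x - pd g i x := by
  simp [pd, fderiv_fun_sub hf hg]

theorem pd_mul (hf : DifferentiableAt ℝ f x) (hg : DifferentiableAt ℝ g x) (i : Fin d) :
    pd (fun y => f y * g y) i x = f x * pd g i x + g x * pd f i x := by
  simp [pd, fderiv_fun_mul hf hg]

theorem pd_const (c : ℝ) (i : Fin d) : pd (fun _ : Fin d → ℝ => c) i x = 0 := by simp [pd]

theorem pd_sum {ι : Type*} (s : Finset ι) {F : ι → (Fin d → ℝ) → ℝ}
    (hF : ∀ k ∈ s, DifferentiableAt ℝ (F k) x) (i : Fin d) :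
    pd (fun y => ∑ k ∈ s, F k y) i x = ∑ k ∈ s, pd (F k) i x := by
  simp [pd, fderiv_fun_sum hF]

theorem pd_coord (i k : Fin d) : pd (fun y => y k) i x = if i = k then 1 else 0 := by
  have h : HasFDerivAt (fun y : Fin d → ℝ => y k) (ContinuousLinearMap.proj k) x :=
    (ContinuousLinearMap.proj (R := ℝ) (φ := fun _ : Fin d => ℝ) k).hasFDerivAt
  simp [pd, h.fderiv, Pi.single_apply, eq_comm]

theorem pd_comp {φ : ℝ → ℝ} {φ' : ℝ} (hφ : HasDerivAt φ φ' (f x)) (hf : DifferentiableAt ℝ f x)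
    (i : Fin d) : pd (fun y => φ (f y)) i x = φ' * pd f i x := by
  have h : HasFDerivAt (fun y => φ (f y)) (φ' • fderiv ℝ f x) x := hφ.comp_hasFDerivAt x hf.hasFDerivAt
  simp [pd, h.fderiv]

theorem pd_congr (h : f =ᶠ[𝓝 x] g) (i : Fin d) : pd f i x = pd g i x := by simp [pd, h.fderiv_eq]

theorem fderiv_eq_sum (f : (Fin d → ℝ) → ℝ) (x v : Fin d → ℝ) :
    fderiv ℝ f x v = ∑ i, v i * pd f i x := by
  conv_lhs => rw [pi_eq_sum_univ' v]
  simp [pd]

theorem hess_comm (hf : ContDiffAt ℝ 2 f x) (i j : Fin d) : hess f i j x = hess f j i x := by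
  have h : DifferentiableAt ℝ (fderiv ℝ f) x :=
    (hf.fderiv_right (m := 1) le_rfl).differentiableAt one_ne_zero
  have e : ∀ v v' : Fin d → ℝ, fderiv ℝ (fun y => fderiv ℝ f y v) x v' = fderiv ℝ (fderiv ℝ f) x v' v := by
    intro v v'
    simp [fderiv_clm_apply h (differentiableAt_const v)]
  show fderiv ℝ (fun y => fderiv ℝ f y (Pi.single i 1)) x (Pi.single j 1)
    = fderiv ℝ (fun y => fderiv ℝ f y (Pi.single j 1)) x (Pi.single i 1)
  rw [e, e]
  exact (hf.isSymmSndFDerivAt (by simp)).eq _ _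

/-- A smooth cut-off times a function smooth on an open set containing its support is smooth. -/
theorem contDiff_mul_of_tsupport {n : WithTop ℕ∞} {η : (Fin d → ℝ) → ℝ} (hη : ContDiff ℝ n η)
    (hO : IsOpen O) (hs : tsupport η ⊆ O) (hf : ContDiffOn ℝ n f O) :
    ContDiff ℝ n fun y => η y * f y := by
  refine contDiff_iff_contDiffAt.2 fun y => ?_
  by_cases hy : y ∈ tsupport η
  · exact hη.contDiffAt.mul ((hf y (hs hy)).contDiffAt (hO.mem_nhds (hs hy)))
  · refine (contDiffAt_const (c := (0 : ℝ))).congr_of_eventuallyEq ?_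
    filter_upwards [(isClosed_tsupport η).isOpen_compl.mem_nhds hy] with z hz
    simp [image_eq_zero_of_notMem_tsupport hz]

/-- A cut-off of higher order times a function keeps the order of the function. -/
theorem contDiff_cutoff_mul {k n : WithTop ℕ∞} [OrderBelow n k] {η : (Fin d → ℝ) → ℝ}
    (hη : ContDiff ℝ k η) (hO : IsOpen O) (hs : tsupport η ⊆ O) (hf : ContDiffOn ℝ n f O) :
    ContDiff ℝ n fun y => η y * f y :=
  contDiff_mul_of_tsupport (hη.of_le OrderBelow.le) hO hs hf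

theorem hasCompactSupport_pd (hf : HasCompactSupport f) (i : Fin d) : HasCompactSupport (pd f i) :=
  hf.fderiv_apply (𝕜 := ℝ) _

theorem tsupport_pd (f : (Fin d → ℝ) → ℝ) (i : Fin d) : tsupport (pd f i) ⊆ tsupport f :=
  tsupport_fderiv_apply_subset ℝ _

theorem integral_pd_zero (hf : ContDiff ℝ 1 f) (hc : HasCompactSupport f) (i : Fin d) :
    ∫ y, pd f i y = 0 := by
  have hi : Integrable (fun y : Fin d → ℝ => (1 : ℝ) * fderiv ℝ f y (Pi.single i 1)) := by
    simp only [one_mul]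
    exact ((hf.continuous_fderiv one_ne_zero).clm_apply continuous_const).integrable_of_hasCompactSupport
      (hasCompactSupport_pd hc i)
  have h := integral_mul_fderiv_eq_neg_fderiv_mul_of_integrable (μ := (volume : Measure (Fin d → ℝ)))
    (f := fun _ => (1 : ℝ)) (g := f) (v := Pi.single i 1) (by simp) hi
    (by simpa using hf.continuous.integrable_of_hasCompactSupport hc)
    (fun y _ => differentiableAt_const 1) fun y _ => hf.differentiable one_ne_zero y
  simpa [pd] using h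

/-- A smooth compactly supported cut-off equal to one near a compact subset of an open set. -/
theorem exists_cutoff {K : Set (Fin d → ℝ)} (hK : IsCompact K) (hO : IsOpen O) (hKO : K ⊆ O) :
    ∃ χ : (Fin d → ℝ) → ℝ, ContDiff ℝ ∞ χ ∧ HasCompactSupport χ ∧ tsupport χ ⊆ O ∧
      (∀ y, χ y ∈ Icc (0 : ℝ) 1) ∧ ∀ᶠ y in 𝓝ˢ K, χ y = 1 := by
  obtain ⟨L, hL, hKL, hLO⟩ := exists_compact_between hK hO hKO
  obtain ⟨χ, h1, h0, h01⟩ := exists_contMDiffMap_one_nhds_of_subset_interior
    (modelWithCornersSelf ℝ (Fin d → ℝ)) (n := (⊤ : ℕ∞)) hK.isClosed hKL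
  refine ⟨χ, χ.contMDiff.contDiff, HasCompactSupport.intro hL h0, ?_, h01, h1⟩
  refine (closure_minimal ?_ hL.isClosed).trans hLO
  exact fun y hy => by_contra fun hn => hy (h0 y hn)

end

end Vale.Agent.P098.Cone
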