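import Vale.Agent.P098.Cone.Defs

/-!
# P098: the symmetric second difference of a determinant near the identity
-/

namespace Vale.Agent.P098.Cone

open Filter Topology Matrix Finset
open scoped ContDiff

noncomputable section

variable {d : ℕ}

/-- The determinant of the identity plus `t` times a matrix. -/
def detPlus (t : ℝ) (M : Fin d → Fin d → ℝ) : ℝ := det (1 + t • Matrix.of M)

theorem detPlus_zero (M : Fin d → Fin d → ℝ) : detPlus 0 M = 1 := by simp [detPlus]

theorem detPlus_mul (t : ℝ) (M : Fin d → Fin d → ℝ) :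
    detPlus t M * detPlus (-t) M = detPlus (-(t ^ 2)) (fun i j => ∑ k, M i k * M k j) := by
  rw [detPlus, detPlus, detPlus, ← det_mul]
  congr 1
  have e : Matrix.of (fun i j => ∑ k, M i k * M k j) = Matrix.of M * Matrix.of M := by
    ext i j; simp [Matrix.mul_apply]
  rw [e, add_mul, one_mul, mul_add, mul_one, smul_mul_smul_comm]
  module

theorem tendsto_detPlus (M : Fin d → Fin d → ℝ) :
    Tendsto (fun t => (detPlus t M - 1) / t) (𝓝[≠] 0) (𝓝 (∑ i, M i i)) := by
  set Q := (det (1 + (Polynomial.X : Polynomial ℝ) • (Matrix.of M).map Polynomial.C)).divX.divX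
  have h : Tendsto (fun t => (∑ i, M i i) + Q.eval t * t) (𝓝[≠] 0) (𝓝 (∑ i, M i i)) := by
    have hc : Continuous fun t => (∑ i, M i i) + Q.eval t * t := by fun_prop
    simpa using (hc.tendsto 0).mono_left nhdsWithin_le_nhds
  refine h.congr' ?_
  filter_upwards [self_mem_nhdsWithin] with t (ht : t ≠ 0)
  rw [detPlus, det_one_add_smul]
  simp only [trace, diag_apply, of_apply, Q]
  field_simp
  ring

/-- The limit of the difference quotient. -/
theorem tendsto_detPlus_sub (M : Fin d → Fin d → ℝ) :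
    Tendsto (fun t => (detPlus t M - detPlus (-t) M) / t) (𝓝[≠] 0) (𝓝 (2 * ∑ i, M i i)) := by
  have hneg : Tendsto (fun t : ℝ => -t) (𝓝[≠] 0) (𝓝[≠] 0) :=
    tendsto_nhdsWithin_iff.2 ⟨by simpa using (continuous_neg.tendsto (0 : ℝ)).mono_left nhdsWithin_le_nhds,
      by filter_upwards [self_mem_nhdsWithin] with t ht using neg_ne_zero.2 ht⟩
  rw [two_mul]
  refine ((tendsto_detPlus M).add ((tendsto_detPlus M).comp hneg)).congr' ?_
  filter_upwards [self_mem_nhdsWithin] with t (ht : t ≠ 0)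
  simp only [Function.comp_apply]
  field_simp
  ring

theorem tendsto_detPlus_prod (M : Fin d → Fin d → ℝ) :
    Tendsto (fun t => (detPlus t M * detPlus (-t) M - 1) / t ^ 2) (𝓝[≠] 0)
      (𝓝 (-∑ i, ∑ k, M i k * M k i)) := by
  have hsq : Tendsto (fun t : ℝ => -(t ^ 2)) (𝓝[≠] 0) (𝓝[≠] 0) :=
    tendsto_nhdsWithin_iff.2 ⟨by
      have hc : Continuous fun t : ℝ => -(t ^ 2) := by fun_prop
      simpa using (hc.tendsto 0).mono_left nhdsWithin_le_nhds,
      by filter_upwards [self_mem_nhdsWithin] with t ht using neg_ne_zero.2 (pow_ne_zero 2 ht)⟩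
  refine (((tendsto_detPlus (fun i j => ∑ k, M i k * M k j)).comp hsq).neg).congr' ?_
  filter_upwards [self_mem_nhdsWithin] with t (ht : t ≠ 0)
  simp only [Function.comp_apply, detPlus_mul]
  field_simp

/-- The symmetric second difference. -/
theorem tendsto_detPlus_sum (M : Fin d → Fin d → ℝ) :
    Tendsto (fun t => (detPlus t M + detPlus (-t) M - 2) / t ^ 2) (𝓝[≠] 0)
      (𝓝 ((∑ i, M i i) ^ 2 - ∑ i, ∑ k, M i k * M k i)) := by
  have h1 := tendsto_detPlus_sub M
  have hc : Continuous fun t => detPlus t M := by unfold detPlus; fun_prop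
  have hs : Tendsto (fun t => detPlus t M + detPlus (-t) M + 2) (𝓝[≠] 0) (𝓝 4) := by
    have := ((hc.add (hc.comp continuous_neg)).add (continuous_const (y := (2 : ℝ)))).tendsto 0
    simp only [Pi.add_apply, Function.comp_apply, neg_zero, detPlus_zero] at this
    norm_num at this
    exact this.mono_left nhdsWithin_le_nhds
  have h2 := ((h1.pow 2).add ((tendsto_detPlus_prod M).const_mul 4)).div hs (by norm_num)
  have e : ((2 * ∑ i, M i i) ^ 2 + 4 * -∑ i, ∑ k, M i k * M k i) / 4
      = (∑ i, M i i) ^ 2 - ∑ i, ∑ k, M i k * M k i := by ring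
  rw [e] at h2
  refine h2.congr' ?_
  filter_upwards [self_mem_nhdsWithin, hs.eventually (lt_mem_nhds (show (0 : ℝ) < 4 by norm_num))]
    with t (ht : t ≠ 0) hpos
  simp only [Pi.div_apply]
  field_simp
  ring

/-- Uniform bounds on bounded sets of matrices. -/
theorem exists_detPlus_bound (B : ℝ) (hB : 0 ≤ B) :
    ∃ C δ : ℝ, 0 ≤ C ∧ 0 < δ ∧ ∀ (t : ℝ) (M : Fin d → Fin d → ℝ), |t| ≤ δ → (∀ i j, |M i j| ≤ B) →
      0 < detPlus t M ∧ |detPlus t M - 1| ≤ C * |t| ∧
      |detPlus t M + detPlus (-t) M - 2| ≤ C * t ^ 2 := by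
  set F : (Fin d → Fin d → ℝ) → ℝ := fun A => det (Matrix.of A)
  set I₀ : Fin d → Fin d → ℝ := fun i j => if i = j then 1 else 0
  have hF : ContDiff ℝ 1 F := by
    simp only [F, det_apply', of_apply]
    fun_prop
  obtain ⟨L, hL⟩ := hF.contDiffOn.exists_lipschitzOnWith one_ne_zero (convex_closedBall I₀ 1)
    (isCompact_closedBall I₀ 1)
  have hval : ∀ t M, detPlus t M = F (I₀ + t • M) := fun t M => by
    simp only [detPlus, F]
    congr 1
  set L' : ℝ := (L : ℝ)
  have hL' : 0 ≤ L' := L.2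
  have hbd : ∀ (t : ℝ) (M : Fin d → Fin d → ℝ) (B₀ : ℝ), 0 ≤ B₀ → |t| * B₀ ≤ 1 →
      (∀ i j, |M i j| ≤ B₀) → |detPlus t M - 1| ≤ L' * (|t| * B₀) := by
    intro t M B₀ hB₀ ht hM
    have hn : ‖t • M‖ ≤ |t| * B₀ := by
      rw [norm_smul, Real.norm_eq_abs]
      exact mul_le_mul_of_nonneg_left ((pi_norm_le_iff_of_nonneg hB₀).2 fun i =>
        (pi_norm_le_iff_of_nonneg hB₀).2 fun j => by rw [Real.norm_eq_abs]; exact hM i j) (abs_nonneg t)
    have h := hL.dist_le_mul (I₀ + t • M) ?_ I₀ (Metric.mem_closedBall_self zero_le_one)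
    · rw [dist_eq_norm, dist_eq_norm, add_sub_cancel_left, Real.norm_eq_abs, ← hval] at h
      have e : F I₀ = 1 := by
        have := hval 0 M
        rwa [detPlus_zero, zero_smul, add_zero, eq_comm] at this
      rw [e] at h
      exact h.trans (mul_le_mul_of_nonneg_left hn hL')
    · rw [Metric.mem_closedBall, dist_eq_norm, add_sub_cancel_left]
      exact hn.trans ht
  set B' : ℝ := (d : ℝ) * B * B
  have hB' : 0 ≤ B' := by positivity
  set δ := 1 / ((B + B' + 1) * (2 * (L' * B + 1)))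
  have hδ : 0 < δ := by positivity
  set C := L' * B + (L' * B) ^ 2 * 4 + 4 * (L' * B')
  refine ⟨C, δ, by positivity, hδ, fun t M ht hM => ?_⟩
  have ht0 := abs_nonneg t
  have hkey : |t| * ((B + B' + 1) * (2 * (L' * B + 1))) ≤ 1 := (le_div_iff₀ (by positivity)).1 ht
  have h1 : |t| * (B + B' + 1) ≤ 1 := by
    refine le_trans ?_ hkey
    rw [← mul_assoc]
    exact le_mul_of_one_le_right (by positivity) (by linarith [mul_nonneg hL' hB])
  have h2 : |t| * (2 * (L' * B + 1)) ≤ 1 := by
    refine le_trans ?_ hkey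
    refine mul_le_mul_of_nonneg_left ?_ ht0
    exact le_mul_of_one_le_left (by positivity) (by linarith)
  have htB : |t| * B ≤ 1 := le_trans (mul_le_mul_of_nonneg_left (by linarith) ht0) h1
  have ha := hbd t M B hB htB hM
  have hb := hbd (-t) M B hB (by rwa [abs_neg]) hM
  rw [abs_neg] at hb
  have ha' := abs_le.1 ha
  have hb' := abs_le.1 hb
  have hhalf : L' * (|t| * B) < 1 / 2 + 0 := by
    have : |t| * (2 * (L' * B)) < 1 ∨ |t| = 0 := by
      rcases ht0.eq_or_lt with h | h
      · exact .inr h.symm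
      · exact .inl (lt_of_lt_of_le (mul_lt_mul_of_pos_left (by linarith) h) h2)
    rcases this with h | h
    · linarith
    · rw [h]; norm_num
  refine ⟨by linarith, ha.trans ?_, ?_⟩
  · rw [show L' * (|t| * B) = L' * B * |t| by ring]
    refine mul_le_mul_of_nonneg_right ?_ ht0
    simp only [C]
    linarith [sq_nonneg (L' * B), mul_nonneg hL' hB']
  set M2 : Fin d → Fin d → ℝ := fun i j => ∑ k, M i k * M k j
  have hM2 : ∀ i j, |M2 i j| ≤ B' := fun i j => (abs_sum_le_sum_abs _ _).trans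
    ((sum_le_sum fun k _ => (abs_mul _ _).le.trans (mul_le_mul (hM i k) (hM k j) (abs_nonneg _) hB)).trans_eq
      (by simp [B']; ring))
  have ht2 : |(-(t ^ 2))| = t ^ 2 := by rw [abs_neg, abs_of_nonneg (sq_nonneg t)]
  have hp : |detPlus t M * detPlus (-t) M - 1| ≤ L' * (t ^ 2 * B') := by
    rw [detPlus_mul]
    have hle : |(-(t ^ 2))| * B' ≤ 1 := by
      rw [ht2, ← sq_abs, sq, mul_assoc]
      refine mul_le_one₀ ?_ (mul_nonneg ht0 hB') ?_
      · exact le_trans (le_mul_of_one_le_right ht0 (by linarith)) h1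
      · exact le_trans (mul_le_mul_of_nonneg_left (by linarith) ht0) h1
    have h := hbd (-(t ^ 2)) M2 B' hB' hle hM2
    rwa [ht2] at h
  set S := detPlus t M + detPlus (-t) M
  set D := detPlus t M - detPlus (-t) M
  have hD : |D| ≤ 2 * (L' * B) * |t| := by
    simp only [D]
    rw [abs_le]
    constructor <;> linarith
  have hS : (S - 2) * (S + 2) = D ^ 2 + 4 * (detPlus t M * detPlus (-t) M - 1) := by simp only [S, D]; ring
  have hS3 : 1 ≤ S + 2 := by simp only [S]; linarith
  calc |S - 2| ≤ |S - 2| * (S + 2) := le_mul_of_one_le_right (abs_nonneg _) hS3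
    _ = |(S - 2) * (S + 2)| := by rw [abs_mul, abs_of_nonneg (by linarith : (0 : ℝ) ≤ S + 2)]
    _ ≤ D ^ 2 + 4 * (L' * (t ^ 2 * B')) := by
        rw [hS]
        refine (abs_add_le _ _).trans ?_
        rw [abs_of_nonneg (sq_nonneg D), abs_mul, abs_of_nonneg (by norm_num : (0 : ℝ) ≤ 4)]
        linarith
    _ ≤ (2 * (L' * B) * |t|) ^ 2 + 4 * (L' * (t ^ 2 * B')) := by
        rw [← sq_abs D]
        gcongr
    _ ≤ C * t ^ 2 := by
        rw [mul_pow, sq_abs]
        have : 0 ≤ L' * B * t ^ 2 := mul_nonneg (mul_nonneg hL' hB) (sq_nonneg t)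
        simp only [C]
        linarith

end

end Vale.Agent.P098.Cone
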