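import Vale.Agent.P098.Cone.Basic
import Vale.Agent.P098.Cone.Determinant

/-!
# P098: the competitors of an inner variation
-/

namespace Vale.Agent.P098.Cone

open MeasureTheory Set Filter Topology Finset Matrix
open scoped ContDiff NNReal

noncomputable section

variable {d : ℕ} {u w : (Fin d → ℝ) → ℝ} {O : Set (Fin d → ℝ)}

/-- The matrix of the derivative of a vector field. -/
def derivMat (X : Fin d → (Fin d → ℝ) → ℝ) (y : Fin d → ℝ) : Fin d → Fin d → ℝ := fun i j => pd (X i) j y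

theorem RegularCone.pd_u_eq (h : RegularCone u O w) {x : Fin d → ℝ} (hx : 0 < u x) (i : Fin d) :
    pd u i x = pd w i x :=
  (pd_congr (h.eventually_eq hx) i).symm

theorem RegularCone.pd_u_zero (h : RegularCone u O w) {x : Fin d → ℝ} (hx : ¬ 0 < u x) (i : Fin d) :
    pd u i x = 0 := by
  have hmin : IsLocalMin u x := .of_forall fun y => by
    rw [le_antisymm (not_lt.1 hx) (h.nonneg x)]; exact h.nonneg y
  simp [pd, hmin.fderiv_eq_zero]

theorem abs_pd_le {v : (Fin d → ℝ) → ℝ} {L : ℝ≥0} (hv : LipschitzWith L v) (i : Fin d) (x : Fin d → ℝ) :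
    |pd v i x| ≤ L := by
  refine ((fderiv ℝ v x).le_opNorm _).trans ?_
  rw [Pi.norm_single, norm_one, mul_one]
  exact norm_fderiv_le_of_lipschitz ℝ hv

theorem isBounded_eball (R : ℝ) : Bornology.IsBounded (eball (0 : Fin d → ℝ) R) := by
  refine isBounded_iff_forall_norm_le.2 ⟨|R|, fun x hx => ?_⟩
  rw [pi_norm_le_iff_of_nonneg (abs_nonneg R)]
  intro i
  rw [Real.norm_eq_abs, ← sq_le_sq]
  have hx' : ∑ i, x i ^ 2 < R ^ 2 := by simpa [eball] using hx
  exact le_trans (single_le_sum (f := fun j => x j ^ 2) (fun j _ => sq_nonneg _) (Finset.mem_univ i)) hx'.le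

theorem measurableSet_eball (c : Fin d → ℝ) (R : ℝ) : MeasurableSet (eball c R) :=
  (isOpen_lt (by fun_prop) continuous_const).measurableSet

/-- The gradient at the moved point, transported back, and the energy inequality. -/
theorem RegularCone.compete (h : RegularCone u O w) (hmin : IsMinimizer u)
    {X : Fin d → (Fin d → ℝ) → ℝ} (hX : ∀ i, ContDiff ℝ 1 (X i)) {K : Set (Fin d → ℝ)} (hK : IsCompact K)
    (hXK : ∀ i, ∀ y ∉ K, X i y = 0) {R : ℝ} (hR : 0 < R) (hKR : K ⊆ eball 0 R) {t : ℝ} {LX : ℝ≥0}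
    (hLX : LipschitzWith LX fun y i => X i y) (ht : |t| * LX < 1)
    (hdet : ∀ y, 0 < detPlus t (derivMat X y)) :
    ∃ g : (Fin d → ℝ) → Fin d → ℝ,
      (∀ y, 0 < u y → ∀ j, g y j + t * ∑ i, g y i * derivMat X y i j = pd w j y) ∧
      IntegrableOn (fun y => ((∑ i, g y i ^ 2) + 1) * detPlus t (derivMat X y))
        (eball 0 R ∩ {y | 0 < u y}) ∧
      ∫ y in eball 0 R ∩ {y | 0 < u y}, ((∑ i, pd w i y ^ 2) + 1)
        ≤ ∫ y in eball 0 R ∩ {y | 0 < u y}, ((∑ i, g y i ^ 2) + 1) * detPlus t (derivMat X y) := by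
  set Xv : (Fin d → ℝ) → Fin d → ℝ := fun y i => X i y
  set Φ : (Fin d → ℝ) → Fin d → ℝ := fun y => y + t • Xv y
  set k : ℝ := |t| * LX
  have hk0 : 0 ≤ k := mul_nonneg (abs_nonneg t) LX.2
  have hanti : ∀ y y', (1 - k) * ‖y - y'‖ ≤ ‖Φ y - Φ y'‖ := fun y y' => by
    have h1 : ‖t • (Xv y - Xv y')‖ ≤ k * ‖y - y'‖ := by
      rw [norm_smul, Real.norm_eq_abs, mul_assoc, ← dist_eq_norm, ← dist_eq_norm]
      exact mul_le_mul_of_nonneg_left (hLX.dist_le_mul y y') (abs_nonneg t)
    have h2 : Φ y - Φ y' = (y - y') + t • (Xv y - Xv y') := by simp only [Φ, smul_sub]; abel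
    have h3 : ‖y - y'‖ ≤ ‖Φ y - Φ y'‖ + ‖t • (Xv y - Xv y')‖ := by
      rw [h2]; exact norm_le_add_norm_add _ _
    linarith
  have hinj : Function.Injective Φ := fun y y' e => by
    have := hanti y y'
    rw [e, sub_self, norm_zero] at this
    have h0 : ‖y - y'‖ ≤ 0 := nonpos_of_mul_nonpos_right this (by linarith)
    exact sub_eq_zero.1 (norm_le_zero_iff.1 h0)
  have hsurj : Function.Surjective Φ := fun z => by
    have hc : ContractingWith k.toNNReal fun y => z - t • Xv y := by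
      refine ⟨Real.toNNReal_lt_one.2 ht, LipschitzWith.of_dist_le_mul fun a b => ?_⟩
      rw [dist_sub_left, dist_smul₀, Real.norm_eq_abs, Real.coe_toNNReal _ hk0, mul_assoc]
      exact mul_le_mul_of_nonneg_left (hLX.dist_le_mul a b) (abs_nonneg t)
    refine ⟨hc.fixedPoint, ?_⟩
    have := hc.fixedPoint_isFixedPt
    simp only [Function.IsFixedPt] at this
    simp only [Φ]
    exact (eq_sub_iff_add_eq.1 this.symm)
  set Ψ := Function.invFun Φ
  have hΦΨ : ∀ z, Φ (Ψ z) = z := Function.rightInverse_invFun hsurj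
  have hΨΦ : ∀ y, Ψ (Φ y) = y := Function.leftInverse_invFun hinj
  have hΨL : LipschitzWith (1 - k)⁻¹.toNNReal Ψ := LipschitzWith.of_dist_le_mul fun a b => by
    rw [dist_eq_norm, dist_eq_norm, Real.coe_toNNReal _ (inv_nonneg.2 (by linarith)),
      inv_mul_eq_div, le_div_iff₀ (by linarith), mul_comm]
    simpa [hΦΨ] using hanti (Ψ a) (Ψ b)
  have hfix : ∀ y ∉ K, Φ y = y := fun y hy => by
    simp only [Φ, Xv]
    rw [show (fun i => X i y) = 0 from funext fun i => hXK i y hy, smul_zero, add_zero]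
  have hball : ∀ y, Φ y ∈ eball 0 R ↔ y ∈ eball 0 R := fun y => by
    by_cases hy : y ∈ K
    · refine iff_of_true ?_ (hKR hy)
      by_contra hn
      have hn' : Φ y ∉ K := fun hh => hn (hKR hh)
      exact hn' ((hinj (hfix _ hn')).symm ▸ hy)
    · rw [hfix y hy]
  set v : (Fin d → ℝ) → ℝ := fun z => u (Ψ z)
  obtain ⟨L, hL⟩ := h.lipschitz
  have hvL : LipschitzWith (L * (1 - k)⁻¹.toNNReal) v := hL.comp hΨL
  have hv0 : ∀ z, 0 ≤ v z := fun z => h.nonneg _
  have hvK : ∀ z ∉ K, v z = u z := fun z hz => by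
    simp only [v]
    rw [show Ψ z = z by conv_lhs => rw [← hfix z hz, hΨΦ]]
  have hcomp := hmin 0 R hR v ⟨_, hvL⟩ hv0 ⟨K, hK, hKR, hvK⟩
  -- derivatives
  set T : (Fin d → ℝ) → ((Fin d → ℝ) →L[ℝ] (Fin d → ℝ)) := fun y =>
    ContinuousLinearMap.id ℝ _ + t • fderiv ℝ Xv y
  have hXd : ∀ y, DifferentiableAt ℝ Xv y := fun y =>
    differentiableAt_pi.2 fun i => (hX i).differentiable one_ne_zero y
  have hΦd : ∀ y, HasFDerivAt Φ (T y) y := fun y =>
    (hasFDerivAt_id y).add ((hXd y).hasFDerivAt.const_smul t)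
  have hentry : ∀ y i j, T y (Pi.single j 1) i = (if i = j then 1 else 0) + t * derivMat X y i j := by
    intro y i j
    have e : fderiv ℝ Xv y (Pi.single j 1) i = pd (X i) j y := by
      rw [fderiv_pi (fun i => (hX i).differentiable one_ne_zero y)]
      rfl
    simp [T, Pi.single_apply, e, derivMat]
  have hTdet : ∀ y, (T y).det = detPlus t (derivMat X y) := fun y => by
    rw [ContinuousLinearMap.det, ← LinearMap.det_toMatrix', detPlus]
    congr 1
    ext i j
    rw [LinearMap.toMatrix'_apply]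
    have := hentry y i j
    simpa [Matrix.one_apply, Pi.single_apply] using this
  set g : (Fin d → ℝ) → Fin d → ℝ := fun y i => pd v i (Φ y)
  have hg : ∀ y, 0 < u y → ∀ j, g y j + t * ∑ i, g y i * derivMat X y i j = pd w j y := by
    intro y hy j
    set Te := (T y).toContinuousLinearEquivOfDetNeZero (by rw [hTdet]; exact (hdet y).ne')
    have hΨd : HasFDerivAt Ψ (Te.symm : (Fin d → ℝ) →L[ℝ] (Fin d → ℝ)) (Φ y) :=
      HasFDerivAt.of_local_left_inverse hΨL.continuous.continuousAt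
        (show HasFDerivAt Φ (Te : (Fin d → ℝ) →L[ℝ] (Fin d → ℝ)) (Ψ (Φ y)) by rw [hΨΦ]; exact hΦd y)
        (.of_forall hΦΨ)
    have hud : DifferentiableAt ℝ u y :=
      (differentiableAt_of_smooth h.smooth h.isOpen (h.mem_of_pos hy)).congr_of_eventuallyEq
        (h.eventually_eq hy).symm
    have hvd : DifferentiableAt ℝ v (Φ y) :=
      DifferentiableAt.comp (f := Ψ) (g := u) (Φ y) (by rw [hΨΦ]; exact hud) hΨd.differentiableAt
    have e : (fun z => v (Φ z)) = u := funext fun z => by simp [v, hΨΦ]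
    have h1 : fderiv ℝ u y = (fderiv ℝ v (Φ y)).comp (T y) := by
      conv_lhs => rw [← e]
      exact (hvd.hasFDerivAt.comp y (hΦd y)).fderiv
    rw [← h.pd_u_eq hy, pd, h1, ContinuousLinearMap.comp_apply, fderiv_eq_sum]
    simp only [hentry, add_mul, ite_mul, one_mul, zero_mul, sum_add_distrib, sum_ite_eq', Finset.mem_univ,
      if_true, mul_sum]
    congr 1
    exact sum_congr rfl fun i _ => by simp only [g]; ring
  have himage : Φ '' (eball 0 R ∩ {y | 0 < u y}) = eball 0 R ∩ {z | 0 < v z} := by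
    ext z
    constructor
    · rintro ⟨y, ⟨hy1, hy2⟩, rfl⟩
      exact ⟨(hball y).2 hy1, by simpa [v, hΨΦ] using hy2⟩
    · rintro ⟨hz1, hz2⟩
      exact ⟨Ψ z, ⟨(hball _).1 (by rwa [hΦΨ]), hz2⟩, hΦΨ z⟩
  have hms : MeasurableSet (eball 0 R ∩ {y | 0 < u y}) :=
    (measurableSet_eball 0 R).inter h.isOpen_pos.measurableSet
  have hvpd : ∀ z, ¬ 0 < v z → ∀ i, pd v i z = 0 := fun z hz i => by
    have : IsLocalMin v z := .of_forall fun y => by
      rw [le_antisymm (not_lt.1 hz) (hv0 z)]; exact hv0 y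
    simp [pd, this.fderiv_eq_zero]
  set f : (Fin d → ℝ) → ℝ := fun z => (∑ i, pd v i z ^ 2) + 1
  have hfi : IntegrableOn f (eball 0 R ∩ {z | 0 < v z}) := by
    refine IntegrableOn.of_bound ((measure_mono Set.inter_subset_left).trans_lt
      (isBounded_eball R).measure_lt_top) ?_ ((∑ _i : Fin d, ((L * (1 - k)⁻¹.toNNReal : ℝ≥0) : ℝ) ^ 2) + 1)
      (.of_forall fun z => ?_)
    · exact ((Finset.measurable_sum _ fun i _ => (measurable_fderiv_apply_const ℝ v _).pow_const 2).add_const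
        1).aestronglyMeasurable
    · rw [Real.norm_eq_abs, abs_of_nonneg (add_nonneg (sum_nonneg fun i _ => sq_nonneg _) zero_le_one)]
      refine add_le_add_left (sum_le_sum fun i _ => ?_) _
      calc pd v i z ^ 2 = |pd v i z| ^ 2 := (sq_abs _).symm
        _ ≤ _ := pow_le_pow_left₀ (abs_nonneg _) (abs_pd_le hvL i z) 2
  have hderiv : ∀ y ∈ eball 0 R ∩ {y | 0 < u y}, HasFDerivWithinAt Φ (T y) (eball 0 R ∩ {y | 0 < u y}) y :=
    fun y _ => (hΦd y).hasFDerivWithinAt
  have hint := integral_image_eq_integral_abs_det_fderiv_smul volume hms hderiv hinj.injOn f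
  have hint' := (integrableOn_image_iff_integrableOn_abs_det_fderiv_smul volume hms hderiv hinj.injOn f).1
    (himage ▸ hfi)
  have habs : ∀ y, |(T y).det| • f (Φ y) = ((∑ i, g y i ^ 2) + 1) * detPlus t (derivMat X y) := fun y => by
    rw [hTdet, abs_of_pos (hdet y), smul_eq_mul, mul_comm]
  simp only [habs] at hint hint'
  have split : ∀ {v : (Fin d → ℝ) → ℝ}, Continuous v → (∀ z, ¬ 0 < v z → ∀ i, pd v i z = 0) →
      energy v (eball 0 R) = ∫ z in eball 0 R ∩ {z | 0 < v z}, ((∑ i, pd v i z ^ 2) + 1) := by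
    intro v hvc hv'
    rw [energy, ← setIntegral_indicator (isOpen_lt continuous_const hvc).measurableSet]
    refine setIntegral_congr_fun (measurableSet_eball 0 R) fun z _ => ?_
    by_cases hz : 0 < v z
    · simp [indicator_of_mem (show z ∈ {z | 0 < v z} from hz)]
    · simp [indicator_of_notMem (show z ∉ {z | 0 < v z} from hz), hv' z hz]
  rw [split h.continuous fun z hz => h.pd_u_zero hz, split hvL.continuous hvpd, ← himage, hint] at hcomp
  refine ⟨g, hg, hint', le_trans (le_of_eq ?_) hcomp⟩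
  exact setIntegral_congr_fun hms fun y hy => by simp only [h.pd_u_eq hy.2]

end

end Vale.Agent.P098.Cone
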