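import Mathlib

/-!
# P098: one-homogeneous minimisers with a regular free boundary, definitions

Points of euclidean space are functions `Fin d → ℝ`; lengths and balls are euclidean. Competitors are
Lipschitz functions, a smaller class than the Sobolev one, so minimality is weaker here.
-/

namespace Vale.Agent.P098.Cone

open MeasureTheory Set

noncomputable section

variable {d : ℕ}

/-- The partial derivative in direction `i`. -/
def pd (f : (Fin d → ℝ) → ℝ) (i : Fin d) (x : Fin d → ℝ) : ℝ := fderiv ℝ f x (Pi.single i 1)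

/-- The second partial derivatives. -/
def hess (f : (Fin d → ℝ) → ℝ) (i j : Fin d) (x : Fin d → ℝ) : ℝ := pd (fun y => pd f i y) j x

/-- The euclidean ball. -/
def eball (c : Fin d → ℝ) (R : ℝ) : Set (Fin d → ℝ) := {x | ∑ i, (x i - c i) ^ 2 < R ^ 2}

/-- The one-phase energy. -/
def energy (v : (Fin d → ℝ) → ℝ) (B : Set (Fin d → ℝ)) : ℝ :=
  ∫ x in B, ((∑ i, pd v i x ^ 2) + {y | 0 < v y}.indicator (fun _ => 1) x)

/-- Least energy among the nonnegative Lipschitz functions equal to `u` outside a compact subset of a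
ball, for every ball. -/
def IsMinimizer (u : (Fin d → ℝ) → ℝ) : Prop :=
  ∀ (c : Fin d → ℝ) (R : ℝ), 0 < R → ∀ v : (Fin d → ℝ) → ℝ, (∃ L, LipschitzWith L v) →
    (∀ x, 0 ≤ v x) → (∃ K : Set (Fin d → ℝ), IsCompact K ∧ K ⊆ eball c R ∧ ∀ x ∉ K, v x = u x) →
    energy u (eball c R) ≤ energy v (eball c R)

/-- A nonnegative Lipschitz one-homogeneous function, harmonic where it is positive and four times
continuously differentiable up to its free boundary, where the gradient has length one; the origin is
exempt. The function `w` is the extension to the open set `O`. -/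
structure RegularCone (u : (Fin d → ℝ) → ℝ) (O : Set (Fin d → ℝ)) (w : (Fin d → ℝ) → ℝ) : Prop where
  lipschitz : ∃ L, LipschitzWith L u
  nonneg : ∀ x, 0 ≤ u x
  homog : ∀ (r : ℝ) (x : Fin d → ℝ), 0 < r → u (r • x) = r * u x
  isOpen : IsOpen O
  cover : ∀ x ∈ closure {y | 0 < u y}, x ≠ 0 → x ∈ O
  smooth : ContDiffOn ℝ 4 w O
  agree : ∀ x ∈ O, 0 < u x → w x = u x
  harmonic : ∀ x, 0 < u x → ∑ i, hess u i i x = 0
  free : ∀ x ∈ frontier {y | 0 < u y}, x ≠ 0 → ∑ i, pd w i x ^ 2 = 1

/-- The mean curvature of the free boundary: minus the second derivative of `w` along its gradient. -/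
def meanCurv (w : (Fin d → ℝ) → ℝ) (x : Fin d → ℝ) : ℝ :=
  -∑ i, ∑ j, hess w i j x * pd w i x * pd w j x

end

end Vale.Agent.P098.Cone
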