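import Vale.Agent.P098.Cone.Flat

/-!
# P098: the half-space solutions are regular cones and minimisers

The hypotheses of the rigidity theorem are not vacuous: they hold for the flat solutions.
-/

namespace Vale.Agent.P098.Cone

open MeasureTheory Set Filter Topology Finset
open scoped ContDiff NNReal

noncomputable section

variable {d : ℕ} {e : Fin d → ℝ}

/-- The half-space solution. -/
def half (e : Fin d → ℝ) (x : Fin d → ℝ) : ℝ := max (∑ i, e i * x i) 0

theorem contDiff_linear (e : Fin d → ℝ) : ContDiff ℝ ∞ fun x : Fin d → ℝ => ∑ i, e i * x i :=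
  ContDiff.sum fun i _ => contDiff_const.mul (contDiff_apply ℝ ℝ i)

theorem pd_linear (e x : Fin d → ℝ) (k : Fin d) : pd (fun y => ∑ i, e i * y i) k x = e k := by
  rw [pd_sum _ (F := fun i y => e i * y i) (fun i _ => (differentiableAt_const _).mul (differentiableAt_apply i x))]
  simp [pd_mul (differentiableAt_const _) (differentiableAt_apply _ x), pd_const, pd_coord]

theorem lipschitz_half (e : Fin d → ℝ) : ∃ L, LipschitzWith L (half e) := by
  have h1 : LipschitzWith (∑ i, ‖e i‖₊) fun x : Fin d → ℝ => ∑ i, e i * x i :=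
    LipschitzWith.of_dist_le_mul fun x y => by
      rw [Real.dist_eq, ← sum_sub_distrib, dist_eq_norm, NNReal.coe_sum, sum_mul]
      refine (abs_sum_le_sum_abs _ _).trans (sum_le_sum fun i _ => ?_)
      rw [← mul_sub, abs_mul, coe_nnnorm, Real.norm_eq_abs]
      exact mul_le_mul_of_nonneg_left (norm_le_pi_norm (x - y) i) (abs_nonneg _)
  exact ⟨_, h1.max_const 0⟩

/-- The half-space solution is a regular cone. -/
theorem regularCone_half (he : ∑ i, e i ^ 2 = 1) :
    RegularCone (half e) Set.univ fun x => ∑ i, e i * x i where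
  lipschitz := lipschitz_half e
  nonneg := fun x => le_max_right _ _
  homog := fun r x hr => by
    simp only [half, Pi.smul_apply, smul_eq_mul]
    rw [mul_max_of_nonneg _ _ hr.le, mul_zero, mul_sum]
    congr 1
    exact sum_congr rfl fun i _ => by ring
  isOpen := isOpen_univ
  cover := fun _ _ _ => Set.mem_univ _
  smooth := (contDiff_linear e).contDiffOn.of_le (WithTop.coe_le_coe.2 le_top)
  agree := fun x _ hx => (max_eq_left_iff.2 (le_of_lt (lt_max_iff.1 hx |>.resolve_right (lt_irrefl 0)))).symm
  harmonic := fun x hx => by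
    have hp : 0 < ∑ i, e i * x i := (lt_max_iff.1 hx).resolve_right (lt_irrefl 0)
    refine sum_eq_zero fun i _ => ?_
    have hev : (fun y => pd (half e) i y) =ᶠ[𝓝 x] fun _ => e i := by
      filter_upwards [((contDiff_linear e).continuous.tendsto x).eventually (lt_mem_nhds hp) |>.eventually_nhds]
        with y hy
      rw [pd_congr (f := half e) (g := fun y => ∑ i, e i * y i) (hy.mono fun z hz => max_eq_left (le_of_lt hz)) i, pd_linear]
    rw [hess, pd_congr hev, pd_const]
  free := fun x _ _ => by simpa only [pd_linear] using he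

theorem integral_pd_lipschitz {g : (Fin d → ℝ) → ℝ} {L : ℝ≥0} (hg : LipschitzWith L g)
    (hgc : HasCompactSupport g) (i : Fin d) : ∫ x, pd g i x = 0 := by
  have hc : LipschitzWith 0 (fun _ : Fin d → ℝ => (1 : ℝ)) := LipschitzWith.const 1
  have h := LipschitzWith.integral_lineDeriv_mul_eq (μ := (volume : Measure (Fin d → ℝ))) hc hg hgc
    (-Pi.single i (1 : ℝ))
  have e0 : ∀ x, lineDeriv ℝ (fun _ : Fin d → ℝ => (1 : ℝ)) x (-Pi.single i (1 : ℝ)) = 0 := fun x => by
    simp [lineDeriv]
  simp only [e0, zero_mul, integral_zero, neg_neg, mul_one] at h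
  rw [h]
  refine integral_congr_ae ?_
  filter_upwards [hg.ae_differentiableAt] with x hx
  exact hx.lineDeriv_eq_fderiv.symm

/-- The half-space solution minimises. -/
theorem isMinimizer_half (he : ∑ i, e i ^ 2 = 1) : IsMinimizer (half e) := by
  intro c R _ v ⟨Lv, hv⟩ hv0 ⟨K, hK, hKB, hvK⟩
  obtain ⟨Lu, hu⟩ := lipschitz_half e
  set g : (Fin d → ℝ) → ℝ := fun x => v x - half e x
  have hg : LipschitzWith (Lv + Lu) g := hv.sub hu
  have hgK : ∀ x ∉ K, g x = 0 := fun x hx => by simp [g, hvK x hx]
  have hgc : HasCompactSupport g := HasCompactSupport.intro hK hgK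
  set B := eball c R
  have hBm : MeasurableSet B := (isOpen_lt (by fun_prop) continuous_const).measurableSet
  have hBb : Bornology.IsBounded B := by
    refine isBounded_iff_forall_norm_le.2 ⟨‖c‖ + |R|, fun x hx => ?_⟩
    have hx' : ‖x - c‖ ≤ |R| := (pi_norm_le_iff_of_nonneg (abs_nonneg R)).2 fun i => by
      rw [Real.norm_eq_abs, ← sq_le_sq]
      exact le_trans (single_le_sum (f := fun j => (x j - c j) ^ 2) (fun j _ => sq_nonneg _)
        (Finset.mem_univ i)) (le_of_lt hx)
    calc ‖x‖ = ‖c + (x - c)‖ := by rw [add_sub_cancel]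
      _ ≤ _ := (norm_add_le _ _).trans (by linarith)
  have hfin : IsFiniteMeasure (volume.restrict B) := isFiniteMeasure_restrict.2 hBb.measure_lt_top.ne
  have hi : ∀ {f : (Fin d → ℝ) → ℝ} {L : ℝ≥0}, LipschitzWith L f → ∀ i, IntegrableOn (pd f i) B :=
    fun hf i => Integrable.of_bound (measurable_fderiv_apply_const ℝ _ _).aestronglyMeasurable _
      (.of_forall fun x => (Real.norm_eq_abs _).trans_le (abs_pd_le hf i x))
  have hE : ∀ {f : (Fin d → ℝ) → ℝ} {L : ℝ≥0}, LipschitzWith L f →
      IntegrableOn (fun x => (∑ i, pd f i x ^ 2) + {y | 0 < f y}.indicator (fun _ => 1) x) B := by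
    intro f L hf
    refine Integrable.add (integrable_finsetSum _ fun i _ => Integrable.of_bound
      ((measurable_fderiv_apply_const ℝ _ _).pow_const 2).aestronglyMeasurable ((L : ℝ) ^ 2)
      (.of_forall fun x => ?_)) ((integrable_const _).indicator (isOpen_lt continuous_const hf.continuous).measurableSet)
    rw [Real.norm_eq_abs, abs_pow]
    exact pow_le_pow_left₀ (abs_nonneg _) (abs_pd_le hf i x) 2
  have hS : ∫ x in B, ∑ i, 2 * e i * (pd v i x - pd (half e) i x) = 0 := by
    have hi2 : ∀ i, IntegrableOn (fun x => 2 * e i * (pd v i x - pd (half e) i x)) B := fun i =>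
      ((hi hv i).sub (hi hu i)).const_mul _
    rw [integral_finsetSum _ fun i _ => hi2 i]
    refine sum_eq_zero fun i _ => ?_
    rw [integral_const_mul, mul_eq_zero]
    right
    rw [setIntegral_congr_ae hBm (g := pd g i) (by
      filter_upwards [hv.ae_differentiableAt, hu.ae_differentiableAt] with x hx1 hx2 _
      exact (pd_sub hx1 hx2 i).symm)]
    rw [setIntegral_eq_integral_of_forall_compl_eq_zero fun x hx => ?_, integral_pd_lipschitz hg hgc i]
    exact image_eq_zero_of_notMem_tsupport fun hh => hx (hKB
      ((closure_minimal (Function.support_subset_iff'.2 hgK) hK.isClosed) (tsupport_pd _ _ hh)))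
  have hpt : ∀ᵐ x ∂volume.restrict B, ((∑ i, pd (half e) i x ^ 2) + {y | 0 < half e y}.indicator (fun _ => 1) x)
      + ∑ i, 2 * e i * (pd v i x - pd (half e) i x)
      ≤ (∑ i, pd v i x ^ 2) + {y | 0 < v y}.indicator (fun _ => 1) x := by
    refine .of_forall fun x => ?_
    have h1 : ((∑ i, pd (half e) i x ^ 2) + {y | 0 < half e y}.indicator (fun _ => 1) x)
        = ∑ i, 2 * e i * pd (half e) i x := by
      by_cases hx : 0 < half e x
      · have hp : 0 < ∑ i, e i * x i := (lt_max_iff.1 hx).resolve_right (lt_irrefl 0)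
        have e1 : ∀ i, pd (half e) i x = e i := fun i => by
          rw [pd_congr (f := half e) (g := fun y => ∑ i, e i * y i) (by
            filter_upwards [((contDiff_linear e).continuous.tendsto x).eventually (lt_mem_nhds hp)] with z hz
            exact max_eq_left hz.le) i, pd_linear]
        rw [indicator_of_mem (show x ∈ {y | 0 < half e y} from hx)]
        simp only [e1, mul_assoc, ← mul_sum, ← sq, he]
        norm_num
      · have hmin : IsLocalMin (half e) x := .of_forall fun y => (not_lt.1 hx).trans (le_max_right _ _)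
        rw [indicator_of_notMem (show x ∉ {y | 0 < half e y} from hx)]
        simp [pd, hmin.fderiv_eq_zero]
    have h2 : ∑ i, 2 * e i * pd v i x ≤ (∑ i, pd v i x ^ 2) + {y | 0 < v y}.indicator (fun _ => 1) x := by
      by_cases hx : 0 < v x
      · rw [indicator_of_mem (show x ∈ {y | 0 < v y} from hx), ← he, ← sum_add_distrib]
        exact sum_le_sum fun i _ => by linarith [sq_nonneg (pd v i x - e i)]
      · have hmin : IsLocalMin v x := .of_forall fun y => (not_lt.1 hx).trans (hv0 y)
        rw [indicator_of_notMem (show x ∉ {y | 0 < v y} from hx)]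
        simp [pd, hmin.fderiv_eq_zero]
    simp only [mul_sub, sum_sub_distrib]
    linarith
  have hsum : IntegrableOn (fun x => ∑ i, 2 * e i * (pd v i x - pd (half e) i x)) B :=
    integrable_finsetSum _ fun i _ => ((hi hv i).sub (hi hu i)).const_mul _
  have h := integral_mono_ae ((hE hu).add hsum) (hE hv) hpt
  rw [integral_add' (hE hu) hsum, hS, add_zero] at h
  exact h

end

end Vale.Agent.P098.Cone
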