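import Vale.Agent.P098.Cone.Algebra
import Vale.Agent.P098.Cone.Determinant

/-!
# P098: the second order expansion of the transported energy density
-/

namespace Vale.Agent.P098.Cone

open Filter Topology Finset

noncomputable section

variable {d : ℕ}

/-- The transpose. -/
def tr (M : Fin d → Fin d → ℝ) (i j : Fin d) : ℝ := M j i

/-- The transported density. -/
def density (t : ℝ) (M : Fin d → Fin d → ℝ) (g : Fin d → ℝ) : ℝ := (dot g g + 1) * detPlus t M

/-- The limit of the symmetric second difference of the density. -/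
def secondVar (M : Fin d → Fin d → ℝ) (N : Fin d → ℝ) : ℝ :=
  (dot N N + 1) * ((∑ i, M i i) ^ 2 - ∑ i, ∑ k, M i k * M k i)
    - 4 * dot (app (tr M) N) N * (∑ i, M i i)
    + 2 * (dot (app (tr M) N) (app (tr M) N) + 2 * dot (app (tr M) (app (tr M) N)) N)

/-- The quadratic term in the length of the transported gradient. -/
def quadTerm (M : Fin d → Fin d → ℝ) (N g : Fin d → ℝ) : ℝ :=
  dot (app (tr M) N) (app (tr M) g) + dot (app (tr M) (app (tr M) g)) (fun i => g i + N i)

theorem dot_self_sub {t : ℝ} {M : Fin d → Fin d → ℝ} {N g : Fin d → ℝ}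
    (hg : ∀ j, g j + t * app (tr M) g j = N j) :
    dot g g - dot N N = -2 * t * dot (app (tr M) N) N + t ^ 2 * quadTerm M N g := by
  set c := app (tr M) N
  set m1 := app (tr M) g
  set m2 := app (tr M) m1
  have hg' : ∀ j, g j = N j - t * m1 j := fun j => by linarith [hg j]
  have hm1 : ∀ j, m1 j = c j - t * m2 j := fun j => by
    calc m1 j = ∑ i, tr M j i * g i := rfl
      _ = ∑ i, (tr M j i * N i - t * (tr M j i * m1 i)) := sum_congr rfl fun i _ => by rw [hg' i]; ring
      _ = _ := by simp only [sum_sub_distrib, ← mul_sum]; rfl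
  simp only [quadTerm, dot, mul_sum, ← sum_sub_distrib, ← sum_add_distrib]
  refine sum_congr rfl fun j _ => ?_
  rw [show app (tr M) N j = c j from rfl, show app (tr M) g j = m1 j from rfl,
    show app (tr M) (app (tr M) g) j = m2 j from rfl]
  have h1 := hg' j
  have h2 := hm1 j
  rw [h1, h2]
  ring

theorem density_sum {t : ℝ} {M : Fin d → Fin d → ℝ} {N gp gm : Fin d → ℝ}
    (hp : ∀ j, gp j + t * app (tr M) gp j = N j) (hm : ∀ j, gm j + -t * app (tr M) gm j = N j) :
    density t M gp + density (-t) M gm - 2 * (dot N N + 1)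
      = (dot N N + 1) * (detPlus t M + detPlus (-t) M - 2)
        - 2 * dot (app (tr M) N) N * (t * (detPlus t M - detPlus (-t) M))
        + t ^ 2 * (quadTerm M N gp * detPlus t M + quadTerm M N gm * detPlus (-t) M) := by
  have h1 := dot_self_sub hp
  have h2 := dot_self_sub hm
  simp only [density]
  rw [show dot gp gp = dot N N + (dot gp gp - dot N N) by ring, h1,
    show dot gm gm = dot N N + (dot gm gm - dot N N) by ring, h2]
  ring

theorem norm_app_le {M : Fin d → Fin d → ℝ} {B : ℝ} (hB : 0 ≤ B) (hM : ∀ i j, |M i j| ≤ B)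
    (g : Fin d → ℝ) : ‖app M g‖ ≤ d * B * ‖g‖ := by
  refine (pi_norm_le_iff_of_nonneg (by positivity)).2 fun i => ?_
  rw [Real.norm_eq_abs]
  refine (abs_sum_le_sum_abs _ _).trans ((sum_le_sum fun j _ => ?_).trans_eq
    (by simp; ring : ∑ _j : Fin d, B * ‖g‖ = d * B * ‖g‖))
  rw [abs_mul]
  exact mul_le_mul (hM i j) (norm_le_pi_norm g j) (abs_nonneg _) hB

theorem abs_dot_le (p q : Fin d → ℝ) : |dot p q| ≤ d * ‖p‖ * ‖q‖ := by
  refine (abs_sum_le_sum_abs _ _).trans ((sum_le_sum fun j _ => ?_).trans_eq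
    (by simp; ring : ∑ _j : Fin d, ‖p‖ * ‖q‖ = d * ‖p‖ * ‖q‖))
  rw [abs_mul]
  exact mul_le_mul (norm_le_pi_norm p j) (norm_le_pi_norm q j) (abs_nonneg _) (norm_nonneg _)

theorem norm_solution_le {t B : ℝ} (hB : 0 ≤ B) (ht : |t| * (d * B) ≤ 1 / 2) {M : Fin d → Fin d → ℝ}
    (hM : ∀ i j, |M i j| ≤ B) {N g : Fin d → ℝ} (hg : ∀ j, g j + t * app (tr M) g j = N j) :
    ‖g‖ ≤ 2 * ‖N‖ ∧ ‖g - N‖ ≤ |t| * (d * B * (2 * ‖N‖)) := by
  have h1 : ‖g - N‖ ≤ |t| * (d * B * ‖g‖) := by
    have e : g - N = (-t) • app (tr M) g := funext fun j => by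
      simp only [Pi.sub_apply, Pi.smul_apply, smul_eq_mul]; linarith [hg j]
    rw [e, norm_smul, Real.norm_eq_abs, abs_neg]
    exact mul_le_mul_of_nonneg_left (norm_app_le hB (fun i j => hM j i) g) (abs_nonneg t)
  have h2 : ‖g‖ ≤ ‖g - N‖ + ‖N‖ := by
    calc ‖g‖ = ‖(g - N) + N‖ := by rw [sub_add_cancel]
      _ ≤ _ := norm_add_le _ _
  have h3 : |t| * (d * B) * ‖g‖ ≤ 1 / 2 * ‖g‖ := mul_le_mul_of_nonneg_right ht (norm_nonneg _)
  have hg2 : ‖g‖ ≤ 2 * ‖N‖ := by linarith
  exact ⟨hg2, h1.trans (mul_le_mul_of_nonneg_left (mul_le_mul_of_nonneg_left hg2 (by positivity))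
    (abs_nonneg t))⟩

theorem abs_quadTerm_le {B L : ℝ} (hB : 0 ≤ B) {M : Fin d → Fin d → ℝ} (hM : ∀ i j, |M i j| ≤ B)
    {N g : Fin d → ℝ} (hN : ‖N‖ ≤ L) (hg : ‖g‖ ≤ 2 * L) :
    |quadTerm M N g| ≤ d * (d * B * L) * (d * B * (2 * L)) + d * (d * B * (d * B * (2 * L))) * (3 * L) := by
  have hL : 0 ≤ L := (norm_nonneg N).trans hN
  have hn : ∀ {z : Fin d → ℝ} {Z : ℝ}, ‖z‖ ≤ Z → ‖app (tr M) z‖ ≤ d * B * Z := fun h =>
    (norm_app_le hB (fun i j => hM j i) _).trans (mul_le_mul_of_nonneg_left h (by positivity))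
  refine (abs_add_le _ _).trans (add_le_add ?_ ?_)
  · exact (abs_dot_le _ _).trans (mul_le_mul (mul_le_mul_of_nonneg_left (hn hN) (by positivity)) (hn hg)
      (norm_nonneg _) (by positivity))
  · refine (abs_dot_le _ _).trans (mul_le_mul (mul_le_mul_of_nonneg_left (hn (hn hg)) (by positivity)) ?_
      (norm_nonneg _) (by positivity))
    exact (norm_add_le g N).trans (by linarith)

/-- The bound on the symmetric second difference. -/
theorem exists_second_bound (B L : ℝ) (hB : 0 ≤ B) (hL : 0 ≤ L) :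
    ∃ C δ : ℝ, 0 < δ ∧ ∀ (t : ℝ) (M : Fin d → Fin d → ℝ) (N gp gm : Fin d → ℝ), |t| ≤ δ →
      (∀ i j, |M i j| ≤ B) → ‖N‖ ≤ L → (∀ j, gp j + t * app (tr M) gp j = N j) →
      (∀ j, gm j + -t * app (tr M) gm j = N j) →
      |density t M gp + density (-t) M gm - 2 * (dot N N + 1)| ≤ C * t ^ 2 := by
  obtain ⟨C, δ, hC, hδ, h⟩ := exists_detPlus_bound (d := d) B hB
  set Q := d * (d * B * L) * (d * B * (2 * L)) + d * (d * B * (d * B * (2 * L))) * (3 * L)
  have hQ : 0 ≤ Q := by positivity
  set P0 := d * L * L + 1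
  set R := d * (d * B * L) * L
  refine ⟨P0 * C + 2 * R * (2 * C) + Q * (2 + 2 * C), min δ (1 / (2 * (d * B) + 2)),
    lt_min hδ (by positivity), fun t M N gp gm ht hM hN hp hm => ?_⟩
  have htd : |t| * (d * B) ≤ 1 / 2 ∧ |t| ≤ 1 / 2 := by
    have h1 := (le_div_iff₀ (by positivity)).1 (ht.trans (min_le_right _ _))
    constructor <;> linarith [mul_nonneg (abs_nonneg t) (show 0 ≤ (d : ℝ) * B by positivity), abs_nonneg t]
  obtain ⟨hdp, hap, hs⟩ := h t M (ht.trans (min_le_left _ _)) hM
  obtain ⟨hdm, ham, -⟩ := h (-t) M (by rw [abs_neg]; exact ht.trans (min_le_left _ _)) hM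
  rw [abs_neg] at ham
  have hgp := (norm_solution_le hB htd.1 hM hp).1
  have hgm := (norm_solution_le hB (by rw [abs_neg]; exact htd.1) hM hm).1
  have hqp := abs_quadTerm_le hB hM hN (hgp.trans (by linarith))
  have hqm := abs_quadTerm_le hB hM hN (hgm.trans (by linarith))
  have hP : |dot N N + 1| ≤ P0 := by
    rw [abs_of_nonneg (by linarith [dot_self_nonneg N])]
    refine add_le_add_left ?_ 1
    exact (le_abs_self _).trans ((abs_dot_le N N).trans
      (mul_le_mul (mul_le_mul_of_nonneg_left hN (by positivity)) hN (norm_nonneg _) (by positivity)))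
  have hR : |dot (app (tr M) N) N| ≤ R :=
    (abs_dot_le _ _).trans (mul_le_mul (mul_le_mul_of_nonneg_left
      ((norm_app_le hB (fun i j => hM j i) N).trans (mul_le_mul_of_nonneg_left hN (by positivity)))
      (by positivity)) hN (norm_nonneg _) (by positivity))
  have hD : |t * (detPlus t M - detPlus (-t) M)| ≤ 2 * C * t ^ 2 := by
    rw [abs_mul, show 2 * C * t ^ 2 = |t| * (2 * C * |t|) by rw [← sq_abs]; ring]
    refine mul_le_mul_of_nonneg_left ?_ (abs_nonneg t)
    have h1 := abs_le.1 hap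
    have h2 := abs_le.1 ham
    rw [abs_le]
    constructor <;> linarith
  have hdle : ∀ {s}, |s - 1| ≤ C * |t| → 0 < s → |s| ≤ 1 + C := fun {s} h hs => by
    rw [abs_of_pos hs]
    have := (abs_le.1 h).2
    linarith [mul_le_of_le_one_right hC (show |t| ≤ 1 by linarith [htd.2])]
  rw [density_sum hp hm]
  refine (abs_add_le _ _).trans ?_
  refine (add_le_add (abs_sub _ _) le_rfl).trans ?_
  rw [abs_mul (dot N N + 1), abs_mul (2 * dot (app (tr M) N) N), abs_mul (2 : ℝ), abs_two, abs_mul (t ^ 2),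
    abs_of_nonneg (sq_nonneg t)]
  have e1 : |dot N N + 1| * |detPlus t M + detPlus (-t) M - 2| ≤ P0 * (C * t ^ 2) :=
    mul_le_mul hP hs (abs_nonneg _) (by positivity)
  have e2 : 2 * |dot (app (tr M) N) N| * |t * (detPlus t M - detPlus (-t) M)| ≤ 2 * R * (2 * C * t ^ 2) :=
    mul_le_mul (by linarith) hD (abs_nonneg _) (by positivity)
  have e3 : t ^ 2 * |quadTerm M N gp * detPlus t M + quadTerm M N gm * detPlus (-t) M|
      ≤ t ^ 2 * (Q * (1 + C) + Q * (1 + C)) := by
    refine mul_le_mul_of_nonneg_left ((abs_add_le _ _).trans ?_) (sq_nonneg t)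
    rw [abs_mul, abs_mul]
    exact add_le_add (mul_le_mul hqp (hdle hap hdp) (abs_nonneg _) hQ)
      (mul_le_mul hqm (hdle ham hdm) (abs_nonneg _) hQ)
  linarith

/-- The limit of the symmetric second difference. -/
theorem tendsto_second {B : ℝ} (hB : 0 ≤ B) {M : Fin d → Fin d → ℝ} (hM : ∀ i j, |M i j| ≤ B)
    {N : Fin d → ℝ} {ts : ℕ → ℝ} (hts : Tendsto ts atTop (𝓝[≠] 0)) {gp gm : ℕ → Fin d → ℝ}
    (hp : ∀ᶠ n in atTop, ∀ j, gp n j + ts n * app (tr M) (gp n) j = N j)
    (hm : ∀ᶠ n in atTop, ∀ j, gm n j + -ts n * app (tr M) (gm n) j = N j) :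
    Tendsto (fun n => (density (ts n) M (gp n) + density (-ts n) M (gm n) - 2 * (dot N N + 1)) / ts n ^ 2)
      atTop (𝓝 (secondVar M N)) := by
  have ht0 : Tendsto ts atTop (𝓝 0) := hts.mono_right nhdsWithin_le_nhds
  have hsmall : ∀ᶠ n in atTop, |ts n| * (d * B) ≤ 1 / 2 := by
    have := ((ht0.abs).mul_const ((d : ℝ) * B))
    rw [abs_zero, zero_mul] at this
    exact this.eventually (ge_mem_nhds (by norm_num))
  have hg : ∀ {g : ℕ → Fin d → ℝ} {s : ℕ → ℝ}, (∀ n, |s n| = |ts n|) →
      (∀ᶠ n in atTop, ∀ j, g n j + s n * app (tr M) (g n) j = N j) → Tendsto g atTop (𝓝 N) := by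
    intro g s hs hev
    rw [tendsto_iff_norm_sub_tendsto_zero]
    refine squeeze_zero' (g := fun n => |ts n| * (d * B * (2 * ‖N‖))) (.of_forall fun n => norm_nonneg _) ?_
      (by simpa using ht0.abs.mul_const ((d : ℝ) * B * (2 * ‖N‖)))
    filter_upwards [hev, hsmall] with n hn hsn
    have := (norm_solution_le hB (by rw [hs n]; exact hsn) hM hn).2
    rwa [hs n] at this
  have hgp := hg (fun _ => rfl) hp
  have hgm := hg (s := fun n => -ts n) (fun _ => abs_neg _) hm
  have hq : ∀ {g : ℕ → Fin d → ℝ}, Tendsto g atTop (𝓝 N) →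
      Tendsto (fun n => quadTerm M N (g n)) atTop (𝓝 (quadTerm M N N)) := fun h => by
    have hc : Continuous fun z => quadTerm M N z := by
      unfold quadTerm dot app; fun_prop
    exact (hc.tendsto N).comp h
  have hdc : Continuous fun t => detPlus t M := by unfold detPlus; fun_prop
  have hd1 : Tendsto (fun n => detPlus (ts n) M) atTop (𝓝 1) := by
    simpa [Function.comp_def, detPlus_zero] using (hdc.tendsto 0).comp ht0
  have hd2 : Tendsto (fun n => detPlus (-ts n) M) atTop (𝓝 1) := by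
    simpa [Function.comp_def, detPlus_zero] using
      (hdc.tendsto 0).comp (by simpa using ht0.neg : Tendsto (fun n => -ts n) atTop (𝓝 0))
  have hlim := ((((tendsto_detPlus_sum M).comp hts).const_mul (dot N N + 1)).sub
      (((tendsto_detPlus_sub M).comp hts).const_mul (2 * dot (app (tr M) N) N))).add
    (((hq hgp).mul hd1).add ((hq hgm).mul hd2))
  have e : (dot N N + 1) * ((∑ i, M i i) ^ 2 - ∑ i, ∑ k, M i k * M k i)
      - 2 * dot (app (tr M) N) N * (2 * ∑ i, M i i) + (quadTerm M N N * 1 + quadTerm M N N * 1)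
      = secondVar M N := by
    have : dot (app (tr M) (app (tr M) N)) (fun i => N i + N i)
        = 2 * dot (app (tr M) (app (tr M) N)) N := by
      simp only [dot, mul_sum]; exact sum_congr rfl fun _ _ => by ring
    simp only [secondVar, quadTerm, this]
    ring
  rw [e] at hlim
  refine hlim.congr' ?_
  filter_upwards [hp, hm, hts self_mem_nhdsWithin] with n hn hn' (hne : ts n ≠ 0)
  rw [density_sum hn hn']
  simp only [Function.comp_apply]
  field_simp


/-- The second variation for the derivative of a gradient field `ψ ∇w`. -/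
theorem secondVar_grad {A : Fin d → Fin d → ℝ} (hA : ∀ i j, A i j = A j i) (htr : ∑ i, A i i = 0)
    (N b : Fin d → ℝ) (ψ : ℝ) :
    secondVar (fun i j => ψ * A i j + N i * b j) N =
      -((dot N N + 1) * (ψ ^ 2 * dot2 A A + 2 * ψ * dot (app A N) b))
        + 2 * (3 * ψ ^ 2 * dot (app A N) (app A N) + 4 * ψ * dot N N * dot (app A N) b
          + dot N N ^ 2 * dot b b) := by
  set a := app A N
  set M : Fin d → Fin d → ℝ := fun i j => ψ * A i j + N i * b j
  have h1 : app (tr M) N = fun j => ψ * a j + dot N N * b j := funext fun j => by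
    simp only [app, tr, M, a, dot, mul_sum, sum_mul, ← sum_add_distrib]
    exact sum_congr rfl fun i _ => by rw [hA j i]; ring
  have h2 : app M N = fun i => ψ * a i + dot b N * N i := funext fun i => by
    simp only [app, M, a, dot, mul_sum, sum_mul, ← sum_add_distrib]
    exact sum_congr rfl fun j _ => by ring
  have h3 : ∑ i, M i i = dot b N := by
    simp only [M, sum_add_distrib, ← mul_sum, htr, mul_zero, zero_add, dot]
    exact sum_congr rfl fun i _ => mul_comm _ _
  have h4 : ∑ i, ∑ k, M i k * M k i = ψ ^ 2 * dot2 A A + 2 * ψ * dot a b + dot b N ^ 2 := by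
    calc ∑ i, ∑ k, M i k * M k i = ∑ i, ∑ k, (ψ ^ 2 * (A i k * A i k) + ψ * (A i k * N k * b i)
          + ψ * (A k i * N i * b k) + (b i * N i) * (b k * N k)) :=
        sum_congr rfl fun i _ => sum_congr rfl fun k _ => by simp only [M, hA k i]; ring
      _ = _ := by
          simp only [sum_add_distrib, ← mul_sum, ← sum_mul, dot2]
          rw [sum_comm (f := fun i k => A k i * N i * b k)]
          simp only [dot, a, app, sum_mul]
          rw [sq (∑ x, b x * N x)]
          simp only [sum_mul]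
          ring
  have h5 : dot (app (tr M) (app (tr M) N)) N = dot (app (tr M) N) (app M N) := by
    simp only [dot, app, tr, sum_mul, mul_sum]
    rw [sum_comm]
    exact sum_congr rfl fun i _ => sum_congr rfl fun j _ => sum_congr rfl fun k _ => by ring
  unfold secondVar
  rw [h5, h1, h2, h3, h4]
  have e1 : dot (fun j => ψ * a j + dot N N * b j) N = ψ * dot a N + dot N N * dot b N := by
    simp only [dot, add_mul, sum_add_distrib, mul_sum, sum_mul]
    congr 1
    · exact sum_congr rfl fun _ _ => by ring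
    · exact sum_congr rfl fun _ _ => sum_congr rfl fun _ _ => by ring
  have e2 : dot (fun j => ψ * a j + dot N N * b j) (fun j => ψ * a j + dot N N * b j)
      = ψ ^ 2 * dot a a + 2 * ψ * dot N N * dot a b + dot N N ^ 2 * dot b b := by
    set P := dot N N
    simp only [dot, mul_sum, ← sum_add_distrib]
    exact sum_congr rfl fun _ _ => by ring
  have e3 : dot (fun j => ψ * a j + dot N N * b j) (fun i => ψ * a i + dot b N * N i)
      = ψ ^ 2 * dot a a + ψ * dot b N * dot a N + ψ * dot N N * dot a b + dot N N * dot b N * dot b N := by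
    set P := dot N N
    set β := dot b N
    rw [show P * β * β = P * β * dot b N from rfl]
    simp only [dot, mul_sum, ← sum_add_distrib]
    exact sum_congr rfl fun _ _ => by ring
  rw [e1, e2, e3]
  ring

end

end Vale.Agent.P098.Cone
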