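import Vale.Agent.P098.Cone.Hardy

/-!
# P098: cones without curvature are half-space solutions
-/

namespace Vale.Agent.P098.Cone

open Set Filter Topology Finset
open scoped ContDiff

noncomputable section

variable {d : ℕ} {u w : (Fin d → ℝ) → ℝ} {O : Set (Fin d → ℝ)}

theorem exists_perp (hd : 2 ≤ d) (e : Fin d → ℝ) : ∃ y : Fin d → ℝ, y ≠ 0 ∧ dot e y = 0 := by
  set a : Fin d := ⟨0, by omega⟩
  set b : Fin d := ⟨1, by omega⟩
  have hab : a ≠ b := by simp [a, b, Fin.ext_iff]
  by_cases ha : e a = 0
  · refine ⟨fun i => if i = a then 1 else 0, fun h => ?_, ?_⟩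
    · simpa using congr_fun h a
    · simp [dot, ha]
  · refine ⟨fun i => if i = a then -e b else if i = b then e a else 0, fun h => ?_, ?_⟩
    · exact ha (by simpa [hab.symm] using congr_fun h b)
    · have : ∀ i, e i * (if i = a then -e b else if i = b then e a else 0)
          = (if i = a then -(e a * e b) else 0) + if i = b then e a * e b else 0 := fun i => by
        by_cases h1 : i = a
        · simp [h1, hab]
        · by_cases h2 : i = b
          · simp [h2, hab.symm, mul_comm]
          · simp [h1, h2]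
      simp [dot, this, sum_add_distrib]

namespace RegularCone

theorem grad_eventually_const (h : RegularCone u O w)
    (hH : ∀ z, 0 < u z → ∀ i j, hess w i j z = 0) {z : Fin d → ℝ} (hz : 0 < u z) :
    ∀ᶠ y in 𝓝 z, grad w y = grad w z := by
  obtain ⟨ρ, hρ, hρs⟩ := Metric.mem_nhds_iff.1 (h.isOpen_pos.mem_nhds hz)
  filter_upwards [Metric.ball_mem_nhds z hρ] with y hy
  funext i
  refine (convex_ball z ρ).is_const_of_fderivWithin_eq_zero (f := pd w i)
    (fun p hp => (differentiableAt_of_smooth (contDiffOn_pd h.smooth h.isOpen i) h.isOpen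
      (h.mem_of_pos (hρs hp))).differentiableWithinAt) (fun p hp => ?_) hy (Metric.mem_ball_self hρ)
  rw [fderivWithin_of_isOpen Metric.isOpen_ball hp]
  refine ContinuousLinearMap.ext fun v => ?_
  rw [fderiv_eq_sum]
  exact sum_eq_zero fun j _ => by
    rw [show pd (pd w i) j p = hess w i j p from rfl, hH p (hρs hp) i j, mul_zero]

theorem value_eq_dot (h : RegularCone u O w) {z : Fin d → ℝ} (hz : 0 < u z) :
    u z = dot (grad w z) z := by
  rw [dot_comm, h.euler_pos hz, h.agree z (h.mem_of_pos hz) hz]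

/-- The half-space of a positive point consists of positive points with the same gradient. -/
theorem halfspace (h : RegularCone u O w) (hH : ∀ z, 0 < u z → ∀ i j, hess w i j z = 0)
    {x : Fin d → ℝ} (hx : 0 < u x) {y : Fin d → ℝ} (hy : 0 < dot (grad w x) y) :
    0 < u y ∧ grad w y = grad w x := by
  set e := grad w x
  set H := {y : Fin d → ℝ | 0 < dot e y}
  set V := {y : Fin d → ℝ | 0 < u y ∧ grad w y = e}
  have hlin : Continuous fun y : Fin d → ℝ => dot e y :=
    continuous_finsetSum _ fun i _ => continuous_const.mul (continuous_apply i)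
  have hconv : Convex ℝ H := by
    intro p hp q hq a b ha hb hab
    have : dot e (a • p + b • q) = a * dot e p + b * dot e q := by
      simp only [dot, Pi.add_apply, Pi.smul_apply, smul_eq_mul, mul_sum, ← sum_add_distrib]
      exact sum_congr rfl fun i _ => by ring
    show 0 < dot e (a • p + b • q)
    rw [this]
    rcases ha.eq_or_lt with h0 | h0
    · have hb1 : b = 1 := by linarith
      rw [← h0, hb1, zero_mul, zero_add, one_mul]; exact hq
    · exact lt_of_lt_of_le (mul_pos h0 hp) (le_add_of_nonneg_right (mul_nonneg hb hq.le))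
  have hV : IsOpen V := isOpen_iff_mem_nhds.2 fun p hp => by
    filter_upwards [h.isOpen_pos.mem_nhds hp.1, h.grad_eventually_const hH hp.1] with q h1 h2
    exact ⟨h1, h2.trans hp.2⟩
  have hxH : x ∈ H := by
    show 0 < dot e x
    rw [← h.value_eq_dot hx]; exact hx
  have hsub : H ⊆ V := hconv.isPreconnected.subset_of_closure_inter_subset hV ⟨x, hxH, hx, rfl⟩ ?_
  · exact hsub hy
  rintro p ⟨hp, hpH⟩
  obtain ⟨s, hs, hlim⟩ := mem_closure_iff_seq_limit.1 hp
  have hu : ∀ n, u (s n) = dot e (s n) := fun n => by rw [h.value_eq_dot (hs n).1, (hs n).2]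
  have hup : u p = dot e p := tendsto_nhds_unique ((h.continuous.tendsto p).comp hlim)
    (((hlin.tendsto p).comp hlim).congr fun n => (hu n).symm)
  have hpos : 0 < u p := by rw [hup]; exact hpH
  obtain ⟨n, hn⟩ := (hlim.eventually (h.grad_eventually_const hH hpos)).exists
  exact ⟨hpos, by rw [← hn]; exact (hs n).2⟩

/-- The gradient has a limit along the normal at the edge of a half-space. -/
theorem grad_edge (h : RegularCone u O w) (hH : ∀ z, 0 < u z → ∀ i j, hess w i j z = 0)
    {x : Fin d → ℝ} (hx : 0 < u x) {y : Fin d → ℝ} (hy : dot (grad w x) y = 0) (hy0 : y ≠ 0) :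
    y ∈ O ∧ y ∈ closure {z | 0 < u z} ∧ u y = 0 ∧ grad w y = grad w x := by
  set e := grad w x
  have hee : 0 < dot e e := by
    refine (dot_self_nonneg e).lt_of_ne fun h0 => ?_
    have h1 := dot_sq_le e x
    rw [← h0, zero_mul, ← h.value_eq_dot hx] at h1
    have h2 := pow_pos hx 2
    linarith
  have hl : Tendsto (fun s : ℝ => y + s • e) (𝓝[>] 0) (𝓝 y) := by
    have : Continuous fun s : ℝ => y + s • e := by fun_prop
    simpa using (this.tendsto 0).mono_left nhdsWithin_le_nhds
  have hin : ∀ᶠ s in 𝓝[>] (0 : ℝ), 0 < u (y + s • e) ∧ grad w (y + s • e) = e := by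
    filter_upwards [self_mem_nhdsWithin] with s (hs : 0 < s)
    refine h.halfspace hH hx ?_
    have : dot e (y + s • e) = dot e y + s * dot e e := by
      simp only [dot, Pi.add_apply, Pi.smul_apply, smul_eq_mul, mul_sum, ← sum_add_distrib]
      exact sum_congr rfl fun i _ => by ring
    rw [this, hy, zero_add]
    exact mul_pos hs hee
  have hcl : y ∈ closure {z | 0 < u z} := mem_closure_of_tendsto hl (hin.mono fun s hs => hs.1)
  have hyO := h.cover y hcl hy0
  have hgrad : grad w y = e := funext fun i => by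
    have h1 := ((contDiffOn_pd h.smooth h.isOpen i).continuousOn.continuousAt (h.isOpen.mem_nhds hyO)).tendsto.comp hl
    refine tendsto_nhds_unique h1 (tendsto_const_nhds.congr' ?_)
    filter_upwards [hin] with s hs
    exact (congr_fun hs.2 i).symm
  refine ⟨hyO, hcl, ?_, hgrad⟩
  rw [← h.w_eq hcl hyO, ← h.euler hcl hyO, hgrad, dot_comm, hy]

/-- A regular cone with vanishing Hessian is a half-space solution. -/
theorem flat_of_hess (h : RegularCone u O w) (hd : 2 ≤ d)
    (hH : ∀ z, 0 < u z → ∀ i j, hess w i j z = 0) (hne : u ≠ 0) :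
    ∃ e : Fin d → ℝ, ∑ i, e i ^ 2 = 1 ∧ ∀ x, u x = max (∑ i, e i * x i) 0 := by
  obtain ⟨x, hx⟩ : ∃ x, 0 < u x := by
    by_contra hno
    exact hne (funext fun z => le_antisymm (not_lt.1 fun hz => hno ⟨z, hz⟩) (h.nonneg z))
  set e := grad w x
  obtain ⟨y, hy0, hy⟩ := exists_perp hd e
  obtain ⟨hyO, hycl, huy, hgy⟩ := h.grad_edge hH hx hy hy0
  have he1 : ∑ i, e i ^ 2 = 1 := by
    have hyf : y ∈ frontier {z | 0 < u z} := (h.frontier_or_pos hycl).resolve_right (by rw [huy]; exact lt_irrefl 0)
    have := h.free y hyf hy0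
    show ∑ i, grad w x i ^ 2 = 1
    rw [← hgy]
    exact this
  have hone : ∀ z, 0 < u z → grad w z = e := by
    intro z hz
    by_contra hne'
    set f := grad w z
    obtain ⟨y', hy'0, hy'⟩ := exists_perp hd f
    have hf1 : ∑ i, f i ^ 2 = 1 := by
      obtain ⟨hO', hcl', hu', hg'⟩ := h.grad_edge hH hz hy' hy'0
      have := h.free y' ((h.frontier_or_pos hcl').resolve_right (by rw [hu']; exact lt_irrefl 0)) hy'0
      show ∑ i, grad w z i ^ 2 = 1
      rw [← hg']
      exact this
    have hee : dot e e = 1 := by simpa only [dot, ← sq] using he1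
    have hff : dot f f = 1 := by simpa only [dot, ← sq] using hf1
    -- disjoint half-spaces are opposite
    have hopp : ∀ i, e i + f i = 0 := by
      by_contra hno
      simp only [not_forall] at hno
      have hpos : 0 < 1 + dot e f := by
        have h1 : dot (fun i => e i + f i) (fun i => e i + f i) = 2 * (1 + dot e f) := by
          calc dot (fun i => e i + f i) (fun i => e i + f i) = dot e e + 2 * dot e f + dot f f := by
                simp only [dot, mul_sum, ← sum_add_distrib]
                exact sum_congr rfl fun i _ => by ring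
            _ = _ := by rw [hee, hff]; ring
        have h2 : 0 < dot (fun i => e i + f i) (fun i => e i + f i) := by
          refine dot_self_pos fun h0 => ?_
          obtain ⟨i, hi⟩ := hno
          exact hi (congr_fun h0 i)
        linarith
      have h3 : ∀ g : Fin d → ℝ, dot g (fun i => e i + f i) = dot g e + dot g f := fun g => by
        simp only [dot, mul_add, sum_add_distrib]
      have p1 := h.halfspace hH hx (y := fun i => e i + f i) (by rw [h3, hee]; exact hpos)
      have p2 := h.halfspace hH hz (y := fun i => e i + f i) (by rw [h3, hff, dot_comm f e, add_comm]; exact hpos)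
      exact hne' (p2.2.symm.trans p1.2)
    have hfy : dot f y = 0 := by
      calc dot f y = -dot e y := by
            simp only [dot, ← sum_neg_distrib]
            exact sum_congr rfl fun i _ => by rw [show f i = -e i by linarith [hopp i]]; ring
        _ = 0 := by rw [hy, neg_zero]
    exact hne' ((h.grad_edge hH hz hfy hy0).2.2.2.symm.trans hgy)
  refine ⟨e, he1, fun z => ?_⟩
  show u z = max (dot e z) 0
  by_cases hz : 0 < u z
  · have hu : u z = dot e z := by rw [h.value_eq_dot hz, hone z hz]
    rw [hu, max_eq_left (hu ▸ hz).le]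
  · rw [max_eq_right (not_lt.1 fun hp => hz (h.halfspace hH hx hp).1)]
    exact le_antisymm (not_lt.1 hz) (h.nonneg z)

end RegularCone

/-- The general theorem. -/
theorem flat_of_condition {d : ℕ} {u w : (Fin d → ℝ) → ℝ} {O : Set (Fin d → ℝ)} {q : ℝ}
    (h : RegularCone u O w) (hmin : IsMinimizer u) (hne : u ≠ 0) (hd : 3 ≤ d) (hq1 : q ≤ 1)
    (hqk : ((d : ℝ) - 3) / ((d : ℝ) - 1) ≤ q) (hqh : ((d : ℝ) - 2) ^ 2 < 4 * ((d : ℝ) - 1) * q)
    (hcond : Condition u w q) :
    ∃ e : Fin d → ℝ, ∑ i, e i ^ 2 = 1 ∧ ∀ x, u x = max (∑ i, e i * x i) 0 :=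
  h.shrink.flat_of_hess (by omega)
    (fun _ hz i j => h.shrink.hess_eq_zero (fun _ hy => hy.2.1) (fun h0 => h0.2.2 rfl) hmin hd hq1 hqk hqh
      hcond hz i j) hne

/-- Pinched curvatures in dimension five. -/
theorem flat_of_pinched {u w : (Fin 5 → ℝ) → ℝ} {O : Set (Fin 5 → ℝ)}
    (h : RegularCone u O w) (hmin : IsMinimizer u) (hne : u ≠ 0)
    (hpinch : ∀ x ∈ frontier {y | 0 < u y}, x ≠ 0 → ∀ v : Fin 5 → ℝ, ∑ i, v i * pd w i x = 0 →
      0 ≤ ∑ i, ∑ j, hess w i j x * v i * v j ∧
        ∑ i, ∑ j, hess w i j x * v i * v j ≤ 3 / 4 * meanCurv w x * ∑ i, v i ^ 2) :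
    ∃ e : Fin 5 → ℝ, ∑ i, e i ^ 2 = 1 ∧ ∀ x, u x = max (∑ i, e i * x i) 0 := by
  refine flat_of_condition h hmin hne (by norm_num) (q := 4 / 7) (by norm_num) (by norm_num) (by norm_num) ?_
  intro x hx hx0
  have hs := h.shrink
  have hcl := RegularCone.mem_closure_of_frontier hx
  have hxO := hs.cover x hcl hx0
  obtain ⟨hN, hAN, -⟩ := hs.free_boundary (fun h0 => h0.2.2 rfl) hx hxO
  have hform : ∀ v : Fin 5 → ℝ, dot (app (hessMat w x) v) v = ∑ i, ∑ j, hess w i j x * v i * v j := fun v => by
    simp only [dot, app, hessMat, sum_mul]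
    exact sum_congr rfl fun i _ => sum_congr rfl fun j _ => by ring
  have hp := pinched_cubic hN (hess_comm_of hs.smooth hs.isOpen hxO) (hs.trace hcl hxO) hAN
    (fun v hv => hform v ▸ (hpinch x hx hx0 v hv).1)
    (fun v hv => by
      rw [neg_neg]
      exact ((hform v).trans_le (hpinch x hx hx0 v hv).2).trans_eq (by simp only [dot, sq]))
  rw [neg_neg] at hp
  refine hp.trans_eq ?_
  show -(1 / 4) * meanCurv w x * hessSq w x = _
  norm_num

end

end Vale.Agent.P098.Cone
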