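import Vale.Agent.P098.Cone.Basic

/-!
# P098: the sign of a flux through the free boundary

The boundary is approached by the cut-off `θ (u / ε)`, so that no surface measure is needed.
-/

namespace Vale.Agent.P098.Cone

open MeasureTheory Set Filter Topology Finset
open scoped ContDiff

noncomputable section

variable {d : ℕ} {u w : (Fin d → ℝ) → ℝ} {O : Set (Fin d → ℝ)} {x : Fin d → ℝ}

/-- The divergence. -/
def divg (Z : Fin d → (Fin d → ℝ) → ℝ) (x : Fin d → ℝ) : ℝ := ∑ i, pd (Z i) i x

/-- The cut-off, zero up to one and one from two on. -/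
def theta (t : ℝ) : ℝ := Real.smoothTransition (t - 1)

theorem theta_contDiff : ContDiff ℝ ∞ theta :=
  Real.smoothTransition.contDiff.comp (contDiff_id.sub contDiff_const)

theorem theta_zero {t : ℝ} (h : t ≤ 1) : theta t = 0 :=
  Real.smoothTransition.zero_of_nonpos (by linarith)

theorem theta_one {t : ℝ} (h : 2 ≤ t) : theta t = 1 := Real.smoothTransition.one_of_one_le (by linarith)

theorem theta_mem (t : ℝ) : theta t ∈ Icc (0 : ℝ) 1 :=
  ⟨Real.smoothTransition.nonneg _, Real.smoothTransition.le_one _⟩

theorem deriv_theta_nonneg (t : ℝ) : 0 ≤ deriv theta t :=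
  Monotone.deriv_nonneg fun a b hab => Real.smoothTransition.monotone (by linarith)

theorem deriv_theta_eq_zero {t : ℝ} (h : t < 1 ∨ 2 < t) : deriv theta t = 0 := by
  rcases h with h | h
  · exact HasDerivAt.deriv ((hasDerivAt_const t (0 : ℝ)).congr_of_eventuallyEq
      (by filter_upwards [gt_mem_nhds h] with s hs using theta_zero hs.le))
  · exact HasDerivAt.deriv ((hasDerivAt_const t (1 : ℝ)).congr_of_eventuallyEq
      (by filter_upwards [lt_mem_nhds h] with s hs using theta_one hs.le))

theorem continuous_divg {Z : Fin d → (Fin d → ℝ) → ℝ} (hZ : ∀ i, ContDiff ℝ 1 (Z i)) :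
    Continuous (divg Z) :=
  continuous_finsetSum _ fun i _ => (contDiff_pd (hZ i) i).continuous

theorem hasCompactSupport_divg {Z : Fin d → (Fin d → ℝ) → ℝ} {K : Set (Fin d → ℝ)} (hK : IsCompact K)
    (hs : ∀ i, tsupport (Z i) ⊆ K) : HasCompactSupport (divg Z) :=
  HasCompactSupport.intro hK fun x hx => sum_eq_zero fun i _ =>
    image_eq_zero_of_notMem_tsupport fun h => hx (hs i (tsupport_pd _ _ h))

/-- The weight in the layer next to the free boundary. -/
def layer (u : (Fin d → ℝ) → ℝ) (ε : ℝ) (x : Fin d → ℝ) : ℝ := deriv theta (u x / ε) / ε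

theorem layer_nonneg {ε : ℝ} (hε : 0 < ε) (x : Fin d → ℝ) : 0 ≤ layer u ε x :=
  div_nonneg (deriv_theta_nonneg _) hε.le

theorem RegularCone.continuous_layer (h : RegularCone u O w) (ε : ℝ) : Continuous (layer u ε) :=
  ((theta_contDiff.continuous_deriv (by simp)).comp (h.continuous.div_const _)).div_const _

theorem layer_eq_zero {ε : ℝ} (hε : 0 < ε) (hx : u x < ε ∨ 2 * ε < u x) : layer u ε x = 0 := by
  rw [layer, deriv_theta_eq_zero, zero_div]
  rcases hx with hx | hx
  · exact .inl ((div_lt_one hε).2 hx)
  · exact .inr ((lt_div_iff₀ hε).2 hx)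

/-- Integration by parts against the cut-off. -/
theorem RegularCone.cut_identity (h : RegularCone u O w) {Z : Fin d → (Fin d → ℝ) → ℝ}
    (hZ : ∀ i, ContDiff ℝ 1 (Z i)) (hc : ∀ i, HasCompactSupport (Z i)) {ε : ℝ} (hε : 0 < ε) :
    ∫ x, theta (u x / ε) * divg Z x = -∫ x, layer u ε x * ∑ i, Z i x * pd w i x := by
  set f : Fin d → (Fin d → ℝ) → ℝ := fun i x => theta (u x / ε) * Z i x
  have hloc : ∀ x, 0 < u x →
      (fun y => theta (u y / ε)) =ᶠ[𝓝 x] fun y => theta (w y / ε) := fun x hx => by
    filter_upwards [h.eventually_eq hx] with y hy; rw [hy]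
  have hf : ∀ i, ContDiff ℝ 1 (f i) := fun i => contDiff_iff_contDiffAt.2 fun x => by
    by_cases hx : 0 < u x
    · refine ContDiffAt.congr_of_eventuallyEq (f := fun y => theta (w y / ε) * Z i y) ?_ ?_
      · exact ((theta_contDiff.of_le (by simp)).contDiffAt.comp x
          (((h.smooth.contDiffAt (h.isOpen.mem_nhds (h.mem_of_pos hx))).of_le (by norm_num)).div_const ε)).mul
          (hZ i).contDiffAt
      · filter_upwards [hloc x hx] with y hy; simp only [f]; rw [hy]
    · refine (contDiffAt_const (c := (0 : ℝ))).congr_of_eventuallyEq ?_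
      have hux : u x < ε := (not_lt.1 hx).trans_lt hε
      filter_upwards [(isOpen_lt h.continuous continuous_const).mem_nhds hux] with y hy
      simp only [f]
      rw [theta_zero ((div_le_one hε).2 (le_of_lt hy)), zero_mul]
  have hfc : ∀ i, HasCompactSupport (f i) := fun i => (hc i).mul_left
  have hpd : ∀ i x, pd (f i) i x = theta (u x / ε) * pd (Z i) i x + layer u ε x * (Z i x * pd w i x) := by
    intro i x
    by_cases hx : 0 < u x
    · have hw := differentiableAt_of_smooth h.smooth h.isOpen (h.mem_of_pos hx)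
      have hθ : DifferentiableAt ℝ theta (w x / ε) := (theta_contDiff.differentiable (by simp)) _
      have e : f i =ᶠ[𝓝 x] fun y => theta (w y / ε) * Z i y := by
        filter_upwards [hloc x hx] with y hy; simp only [f]; rw [hy]
      have hcomp : DifferentiableAt ℝ (fun y => theta (w y / ε)) x :=
        DifferentiableAt.comp (f := fun y => w y / ε) (g := theta) x hθ
          (by simpa only [div_eq_mul_inv] using hw.mul_const ε⁻¹)
      rw [pd_congr e, pd_mul hcomp ((hZ i).differentiable (by simp) x),
        pd_comp (φ := fun t => theta (t / ε)) (φ' := deriv theta (w x / ε) * (1 / ε))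
          (HasDerivAt.comp (h := fun t => t / ε) (h₂ := theta) (w x) hθ.hasDerivAt ((hasDerivAt_id (w x)).div_const ε)) hw]
      rw [h.agree x (h.mem_of_pos hx) hx, layer]
      ring
    · have hux : u x < ε := (not_lt.1 hx).trans_lt hε
      have e : f i =ᶠ[𝓝 x] fun _ => (0 : ℝ) := by
        filter_upwards [(isOpen_lt h.continuous continuous_const).mem_nhds hux] with y hy
        simp only [f]
        rw [theta_zero ((div_le_one hε).2 (le_of_lt hy)), zero_mul]
      rw [pd_congr e, pd_const, theta_zero ((div_le_one hε).2 hux.le), layer_eq_zero hε (.inl hux)]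
      ring
  have hθc : Continuous fun x => theta (u x / ε) := theta_contDiff.continuous.comp (h.continuous.div_const _)
  have hi1 : ∀ i, Integrable fun x => theta (u x / ε) * pd (Z i) i x := fun i =>
    (hθc.mul (contDiff_pd (hZ i) i).continuous).integrable_of_hasCompactSupport
      (hasCompactSupport_pd (hc i) i).mul_left
  have hi : ∀ i, Integrable fun x => pd (f i) i x := fun i =>
    (((hf i).continuous_fderiv one_ne_zero).clm_apply continuous_const).integrable_of_hasCompactSupport
      (hasCompactSupport_pd (hfc i) i)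
  have hi2 : ∀ i, Integrable fun x => layer u ε x * (Z i x * pd w i x) := fun i =>
    ((hi i).sub (hi1 i)).congr (.of_forall fun x => by simp [hpd i x])
  have key : ∀ i, (∫ x, theta (u x / ε) * pd (Z i) i x) = -∫ x, layer u ε x * (Z i x * pd w i x) := by
    intro i
    have h0 := integral_pd_zero (hf i) (hfc i) i
    simp only [hpd i] at h0
    rw [integral_add (hi1 i) (hi2 i)] at h0
    linarith
  simp only [divg, mul_sum]
  rw [integral_finsetSum _ fun i _ => hi1 i, integral_finsetSum _ fun i _ => hi2 i, ← sum_neg_distrib]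
  exact sum_congr rfl fun i _ => key i

/-- A field with flux at least `-m` through the free boundary has integral of its divergence at most a
multiple of `m`, the multiple depending only on the support. -/
theorem RegularCone.flux_le (h : RegularCone u O w) (hP : ∀ y ∈ O, 0 < dot (grad w y) (grad w y))
    {K : Set (Fin d → ℝ)} (hK : IsCompact K) (hKO : K ⊆ O) :
    ∃ C : ℝ, 0 ≤ C ∧ ∀ (Z : Fin d → (Fin d → ℝ) → ℝ) (m : ℝ), (∀ i, ContDiff ℝ 1 (Z i)) →
      (∀ i, tsupport (Z i) ⊆ K) → 0 ≤ m →
      (∀ x ∈ K ∩ frontier {y | 0 < u y}, -m ≤ ∑ i, Z i x * pd w i x) →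
      ∫ x in {y | 0 < u y}, divg Z x ≤ C * m := by
  rcases K.eq_empty_or_nonempty with rfl | hne
  · refine ⟨0, le_rfl, fun Z m _ hs _ _ => ?_⟩
    have : ∀ x, divg Z x = 0 := fun x => sum_eq_zero fun i _ =>
      image_eq_zero_of_notMem_tsupport fun hx => hs i (tsupport_pd _ _ hx)
    simp [this]
  obtain ⟨χ, hχ, hχc, hχO, hχ01, hχ1⟩ := exists_cutoff hK h.isOpen hKO
  set G : Fin d → (Fin d → ℝ) → ℝ := fun i x => χ x * pd w i x
  have hG : ∀ i, ContDiff ℝ 1 (G i) := fun i =>
    contDiff_cutoff_mul hχ h.isOpen hχO ((contDiffOn_pd h.smooth h.isOpen i).of_le (by norm_num))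
  have hGc : ∀ i, HasCompactSupport (G i) := fun i => hχc.mul_right
  have hPc : ContinuousOn (fun y => dot (grad w y) (grad w y)) O := continuousOn_finsetSum _ fun i _ =>
    (contDiffOn_pd h.smooth h.isOpen i).continuousOn.mul (contDiffOn_pd h.smooth h.isOpen i).continuousOn
  obtain ⟨x₀, hx₀, hmin⟩ := hK.exists_isMinOn hne (hPc.mono hKO)
  set c₀ := dot (grad w x₀) (grad w x₀)
  have hc₀ : 0 < c₀ := hP x₀ (hKO hx₀)
  have hdc : Continuous (divg G) := continuous_divg hG
  have hds : HasCompactSupport (divg G) := hasCompactSupport_divg hχc fun i =>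
    (closure_mono (Function.support_mul_subset_left (fun x => χ x) fun x => pd w i x))
  have hdi : Integrable fun x => |divg G x| := hdc.abs.integrable_of_hasCompactSupport hds.norm
  refine ⟨(∫ x, |divg G x|) / c₀, div_nonneg (integral_nonneg fun x => abs_nonneg _) hc₀.le,
    fun Z m hZ hs hm hbd => le_of_forall_pos_le_add fun η hη => ?_⟩
  set C := (∫ x, |divg G x|) / c₀
  have hC : 0 ≤ C := div_nonneg (integral_nonneg fun x => abs_nonneg _) hc₀.le
  set η' := η / (C + 1)
  have hη' : 0 < η' := div_pos hη (by linarith)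
  have hZK : ∀ i y, y ∉ K → Z i y = 0 := fun i y hy =>
    image_eq_zero_of_notMem_tsupport fun h' => hy (hs i h')
  have hZc : ∀ i, HasCompactSupport (Z i) := fun i =>
    hK.of_isClosed_subset (isClosed_tsupport _) (hs i)
  -- the layer misses the bad points
  set S := {y ∈ K ∩ closure {y | 0 < u y} | ∑ i, Z i y * pd w i y ≤ -(m + η')}
  have hSc : IsCompact S := by
    have hcl : IsCompact (K ∩ closure {y | 0 < u y}) := hK.inter_right isClosed_closure
    refine hcl.of_isClosed_subset ?_ fun y hy => hy.1
    exact ContinuousOn.preimage_isClosed_of_isClosed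
      (continuousOn_finsetSum _ fun i _ => (hZ i).continuous.continuousOn.mul
        ((contDiffOn_pd h.smooth h.isOpen i).continuousOn.mono fun y hy => hKO hy.1))
      hcl.isClosed isClosed_Iic
  have hSpos : ∀ y ∈ S, 0 < u y := fun y hy => by
    rcases h.frontier_or_pos hy.1.2 with hf | hp
    · linarith [hbd y ⟨hy.1.1, hf⟩, hy.2]
    · exact hp
  obtain ⟨μ, hμ, hμS⟩ : ∃ μ > (0 : ℝ), ∀ y ∈ S, μ ≤ u y := by
    rcases S.eq_empty_or_nonempty with hS | hS
    · exact ⟨1, one_pos, by simp [hS]⟩
    · obtain ⟨y, hy, hy'⟩ := hSc.exists_isMinOn hS h.continuous.continuousOn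
      exact ⟨u y, hSpos y hy, fun z hz => hy' hz⟩
  have hdiv : Continuous (divg Z) := continuous_divg hZ
  have hdivs : HasCompactSupport (divg Z) := hasCompactSupport_divg hK hs
  have est : ∀ ε : ℝ, 0 < ε → 2 * ε < μ → ∫ x, theta (u x / ε) * divg Z x ≤ C * (m + η') := by
    intro ε hε hεμ
    rw [h.cut_identity hZ hZc hε, ← integral_neg]
    have hl := h.continuous_layer ε
    have hθc : Continuous fun x => theta (u x / ε) := theta_contDiff.continuous.comp (h.continuous.div_const _)
    have hcG : Continuous fun x => ∑ i, G i x * pd w i x := by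
      have : ContDiff ℝ 3 fun x => χ x * ∑ i, pd w i x * pd w i x :=
        contDiff_cutoff_mul hχ h.isOpen hχO (ContDiffOn.sum fun i _ =>
          (contDiffOn_pd h.smooth h.isOpen i).mul (contDiffOn_pd h.smooth h.isOpen i))
      refine this.continuous.congr fun x => ?_
      simp only [G, mul_sum, mul_assoc]
    have hcZ : Continuous fun x => ∑ i, Z i x * pd w i x := continuous_finsetSum _ fun i _ =>
      (contDiff_cutoff_mul (hZ i) h.isOpen ((hs i).trans hKO)
        ((contDiffOn_pd h.smooth h.isOpen i).of_le (m := 1) (by norm_num))).continuous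
    have hiZ : Integrable fun x => -(layer u ε x * ∑ i, Z i x * pd w i x) :=
      (hl.mul hcZ).neg.integrable_of_hasCompactSupport (HasCompactSupport.intro hK fun x hx => by
        simp [hZK _ x hx])
    have hiG : Integrable fun x => layer u ε x * ∑ i, G i x * pd w i x :=
      (hl.mul hcG).integrable_of_hasCompactSupport (HasCompactSupport.intro hχc fun x hx => by
        simp [G, image_eq_zero_of_notMem_tsupport hx])
    refine le_trans (integral_mono hiZ (hiG.const_mul ((m + η') / c₀)) fun x => ?_) ?_
    · have hGP : ∑ i, G i x * pd w i x = χ x * dot (grad w x) (grad w x) := by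
        simp only [G, dot, grad, mul_sum, mul_assoc]
      rw [hGP]
      have hχP : 0 ≤ χ x * dot (grad w x) (grad w x) := mul_nonneg (hχ01 x).1 (dot_self_nonneg _)
      have hl0 := layer_nonneg (u := u) hε x
      by_cases hxK : x ∈ K
      · by_cases hl1 : layer u ε x = 0
        · simp [hl1]
        have hu : ε ≤ u x ∧ u x ≤ 2 * ε := by
          constructor <;> by_contra hc
          · exact hl1 (layer_eq_zero hε (.inl (not_le.1 hc)))
          · exact hl1 (layer_eq_zero hε (.inr (not_le.1 hc)))
        have hnS : x ∉ S := fun hS => by linarith [hμS x hS, hu.2]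
        have h1 : -(m + η') < ∑ i, Z i x * pd w i x := not_le.1 fun hle =>
          hnS ⟨⟨hxK, subset_closure (show 0 < u x by linarith [hu.1])⟩, hle⟩
        have h2 : χ x = 1 := hχ1.self_of_nhdsSet _ hxK
        rw [h2, one_mul]
        calc -(layer u ε x * ∑ i, Z i x * pd w i x) ≤ layer u ε x * (m + η') := by
              rw [← mul_neg]; exact mul_le_mul_of_nonneg_left (by linarith) hl0
          _ = (m + η') / c₀ * (layer u ε x * c₀) := by field_simp
          _ ≤ (m + η') / c₀ * (layer u ε x * dot (grad w x) (grad w x)) :=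
              mul_le_mul_of_nonneg_left (mul_le_mul_of_nonneg_left (hmin hxK) hl0)
                (div_nonneg (by linarith) hc₀.le)
      · simp only [hZK _ x hxK, zero_mul, Finset.sum_const_zero, mul_zero, neg_zero]
        exact mul_nonneg (div_nonneg (by linarith) hc₀.le) (mul_nonneg hl0 hχP)
    · rw [integral_const_mul, show C * (m + η') = (m + η') / c₀ * ∫ x, |divg G x| by simp only [C]; ring]
      refine mul_le_mul_of_nonneg_left ?_ (div_nonneg (by linarith) hc₀.le)
      rw [← neg_neg (∫ x, layer u ε x * ∑ i, G i x * pd w i x), ← h.cut_identity hG hGc hε, ← integral_neg]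
      have hiθ : Integrable fun x => -(theta (u x / ε) * divg G x) :=
        (hθc.mul hdc).neg.integrable_of_hasCompactSupport (HasCompactSupport.intro hds fun x hx => by
          simp [image_eq_zero_of_notMem_tsupport hx])
      refine integral_mono hiθ hdi fun x => ?_
      calc -(theta (u x / ε) * divg G x) ≤ |theta (u x / ε) * divg G x| := neg_le_abs _
        _ ≤ |divg G x| := by
            rw [abs_mul, abs_of_nonneg (theta_mem _).1]
            exact mul_le_of_le_one_left (abs_nonneg _) (theta_mem _).2
  -- the limit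
  have hlim : Tendsto (fun n : ℕ => ∫ x, theta (u x / (1 / ((n : ℝ) + 1))) * divg Z x) atTop
      (𝓝 (∫ x, ({y | 0 < u y}).indicator (divg Z) x)) := by
    refine tendsto_integral_of_dominated_convergence (fun x => |divg Z x|)
      (fun n => ((theta_contDiff.continuous.comp (h.continuous.div_const _)).mul hdiv).aestronglyMeasurable)
      (hdiv.abs.integrable_of_hasCompactSupport hdivs.norm)
      (fun n => .of_forall fun x => by
        rw [Real.norm_eq_abs, abs_mul, abs_of_nonneg (theta_mem _).1]
        exact mul_le_of_le_one_left (abs_nonneg _) (theta_mem _).2) (.of_forall fun x => ?_)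
    by_cases hx : 0 < u x
    · rw [indicator_of_mem (show x ∈ {y | 0 < u y} from hx)]
      refine tendsto_const_nhds.congr' ?_
      filter_upwards [tendsto_natCast_atTop_atTop.eventually_ge_atTop (2 / u x)] with n hn
      rw [theta_one, one_mul]
      rw [div_le_iff₀ hx] at hn
      rw [div_div_eq_mul_div, div_one]
      linarith
    · rw [indicator_of_notMem (show x ∉ {y | 0 < u y} from hx)]
      have hux : u x = 0 := le_antisymm (not_lt.1 hx) (h.nonneg x)
      simp [hux, theta_zero]
  rw [← integral_indicator h.isOpen_pos.measurableSet]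
  have hfin : C * (m + η') ≤ C * m + η := by
    have : C * η' ≤ η := by
      rw [show C * η' = η * (C / (C + 1)) by simp only [η']; ring]
      exact mul_le_of_le_one_right hη.le ((div_le_one (by linarith)).2 (by linarith))
    linarith
  refine le_trans (le_of_tendsto hlim ?_) hfin
  filter_upwards [tendsto_natCast_atTop_atTop.eventually_gt_atTop (2 / μ)] with n hn
  refine est _ (by positivity) ?_
  rw [div_lt_iff₀ hμ] at hn
  rw [mul_one_div, div_lt_iff₀ (by positivity)]
  linarith

/-- A field tangent to the free boundary has no flux. -/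
theorem RegularCone.flux_eq_zero (h : RegularCone u O w) (hP : ∀ y ∈ O, 0 < dot (grad w y) (grad w y))
    {K : Set (Fin d → ℝ)} (hK : IsCompact K) (hKO : K ⊆ O) {Z : Fin d → (Fin d → ℝ) → ℝ}
    (hZ : ∀ i, ContDiff ℝ 1 (Z i)) (hs : ∀ i, tsupport (Z i) ⊆ K)
    (hbd : ∀ x ∈ K ∩ frontier {y | 0 < u y}, ∑ i, Z i x * pd w i x = 0) :
    ∫ x in {y | 0 < u y}, divg Z x = 0 := by
  obtain ⟨C, -, hle⟩ := h.flux_le hP hK hKO
  refine le_antisymm ((hle Z 0 hZ hs le_rfl fun x hx => by rw [hbd x hx, neg_zero]).trans_eq
    (mul_zero C)) ?_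
  have h2 := (hle (fun i x => -Z i x) 0 (fun i => (hZ i).neg) (fun i => by
    rw [show (fun x => -Z i x) = -Z i from rfl, tsupport_neg]; exact hs i) le_rfl
    fun x hx => by simp [hbd x hx]).trans_eq (mul_zero C)
  have e : ∀ x, divg (fun i x => -Z i x) x = -divg Z x := fun x => by
    simp [divg, pd, fderiv_fun_neg]
  simp only [e, integral_neg] at h2
  linarith

end

end Vale.Agent.P098.Cone
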