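import Vale.Agent.P098.Cone.Hessian

/-!
# P098: the radial cut-off and the vanishing of the Hessian

The weight `|z|^σ` cut off at logarithmic scales turns the test inequality into a bound by a vanishing
fraction of itself, because the density is scale invariant.
-/

namespace Vale.Agent.P098.Cone

open MeasureTheory Set Filter Topology Finset
open scoped ContDiff

noncomputable section

variable {d : ℕ} {u w : (Fin d → ℝ) → ℝ} {O : Set (Fin d → ℝ)} {σ q : ℝ}

/-- The smooth profile on the line. -/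
def bump : ContDiffBump (0 : ℝ) := ⟨1, 2, one_pos, one_lt_two⟩

theorem bump_one {s : ℝ} (hs : |s| ≤ 1) : bump s = 1 :=
  bump.one_of_mem_closedBall (by simpa [bump, Real.dist_eq] using hs)

theorem bump_zero {s : ℝ} (hs : 2 ≤ |s|) : bump s = 0 :=
  bump.zero_of_le_dist (by simpa [bump, Real.dist_eq] using hs)

/-- Half the logarithm of the squared radius. -/
def logRad (z : Fin d → ℝ) : ℝ := Real.log (dot z z) / 2

/-- The radial cut-off as a function of the squared radius. -/
def radial (σ : ℝ) (n : ℕ) (t : ℝ) : ℝ :=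
  if t ≤ 0 then 0 else Real.exp (σ / 2 * Real.log t) * bump (Real.log t / 2 / n)

theorem radial_eq_zero (σ : ℝ) {n : ℕ} (hn : 0 < n) {t : ℝ}
    (ht : t < Real.exp (-(4 * n)) ∨ Real.exp (4 * n) < t) : radial σ n t = 0 := by
  unfold radial
  split_ifs with h0
  · rfl
  have hn' : (0 : ℝ) < n := Nat.cast_pos.2 hn
  have ht0 : 0 < t := not_le.1 h0
  rw [bump_zero, mul_zero]
  rw [abs_div, abs_of_pos hn', le_div_iff₀ hn']
  rcases ht with h | h
  · have := (Real.log_lt_iff_lt_exp ht0).2 h
    rw [abs_of_neg (by linarith)]; linarith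
  · have := (Real.lt_log_iff_exp_lt ht0).2 h
    rw [abs_of_pos (by linarith)]; linarith

theorem radial_contDiff (σ : ℝ) {n : ℕ} (hn : 0 < n) : ContDiff ℝ ∞ (radial σ n) := by
  refine contDiff_iff_contDiffAt.2 fun t => ?_
  by_cases ht : t < Real.exp (-(4 * n))
  · refine (contDiffAt_const (c := (0 : ℝ))).congr_of_eventuallyEq ?_
    filter_upwards [gt_mem_nhds ht] with s hs using radial_eq_zero σ hn (.inl hs)
  · have ht0 : 0 < t := (Real.exp_pos _).trans_le (not_lt.1 ht)
    have hl : ContDiffAt ℝ ∞ Real.log t := Real.contDiffAt_log.2 ht0.ne'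
    refine ContDiffAt.congr_of_eventuallyEq
      (f := fun s => Real.exp (σ / 2 * Real.log s) * bump (Real.log s / 2 / n)) ?_ ?_
    · exact ((contDiffAt_const.mul hl).exp).mul
        (bump.contDiff.contDiffAt.comp t ((hl.div_const 2).div_const _))
    · filter_upwards [lt_mem_nhds ht0] with s hs
      simp [radial, not_le.2 hs]

theorem radial_deriv (σ : ℝ) (n : ℕ) {t : ℝ} (ht : 0 < t) :
    HasDerivAt (radial σ n) (Real.exp (σ / 2 * Real.log t) / (2 * t)
      * (σ * bump (Real.log t / 2 / n) + deriv bump (Real.log t / 2 / n) / n)) t := by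
  have hl := Real.hasDerivAt_log ht.ne'
  have hb : HasDerivAt (fun s => bump (Real.log s / 2 / n))
      (deriv bump (Real.log t / 2 / n) * (t⁻¹ / 2 / n)) t :=
    HasDerivAt.comp (h := fun s => Real.log s / 2 / n) (h₂ := ⇑bump) t
      ((bump.contDiff (n := 1)).differentiable one_ne_zero _).hasDerivAt ((hl.div_const 2).div_const _)
  refine (((hl.const_mul (σ / 2)).exp.mul hb).congr_deriv ?_).congr_of_eventuallyEq ?_
  · field_simp
  · filter_upwards [lt_mem_nhds ht] with s hs
    simp [radial, not_le.2 hs]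

/-- The cut-off. -/
def cutoff (σ : ℝ) (n : ℕ) (z : Fin d → ℝ) : ℝ := radial σ n (dot z z)

theorem cutoff_contDiff (σ : ℝ) {n : ℕ} (hn : 0 < n) : ContDiff ℝ ∞ (cutoff (d := d) σ n) :=
  (radial_contDiff σ hn).comp contDiff_dot_self

theorem isClosed_shell (a b : ℝ) : IsClosed {z : Fin d → ℝ | a ≤ dot z z ∧ dot z z ≤ b} :=
  (isClosed_le continuous_const contDiff_dot_self.continuous).inter
    (isClosed_le contDiff_dot_self.continuous continuous_const)

theorem isCompact_shell (a b : ℝ) : IsCompact {z : Fin d → ℝ | a ≤ dot z z ∧ dot z z ≤ b} := by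
  refine Metric.isCompact_of_isClosed_isBounded (isClosed_shell a b)
    (isBounded_iff_forall_norm_le.2 ⟨√b, fun z hz => ?_⟩)
  rw [pi_norm_le_iff_of_nonneg (Real.sqrt_nonneg b)]
  intro i
  rw [Real.norm_eq_abs, ← Real.sqrt_sq_eq_abs]
  refine Real.sqrt_le_sqrt (le_trans ?_ hz.2)
  rw [sq]
  exact single_le_sum (f := fun j => z j * z j) (fun j _ => mul_self_nonneg _) (Finset.mem_univ i)

theorem tsupport_cutoff (σ : ℝ) {n : ℕ} (hn : 0 < n) :
    tsupport (cutoff (d := d) σ n) ⊆ {z | Real.exp (-(4 * n)) ≤ dot z z ∧ dot z z ≤ Real.exp (4 * n)} :=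
  tsupport_subset_of_zero (isClosed_shell _ _) fun z hz => radial_eq_zero σ hn (by
    simp only [mem_ofPred_eq, not_and_or, not_le] at hz
    exact hz)

theorem cutoff_compact (σ : ℝ) {n : ℕ} (hn : 0 < n) : HasCompactSupport (cutoff (d := d) σ n) :=
  (isCompact_shell _ _).of_isClosed_subset (isClosed_tsupport _) (tsupport_cutoff σ hn)

theorem cutoff_sq (σ : ℝ) (n : ℕ) {z : Fin d → ℝ} (hz : z ≠ 0) :
    cutoff σ n z * cutoff σ n z = Real.exp (σ * Real.log (dot z z)) * bump (logRad z / n) ^ 2 ∧
    dot (grad (cutoff σ n) z) (grad (cutoff σ n) z) = Real.exp (σ * Real.log (dot z z)) * (dot z z)⁻¹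
      * (σ * bump (logRad z / n) + deriv bump (logRad z / n) / n) ^ 2 := by
  have hR := dot_self_pos hz
  have he : Real.exp (σ / 2 * Real.log (dot z z)) * Real.exp (σ / 2 * Real.log (dot z z))
      = Real.exp (σ * Real.log (dot z z)) := by rw [← Real.exp_add]; ring_nf
  refine ⟨?_, ?_⟩
  · simp only [cutoff, radial, if_neg (not_le.2 hR), logRad]
    rw [← he]; ring
  · have hd : DifferentiableAt ℝ (fun y : Fin d → ℝ => dot y y) z :=
      contDiff_dot_self.differentiable (by simp) z
    have e : ∀ i, pd (cutoff σ n) i z = Real.exp (σ / 2 * Real.log (dot z z)) / (2 * dot z z)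
        * (σ * bump (logRad z / n) + deriv bump (logRad z / n) / n) * (2 * z i) := fun i =>
      (pd_comp (f := fun y : Fin d → ℝ => dot y y) (radial_deriv σ n hR) hd i).trans
        (congrArg _ (pd_dot_self z i))
    show ∑ i, pd (cutoff σ n) i z * pd (cutoff σ n) i z = _
    simp only [e]
    rw [show ∀ c : ℝ, ∑ i, c * (2 * z i) * (c * (2 * z i)) = c ^ 2 * 4 * dot z z from fun c => by
      rw [dot, mul_sum]; exact sum_congr rfl fun i _ => by ring]
    rw [← he]
    field_simp
    ring

/-- The test inequality without a condition on the support. -/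
theorem RegularCone.cutoff_ineq (h : RegularCone u O w) (hP : ∀ y ∈ O, 0 < dot (grad w y) (grad w y))
    (h0 : (0 : Fin d → ℝ) ∉ O) (hmin : IsMinimizer u) (hd : 3 ≤ d) (hq : 0 < q) (hq1 : q ≤ 1)
    (hqk : ((d : ℝ) - 3) / ((d : ℝ) - 1) ≤ q) (hcond : Condition u w q) {η : (Fin d → ℝ) → ℝ}
    (hη : ContDiff ℝ ∞ η) (hηc : HasCompactSupport η) (hη0 : (0 : Fin d → ℝ) ∉ tsupport η) :
    q * (1 + q) * ∫ z in {z | 0 < u z}, η z * η z * (hessSq w z ^ q * (dot z z)⁻¹)
      ≤ ∫ z in {z | 0 < u z}, hessSq w z ^ q * dot (grad η z) (grad η z) := by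
  set K0 := tsupport η ∩ closure {z | 0 < u z}
  have hK0 : IsCompact K0 := (hηc : IsCompact _).inter_right isClosed_closure
  obtain ⟨χ, hχ, hχc, hχO, -, hχ1⟩ := exists_cutoff hK0 h.isOpen fun z hz =>
    h.cover z hz.2 fun e => hη0 (e ▸ hz.1)
  set ζ : (Fin d → ℝ) → ℝ := fun z => χ z * η z
  have h1 := h.test_ineq hP h0 hmin hd hq hq1 hqk hcond (η := ζ) (hχ.mul hη) hχc.mul_right
    (tsupport_mul_subset_left.trans hχO)
  have hev : ∀ z, 0 < u z → ζ =ᶠ[𝓝 z] η := fun z hz => by
    by_cases hm : z ∈ tsupport η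
    · filter_upwards [eventually_nhdsSet_iff_forall.1 hχ1 z ⟨hm, subset_closure hz⟩] with y hy
      simp [ζ, hy]
    · filter_upwards [(isClosed_tsupport η).isOpen_compl.mem_nhds hm] with y hy
      simp [ζ, image_eq_zero_of_notMem_tsupport hy]
  have e1 : ∀ z ∈ {z | 0 < u z}, ζ z * ζ z * (hessSq w z ^ q * (dot z z)⁻¹)
      = η z * η z * (hessSq w z ^ q * (dot z z)⁻¹) := fun z hz => by rw [(hev z hz).self_of_nhds]
  have e2 : ∀ z ∈ {z | 0 < u z}, hessSq w z ^ q * dot (grad ζ z) (grad ζ z)
      = hessSq w z ^ q * dot (grad η z) (grad η z) := fun z hz => by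
    rw [show grad ζ z = grad η z from funext fun i => pd_congr (hev z hz) i]
  rwa [setIntegral_congr_fun h.isOpen_pos.measurableSet e1,
    setIntegral_congr_fun h.isOpen_pos.measurableSet e2] at h1

theorem RegularCone.hess_smul (h : RegularCone u O w) {z : Fin d → ℝ} (hz : 0 < u z) {r : ℝ} (hr : 0 < r)
    (i j : Fin d) : hess w i j (r • z) = r⁻¹ * hess w i j z := by
  have hu : ∀ y, 0 < u y → 0 < u (r • y) := fun y hy => by rw [h.homog r y hr]; exact mul_pos hr hy
  have key : ∀ {f g : (Fin d → ℝ) → ℝ} {y : Fin d → ℝ}, DifferentiableAt ℝ f (r • y) →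
      (fun x => f (r • x)) =ᶠ[𝓝 y] g → ∀ k, r * pd f k (r • y) = pd g k y := by
    intro f g y hf he k
    have h1 : HasFDerivAt (fun x : Fin d → ℝ => f (r • x))
        ((fderiv ℝ f (r • y)).comp (r • ContinuousLinearMap.id ℝ (Fin d → ℝ))) y :=
      hf.hasFDerivAt.comp y ((hasFDerivAt_id y).const_smul r)
    rw [pd, pd, ← he.fderiv_eq, h1.fderiv]
    simp
  have hfirst : ∀ y, 0 < u y → pd w i (r • y) = pd w i y := fun y hy => by
    have he : (fun x => w (r • x)) =ᶠ[𝓝 y] fun x => r * w x := by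
      filter_upwards [h.isOpen_pos.mem_nhds hy] with x hx
      rw [h.agree _ (h.mem_of_pos (hu x hx)) (hu x hx), h.agree _ (h.mem_of_pos hx) hx, h.homog r x hr]
    have h2 := key (differentiableAt_of_smooth h.smooth h.isOpen (h.mem_of_pos (hu y hy))) he i
    rw [pd_mul (differentiableAt_const _) (differentiableAt_of_smooth h.smooth h.isOpen (h.mem_of_pos hy)),
      pd_const, mul_zero, add_zero] at h2
    exact mul_left_cancel₀ hr.ne' h2
  have he : (fun x => pd w i (r • x)) =ᶠ[𝓝 z] pd w i := by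
    filter_upwards [h.isOpen_pos.mem_nhds hz] with x hx using hfirst x hx
  have h2 := key (differentiableAt_of_smooth (contDiffOn_pd h.smooth h.isOpen i) h.isOpen
    (h.mem_of_pos (hu z hz))) he j
  show pd (pd w i) j (r • z) = r⁻¹ * pd (pd w i) j z
  rw [← h2, inv_mul_cancel_left₀ hr.ne']

/-- The scale invariant density. -/
def weight (w : (Fin d → ℝ) → ℝ) (q σ : ℝ) (z : Fin d → ℝ) : ℝ :=
  Real.exp (σ * Real.log (dot z z)) * (dot z z)⁻¹ * hessSq w z ^ q

/-- The logarithmic shell inside the positivity set. -/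
def shell (u : (Fin d → ℝ) → ℝ) (a b : ℝ) : Set (Fin d → ℝ) :=
  {z | 0 < u z ∧ a < logRad z ∧ logRad z ≤ b}

theorem weight_nonneg (z : Fin d → ℝ) : 0 ≤ weight w q σ z :=
  mul_nonneg (mul_nonneg (Real.exp_pos _).le (inv_nonneg.2 (dot_self_nonneg z)))
    (Real.rpow_nonneg (dot2_self_nonneg _) q)

theorem logRad_smul {r : ℝ} (hr : 0 < r) {z : Fin d → ℝ} (hz : z ≠ 0) :
    logRad (r • z) = Real.log r + logRad z := by
  have e : dot (r • z) (r • z) = r ^ 2 * dot z z := by
    simp only [dot, Pi.smul_apply, smul_eq_mul, mul_sum]; exact sum_congr rfl fun _ _ => by ring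
  rw [logRad, e, Real.log_mul (pow_ne_zero 2 hr.ne') (dot_self_pos hz).ne', Real.log_pow, logRad]
  push_cast
  ring

theorem RegularCone.ne_zero_of_pos (h : RegularCone u O w) {z : Fin d → ℝ} (hz : 0 < u z) : z ≠ 0 :=
  fun e => by rw [e, h.map_zero] at hz; exact lt_irrefl _ hz

theorem RegularCone.measurableSet_shell (h : RegularCone u O w) (a b : ℝ) : MeasurableSet (shell u a b) := by
  have hm : Measurable fun z : Fin d → ℝ => logRad z :=
    (Real.measurable_log.comp contDiff_dot_self.continuous.measurable).div_const 2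
  exact h.isOpen_pos.measurableSet.inter (hm measurableSet_Ioc)

theorem RegularCone.integrableOn_weight (h : RegularCone u O w) (h0 : (0 : Fin d → ℝ) ∉ O) (hq : 0 ≤ q)
    (σ a b : ℝ) : IntegrableOn (weight w q σ) (shell u a b) := by
  set C := closure {z | 0 < u z} ∩ {z : Fin d → ℝ | Real.exp (2 * a) ≤ dot z z ∧ dot z z ≤ Real.exp (2 * b)}
  have hC : IsCompact C := (isCompact_shell _ _).inter_left isClosed_closure
  have hCO : C ⊆ O := fun z hz => h.cover z hz.1 fun e => by
    have := hz.2.1
    rw [e] at this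
    simp [dot] at this
    linarith [Real.exp_pos (2 * a)]
  have hcont : ContinuousOn (weight w q σ) O := by
    have hne : ∀ z ∈ O, dot z z ≠ 0 := fun z hz => (dot_self_pos fun e => h0 (by rwa [e] at hz)).ne'
    have hc : ContinuousOn (fun z : Fin d → ℝ => dot z z) O := contDiff_dot_self.continuous.continuousOn
    exact ((Real.continuous_exp.comp_continuousOn (continuousOn_const.mul (hc.log hne))).mul (hc.inv₀ hne)).mul
      ((contDiffOn_hessSq h.smooth h.isOpen).continuousOn.rpow_const fun z _ => .inr hq)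
  refine ((hcont.mono hCO).integrableOn_compact hC).mono_set fun z ⟨hz, ha, hb⟩ => ?_
  have hR := dot_self_pos (h.ne_zero_of_pos hz)
  simp only [logRad] at ha hb
  exact ⟨subset_closure hz, ((Real.le_log_iff_exp_le hR).1 (by linarith)),
    ((Real.log_le_iff_le_exp hR).1 (by linarith))⟩

/-- The mass of a shell is invariant under dilation. -/
theorem RegularCone.shell_shift (h : RegularCone u O w) (hσ : σ = q - ((d : ℝ) - 2) / 2) (a b : ℝ) :
    ∫ z in shell u (a + 1) (b + 1), weight w q σ z = ∫ z in shell u a b, weight w q σ z := by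
  set e := Real.exp 1
  have he : 0 < e := Real.exp_pos 1
  rw [← integral_indicator (h.measurableSet_shell _ _), ← integral_indicator (h.measurableSet_shell a b)]
  have key : ∀ z, (shell u (a + 1) (b + 1)).indicator (weight w q σ) (e • z)
      = e ^ (-(d : ℝ)) * (shell u a b).indicator (weight w q σ) z := by
    intro z
    have hiff : e • z ∈ shell u (a + 1) (b + 1) ↔ z ∈ shell u a b := by
      show 0 < u (e • z) ∧ _ ∧ _ ↔ 0 < u z ∧ _ ∧ _
      rw [h.homog e z he, mul_pos_iff_of_pos_left he]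
      refine and_congr_right fun hz => ?_
      rw [logRad_smul he (h.ne_zero_of_pos hz), show Real.log e = 1 from Real.log_exp 1]
      constructor <;> intro hh <;> constructor <;> linarith [hh.1, hh.2]
    by_cases hz : z ∈ shell u a b
    · rw [indicator_of_mem (hiff.2 hz), indicator_of_mem hz]
      have hzp : 0 < u z := hz.1
      have hR := dot_self_pos (h.ne_zero_of_pos hzp)
      have eR : dot (e • z) (e • z) = e ^ 2 * dot z z := by
        simp only [dot, Pi.smul_apply, smul_eq_mul, mul_sum]; exact sum_congr rfl fun _ _ => by ring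
      have eA : hessSq w (e • z) = (e ^ 2)⁻¹ * hessSq w z := by
        simp only [hessSq, dot2, hessMat, h.hess_smul hzp he, mul_sum]
        exact sum_congr rfl fun _ _ => sum_congr rfl fun _ _ => by ring
      simp only [weight, eR, eA]
      rw [Real.log_mul (pow_ne_zero 2 he.ne') hR.ne', Real.mul_rpow (by positivity) (x := (e ^ 2)⁻¹)
        (show 0 ≤ hessSq w z from dot2_self_nonneg _)]
      have e1 : (e ^ 2)⁻¹ ^ q = Real.exp (-(2 * q)) := by
        rw [show (e ^ 2)⁻¹ = Real.exp (-2) by
          simp only [e]; rw [← Real.exp_nat_mul, ← Real.exp_neg]; norm_num, ← Real.exp_mul]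
        ring_nf
      have e2 : e ^ (-(d : ℝ)) = Real.exp (-(d : ℝ)) := by simp only [e]; rw [Real.exp_one_rpow]
      have e3 : (e ^ 2 * dot z z)⁻¹ = Real.exp (-2) * (dot z z)⁻¹ := by
        simp only [e]; rw [← Real.exp_nat_mul, mul_inv, ← Real.exp_neg]; norm_num
      have e4 : Real.log (e ^ 2) = 2 := by simp only [e]; rw [Real.log_pow, Real.log_exp]; norm_num
      rw [e1, e2, e3, e4, mul_add, Real.exp_add,
        show Real.exp (-(d : ℝ)) = Real.exp (σ * 2) * Real.exp (-2) * Real.exp (-(2 * q)) by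
          rw [← Real.exp_add, ← Real.exp_add, hσ]; ring_nf]
      ring
    · rw [indicator_of_notMem (fun hh => hz (hiff.1 hh)), indicator_of_notMem hz, mul_zero]
  have hsm := Measure.integral_comp_smul (μ := (volume : Measure (Fin d → ℝ)))
    ((shell u (a + 1) (b + 1)).indicator (weight w q σ)) e
  simp only [key, integral_const_mul, Module.finrank_fin_fun, smul_eq_mul] at hsm
  rw [Real.rpow_neg he.le, Real.rpow_natCast, abs_of_pos (inv_pos.2 (pow_pos he d))] at hsm
  exact (mul_left_cancel₀ (inv_ne_zero (pow_pos he d).ne') hsm).symm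

/-- Under the condition on the free boundary the Hessian of a minimiser vanishes. -/
theorem RegularCone.hess_eq_zero (h : RegularCone u O w) (hP : ∀ y ∈ O, 0 < dot (grad w y) (grad w y))
    (h0 : (0 : Fin d → ℝ) ∉ O) (hmin : IsMinimizer u) (hd : 3 ≤ d) (hq1 : q ≤ 1)
    (hqk : ((d : ℝ) - 3) / ((d : ℝ) - 1) ≤ q) (hqh : ((d : ℝ) - 2) ^ 2 < 4 * ((d : ℝ) - 1) * q)
    (hcond : Condition u w q) {z : Fin d → ℝ} (hz : 0 < u z) (i j : Fin d) : hess w i j z = 0 := by
  have hd' : (3 : ℝ) ≤ d := by exact_mod_cast hd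
  have hq : 0 < q := by
    by_contra hn
    have : 4 * ((d : ℝ) - 1) * q ≤ 0 := mul_nonpos_of_nonneg_of_nonpos (by linarith) (not_lt.1 hn)
    linarith [sq_nonneg ((d : ℝ) - 2)]
  set σ := q - ((d : ℝ) - 2) / 2 with hσ
  set γ := q * (1 + q) - σ ^ 2
  have hγ : 0 < γ := by
    have : γ = (4 * ((d : ℝ) - 1) * q - ((d : ℝ) - 2) ^ 2) / 4 := by simp only [γ, σ]; ring
    rw [this]
    linarith
  set f := weight w q σ
  set m : ℤ → ℝ := fun k => ∫ z in shell u k ((k : ℝ) + 1), f z
  have hm : ∀ k, m k = m 0 := by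
    have hstep : ∀ k : ℤ, m (k + 1) = m k := fun k => by
      simp only [m, Int.cast_add, Int.cast_one]
      exact h.shell_shift hσ k ((k : ℝ) + 1)
    intro k
    induction k with
    | zero => rfl
    | succ k ih => rw [hstep]; exact ih
    | pred k ih =>
      rw [← ih, ← hstep (-(k : ℤ) - 1), sub_add_cancel]
  have hsum : ∀ (a : ℤ) (k : ℕ), ∫ z in shell u a ((a : ℝ) + k), f z = k * m 0 := by
    intro a k
    induction k with
    | zero =>
      rw [show shell u a ((a : ℝ) + (0 : ℕ)) = ∅ from Set.eq_empty_iff_forall_notMem.2 fun z hz => by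
        have h1 := hz.2.1; have h2 := hz.2.2; push_cast at h2; linarith]
      simp
    | succ k ih =>
      have e : shell u a ((a : ℝ) + (k + 1 : ℕ))
          = shell u a ((a : ℝ) + k) ∪ shell u ((a + k : ℤ) : ℝ) (((a + k : ℤ) : ℝ) + 1) := by
        ext z
        simp only [shell, mem_ofPred_eq, Set.mem_union, ← and_or_left]
        refine and_congr_right fun _ => ⟨fun hh => ?_, fun hh => ?_⟩
        · rcases le_or_gt (logRad z) ((a : ℝ) + k) with h1 | h1
          · exact .inl ⟨hh.1, h1⟩
          · exact .inr ⟨by push_cast; exact h1, by push_cast at hh ⊢; linarith [hh.2]⟩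
        · have hk : (0 : ℝ) ≤ k := Nat.cast_nonneg k
          rcases hh with hh | hh <;> push_cast at hh ⊢ <;> constructor <;> linarith [hh.1, hh.2]
      have hdisj : Disjoint (shell u a ((a : ℝ) + k))
          (shell u ((a + k : ℤ) : ℝ) (((a + k : ℤ) : ℝ) + 1)) := Set.disjoint_left.2 fun z hz hz' => by
        have := hz.2.2; have h' := hz'.2.1; push_cast at h'; linarith
      rw [e, setIntegral_union hdisj (h.measurableSet_shell _ _) (h.integrableOn_weight h0 hq.le σ _ _)
        (h.integrableOn_weight h0 hq.le σ _ _), ih, show (∫ z in shell u ((a + k : ℤ) : ℝ)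
          (((a + k : ℤ) : ℝ) + 1), f z) = m (a + k) from rfl, hm (a + k)]
      push_cast
      ring
  obtain ⟨M, hM⟩ := ((bump.contDiff (n := 1)).continuous_deriv le_rfl).bounded_above_of_compact_support
    bump.hasCompactSupport.deriv
  set Cb := 2 * |σ| * max M 0 + max M 0 ^ 2
  have hCb : 0 ≤ Cb := by positivity
  have main : ∀ n : ℕ, 0 < n → 2 * n * γ * m 0 ≤ 4 * Cb * m 0 := by
    intro n hn
    have hn' : (0 : ℝ) < n := Nat.cast_pos.2 hn
    set η : (Fin d → ℝ) → ℝ := cutoff σ n
    have hη0 : (0 : Fin d → ℝ) ∉ tsupport η := fun hh => by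
      have := (tsupport_cutoff σ hn hh).1
      simp [dot] at this
      linarith [Real.exp_pos (-(4 * (n : ℝ)))]
    have hineq := h.cutoff_ineq hP h0 hmin hd hq hq1 hqk hcond (cutoff_contDiff σ hn) (cutoff_compact σ hn) hη0
    set S1 := shell u (-(n : ℝ)) n
    set S2 := shell u (-(2 * n : ℝ)) (2 * n)
    set Ω := {z : Fin d → ℝ | 0 < u z}
    set b : (Fin d → ℝ) → ℝ := fun z => bump (logRad z / n)
    set b' : (Fin d → ℝ) → ℝ := fun z => deriv bump (logRad z / n)
    have hb0 : ∀ z, b z ∈ Icc (0 : ℝ) 1 := fun z => ⟨bump.nonneg, bump.le_one⟩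
    have hout : ∀ z ∈ Ω, z ∉ S2 → b z = 0 ∧ b' z = 0 := by
      intro z hz hz'
      have hge : 2 ≤ |logRad z / n| := by
        rw [abs_div, abs_of_pos hn', le_div_iff₀ hn']
        by_contra hlt
        exact hz' ⟨hz, (abs_lt.1 (not_le.1 hlt)).1, (abs_lt.1 (not_le.1 hlt)).2.le⟩
      refine ⟨bump_zero hge, ?_⟩
      have hmin' : IsLocalMin (fun s => bump s) (logRad z / n) := .of_forall fun s => by
        show bump (logRad z / n) ≤ bump s
        rw [bump_zero hge]; exact bump.nonneg
      exact hmin'.deriv_eq_zero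
    have hS2sub : S2 ⊆ Ω := fun z hz => hz.1
    have hS1sub : S1 ⊆ S2 := fun z hz => ⟨hz.1, by linarith [hz.2.1], by linarith [hz.2.2]⟩
    have e1 : ∀ z ∈ Ω, η z * η z * (hessSq w z ^ q * (dot z z)⁻¹) = f z * b z ^ 2 := fun z hz => by
      rw [(cutoff_sq σ n (h.ne_zero_of_pos hz)).1]
      simp only [f, weight, b]
      ring
    have e2 : ∀ z ∈ Ω, hessSq w z ^ q * dot (grad η z) (grad η z) = f z * (σ * b z + b' z / n) ^ 2 :=
      fun z hz => by
        rw [(cutoff_sq σ n (h.ne_zero_of_pos hz)).2]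
        simp only [f, weight, b, b']
        ring
    rw [setIntegral_congr_fun h.isOpen_pos.measurableSet e1,
      setIntegral_congr_fun h.isOpen_pos.measurableSet e2,
      setIntegral_eq_of_subset_of_forall_sdiff_eq_zero h.isOpen_pos.measurableSet hS2sub
        (fun z hz => by simp [(hout z hz.1 hz.2).1]),
      setIntegral_eq_of_subset_of_forall_sdiff_eq_zero h.isOpen_pos.measurableSet hS2sub
        (fun z hz => by simp [(hout z hz.1 hz.2).1, (hout z hz.1 hz.2).2])] at hineq
    have hfi : IntegrableOn f S2 := h.integrableOn_weight h0 hq.le σ _ _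
    have hbm : Measurable b := bump.continuous.measurable.comp
      (((Real.measurable_log.comp contDiff_dot_self.continuous.measurable).div_const 2).div_const _)
    have hb'm : Measurable b' := ((bump.contDiff (n := 1)).continuous_deriv le_rfl).measurable.comp
      (((Real.measurable_log.comp contDiff_dot_self.continuous.measurable).div_const 2).div_const _)
    have hbound : ∀ z, (σ * b z + b' z / n) ^ 2 ≤ σ ^ 2 * b z ^ 2 + Cb / n := fun z => by
      have hM' : |b' z| ≤ max M 0 := (hM _).trans (le_max_left _ _)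
      have h1 : |b z| ≤ 1 := by rw [abs_of_nonneg (hb0 z).1]; exact (hb0 z).2
      have h2 : 2 * σ * b z * (b' z / n) ≤ 2 * |σ| * max M 0 / n := by
        refine (le_abs_self _).trans ?_
        rw [abs_mul, abs_mul, abs_mul, abs_two, abs_div, abs_of_pos hn', mul_div_assoc]
        exact mul_le_mul (mul_le_of_le_one_right (by positivity) h1) (by gcongr) (by positivity)
          (by positivity)
      have h3 : (b' z / n) ^ 2 ≤ max M 0 ^ 2 / n := by
        rw [div_pow, sq (n : ℝ), ← div_div]
        refine (div_le_self (by positivity) (Nat.one_le_cast.2 hn)).trans ?_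
        gcongr ?_ / _
        rw [← sq_abs]
        exact pow_le_pow_left₀ (abs_nonneg _) hM' 2
      calc (σ * b z + b' z / n) ^ 2 = σ ^ 2 * b z ^ 2 + 2 * σ * b z * (b' z / n) + (b' z / n) ^ 2 := by ring
        _ ≤ _ := by rw [show Cb / n = 2 * |σ| * max M 0 / n + max M 0 ^ 2 / n by simp only [Cb]; ring]
                    linarith
    have hi1 : IntegrableOn (fun z => f z * b z ^ 2) S2 :=
      hfi.mul_bdd (c := 1) (hbm.pow_const 2).aestronglyMeasurable (.of_forall fun z => by
        rw [Real.norm_eq_abs, abs_of_nonneg (sq_nonneg _)]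
        exact pow_le_one₀ (hb0 z).1 (hb0 z).2)
    have hi2 : IntegrableOn (fun z => f z * (σ * b z + b' z / n) ^ 2) S2 :=
      hfi.mul_bdd (c := σ ^ 2 + Cb / n) (((hbm.const_mul σ).add (hb'm.div_const _)).pow_const 2).aestronglyMeasurable
        (.of_forall fun z => by
          rw [Real.norm_eq_abs, abs_of_nonneg (sq_nonneg _)]
          exact (hbound z).trans (add_le_add_left (mul_le_of_le_one_right (sq_nonneg σ)
            (pow_le_one₀ (hb0 z).1 (hb0 z).2)) _))
    have hi3 : IntegrableOn (fun z => σ ^ 2 * (f z * b z ^ 2) + Cb / n * f z) S2 :=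
      (hi1.const_mul _).add (hfi.const_mul _)
    have hle := hineq.trans (setIntegral_mono_on hi2 hi3 (h.measurableSet_shell _ _) fun z _ =>
      (mul_le_mul_of_nonneg_left (hbound z) (weight_nonneg z)).trans_eq (by ring))
    rw [integral_add (hi1.const_mul _) (hfi.const_mul _), integral_const_mul, integral_const_mul] at hle
    have hlow : ∫ z in S1, f z ≤ ∫ z in S2, f z * b z ^ 2 := by
      rw [show (∫ z in S1, f z) = ∫ z in S1, f z * b z ^ 2 from
        setIntegral_congr_fun (h.measurableSet_shell _ _) fun z hz => by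
          have hb : b z = 1 := bump_one (by
            rw [abs_div, abs_of_pos hn', div_le_one hn']
            exact abs_le.2 ⟨hz.2.1.le, hz.2.2⟩)
          rw [hb]; ring]
      exact setIntegral_mono_set hi1 (.of_forall fun z => mul_nonneg (weight_nonneg z) (sq_nonneg _))
        (.of_forall hS1sub)
    have h1 := hsum (-(n : ℤ)) (2 * n)
    have h2 := hsum (-(2 * n : ℤ)) (4 * n)
    push_cast at h1 h2
    rw [show -(n : ℝ) + 2 * n = n by ring] at h1
    rw [show -(2 * n : ℝ) + 4 * n = 2 * n by ring] at h2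
    have hS1v : ∫ z in S1, f z = 2 * n * m 0 := by simpa [S1] using h1
    have hS2v : ∫ z in S2, f z = 4 * n * m 0 := by simpa [S2] using h2
    rw [hS2v, show Cb / n * (4 * n * m 0) = 4 * Cb * m 0 by field_simp] at hle
    have h3 : γ * (2 * n * m 0) ≤ γ * ∫ z in S2, f z * b z ^ 2 :=
      mul_le_mul_of_nonneg_left (hS1v ▸ hlow) hγ.le
    simp only [γ] at h3 ⊢
    linarith
  have hm0 : m 0 = 0 := by
    have hnn : 0 ≤ m 0 := setIntegral_nonneg (h.measurableSet_shell _ _) fun z _ => weight_nonneg z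
    obtain ⟨n, hn⟩ := exists_nat_gt (4 * Cb / (2 * γ))
    have hn0 : 0 < n := Nat.cast_pos.1 (lt_of_le_of_lt (by positivity : (0 : ℝ) ≤ _) hn)
    rw [div_lt_iff₀ (by linarith)] at hn
    refine le_antisymm (le_of_not_gt fun hp => ?_) hnn
    have h9 := main n hn0
    have h10 := mul_lt_mul_of_pos_right hn hp
    linarith
  -- a vanishing integral of a continuous density
  have hzero : ∀ y, 0 < u y → logRad y ∈ Ioo (0 : ℝ) 1 → hessSq w y = 0 := by
    intro y hy hly
    have hint := h.integrableOn_weight h0 hq.le σ 0 1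
    have hae : ∀ᵐ x ∂volume.restrict (shell u 0 1), f x = 0 := by
      have : ∫ x in shell u 0 1, f x = 0 := by simpa [m] using hm0
      exact (setIntegral_eq_zero_iff_of_nonneg_ae (.of_forall fun x => weight_nonneg x) hint).1 this
    by_contra hne
    set U := {x | 0 < u x ∧ logRad x ∈ Ioo (0 : ℝ) 1 ∧ hessSq w x ≠ 0}
    have hU : IsOpen U := by
      have hO2 : IsOpen {x : Fin d → ℝ | 0 < u x} := h.isOpen_pos
      have hc : ContinuousOn (fun x => (logRad x, hessSq w x)) {x | 0 < u x} :=
        (((contDiff_dot_self.continuous.continuousOn).log fun x hx =>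
          (dot_self_pos (h.ne_zero_of_pos hx)).ne').div_const 2).prodMk
          ((contDiffOn_hessSq h.smooth h.isOpen).continuousOn.mono fun x hx => h.mem_of_pos hx)
      exact hc.isOpen_inter_preimage hO2 (isOpen_Ioo.prod isOpen_compl_singleton)
    have hpos := hU.measure_pos volume ⟨y, hy, hly, hne⟩
    refine hpos.ne' (measure_mono_null ?_ (ae_iff.1 ((ae_restrict_iff' (h.measurableSet_shell _ _)).1 hae)))
    intro x hx hh
    have hR := dot_self_pos (h.ne_zero_of_pos hx.1)
    exact (mul_pos (mul_pos (Real.exp_pos _) (inv_pos.2 hR))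
      (Real.rpow_pos_of_pos ((dot2_self_nonneg _).lt_of_ne (Ne.symm hx.2.2)) q)).ne'
      (hh ⟨hx.1, hx.2.1.1, hx.2.1.2.le⟩)
  set r := Real.exp (1 / 2 - logRad z)
  have hr : 0 < r := Real.exp_pos _
  have hzp : 0 < u (r • z) := by rw [h.homog r z hr]; exact mul_pos hr hz
  have h1 := hzero (r • z) hzp (by
    rw [logRad_smul hr (h.ne_zero_of_pos hz), Real.log_exp, sub_add_cancel]
    norm_num)
  have h2 : hess w i j (r • z) = 0 := by
    have h3 := (sum_eq_zero_iff_of_nonneg fun a _ => sum_nonneg fun b _ =>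
      mul_self_nonneg (hess w a b (r • z))).1
      (show ∑ a, ∑ b, hess w a b (r • z) * hess w a b (r • z) = 0 from h1) i (Finset.mem_univ i)
    exact mul_self_eq_zero.1 ((sum_eq_zero_iff_of_nonneg fun b _ =>
      mul_self_nonneg (hess w i b (r • z))).1 h3 j (Finset.mem_univ j))
  rw [h.hess_smul hz hr] at h2
  exact (mul_eq_zero.1 h2).resolve_left (inv_ne_zero hr.ne')

end

end Vale.Agent.P098.Cone
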