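import Vale.Agent.P098.Cone.Stability
import Vale.Agent.P098.Cone.Boundary

/-!
# P098: powers of the Hessian as test functions
-/

namespace Vale.Agent.P098.Cone

open MeasureTheory Set Filter Topology Finset
open scoped ContDiff

noncomputable section

variable {d : ℕ} {u w : (Fin d → ℝ) → ℝ} {O : Set (Fin d → ℝ)}

/-- The square of the length of the Hessian. -/
def hessSq (w : (Fin d → ℝ) → ℝ) (z : Fin d → ℝ) : ℝ := dot2 (hessMat w z) (hessMat w z)

/-- The regularised square of the length of the Hessian. -/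
def regSq (w : (Fin d → ℝ) → ℝ) (δ : ℝ) (z : Fin d → ℝ) : ℝ := hessSq w z + δ * (dot z z)⁻¹

theorem dot_self_pos {z : Fin d → ℝ} (hz : z ≠ 0) : 0 < dot z z := by
  refine (dot_self_nonneg z).lt_of_ne fun h => hz (funext fun i => ?_)
  exact mul_self_eq_zero.1 ((sum_eq_zero_iff_of_nonneg fun j _ => mul_self_nonneg (z j)).1 h.symm i
    (Finset.mem_univ i))

theorem contDiffOn_hessSq (hw : ContDiffOn ℝ 4 w O) (hO : IsOpen O) : ContDiffOn ℝ 2 (hessSq w) O :=
  show ContDiffOn ℝ 2 (fun z => ∑ i, ∑ j, hess w i j z * hess w i j z) O from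
    ContDiffOn.sum fun i _ => ContDiffOn.sum fun j _ =>
      (contDiffOn_hess hw hO i j).mul (contDiffOn_hess hw hO i j)

theorem contDiff_dot_self : ContDiff ℝ ∞ fun z : Fin d → ℝ => dot z z :=
  ContDiff.sum fun i _ => (contDiff_apply ℝ ℝ i).mul (contDiff_apply ℝ ℝ i)

theorem contDiff_two_dot_self : ContDiff ℝ 2 fun z : Fin d → ℝ => dot z z :=
  contDiff_dot_self.of_le (WithTop.coe_le_coe.2 le_top)

theorem contDiffOn_regSq (hw : ContDiffOn ℝ 4 w O) (hO : IsOpen O) (h0 : (0 : Fin d → ℝ) ∉ O) (δ : ℝ) :
    ContDiffOn ℝ 2 (regSq w δ) O :=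
  (contDiffOn_hessSq hw hO).add (contDiffOn_const.mul (contDiff_two_dot_self.contDiffOn.inv
    fun z hz =>
    (dot_self_pos fun e => h0 (by rwa [e] at hz)).ne'))

theorem regSq_pos {δ : ℝ} (hδ : 0 < δ) {z : Fin d → ℝ} (hz : z ≠ 0) : 0 < regSq w δ z :=
  add_pos_of_nonneg_of_pos (dot2_self_nonneg _) (mul_pos hδ (inv_pos.2 (dot_self_pos hz)))

theorem pd_dot_self (z : Fin d → ℝ) (k : Fin d) : pd (fun y => dot y y) k z = 2 * z k := by
  rw [show (fun y : Fin d → ℝ => dot y y) = fun y => ∑ i, y i * y i from rfl,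
    pd_sum _ (F := fun i y => y i * y i) (fun i _ => (differentiableAt_apply i z).mul (differentiableAt_apply i z))]
  simp only [pd_mul (differentiableAt_apply _ z) (differentiableAt_apply _ z), pd_coord, mul_ite, mul_one,
    mul_zero, sum_add_distrib, Finset.sum_ite_eq, Finset.mem_univ, if_true]
  ring

theorem pd_regSq (hw : ContDiffOn ℝ 4 w O) (hO : IsOpen O) {z : Fin d → ℝ} (hz : z ∈ O) (hz0 : z ≠ 0)
    (δ : ℝ) (k : Fin d) :
    pd (regSq w δ) k z = 2 * dot2 (fun i j => third w z i j k) (hessMat w z)
      + δ * (-(dot z z ^ 2)⁻¹ * (2 * z k)) := by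
  have hh : ∀ i j, DifferentiableAt ℝ (hess w i j) z := fun i j =>
    differentiableAt_of_smooth (contDiffOn_hess hw hO i j) hO hz
  have hs : ∀ i, DifferentiableAt ℝ (fun y => ∑ j, hess w i j y * hess w i j y) z := fun i =>
    DifferentiableAt.fun_sum fun j _ => (hh i j).mul (hh i j)
  have hr : DifferentiableAt ℝ (fun y : Fin d → ℝ => dot y y) z := contDiff_dot_self.differentiable (by simp) z
  have hne := (dot_self_pos hz0).ne'
  have hinv : DifferentiableAt ℝ (fun y : Fin d → ℝ => (dot y y)⁻¹) z := hr.fun_inv hne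
  have e : regSq w δ = fun y => (∑ i, ∑ j, hess w i j y * hess w i j y) + δ * (dot y y)⁻¹ := rfl
  rw [e, pd_add (DifferentiableAt.fun_sum fun i _ => hs i) ((differentiableAt_const _).fun_mul hinv),
    pd_sum _ (F := fun i y => ∑ j, hess w i j y * hess w i j y) (fun i _ => hs i),
    pd_mul (differentiableAt_const _) hinv, pd_const,
    (pd_comp (f := fun y : Fin d → ℝ => dot y y) (φ := fun t => t⁻¹) (hasDerivAt_inv hne) hr k).trans
      (congrArg _ (pd_dot_self z k))]
  congr 1
  · simp only [dot2, mul_sum]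
    refine sum_congr rfl fun i _ => ?_
    rw [pd_sum _ (F := fun j y => hess w i j y * hess w i j y) (fun j _ => (hh i j).mul (hh i j))]
    refine sum_congr rfl fun j _ => ?_
    rw [pd_mul (hh i j) (hh i j)]
    simp only [third, hessMat]
    ring
  · ring

theorem RegularCone.laplace_hess (h : RegularCone u O w) {z : Fin d → ℝ} (hz : 0 < u z) (i j : Fin d) :
    ∑ k, pd (fun y => third w y i j k) k z = 0 := by
  have hzO := h.mem_of_pos hz
  have hT : ∀ a b c, DifferentiableAt ℝ (fun y => third w y a b c) z := fun a b c =>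
    differentiableAt_of_smooth (contDiffOn_third h.smooth h.isOpen a b c) h.isOpen hzO
  have e : ∀ k, pd (fun y => third w y i j k) k z = pd (fun y => third w y k k i) j z := fun k => by
    have e1 : (fun y => third w y i j k) =ᶠ[𝓝 z] fun y => third w y k i j := by
      filter_upwards [h.isOpen.mem_nhds hzO] with y hy
      rw [third_comm₂ h.smooth h.isOpen hy i j k, third_comm₁ h.smooth h.isOpen hy i k j]
    have e2 : (fun y => third w y k i k) =ᶠ[𝓝 z] fun y => third w y k k i := by
      filter_upwards [h.isOpen.mem_nhds hzO] with y hy using third_comm₂ h.smooth h.isOpen hy k i k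
    rw [pd_congr e1, ← pd_congr e2]
    exact hess_comm_of (contDiffOn_hess h.smooth h.isOpen k i) h.isOpen hzO j k
  simp only [e]
  rw [← pd_sum _ (F := fun k y => third w y k k i) (fun k _ => hT k k i)]
  refine (pd_congr ?_ j).trans (pd_const 0 j)
  filter_upwards [h.isOpen_pos.mem_nhds hz] with y hy using h.third_trace_pos hy i

theorem RegularCone.laplace_regSq (h : RegularCone u O w) (h0 : (0 : Fin d → ℝ) ∉ O) {z : Fin d → ℝ}
    (hz : 0 < u z) (δ : ℝ) :
    ∑ k, pd (pd (regSq w δ) k) k z
      = 2 * dot3 (third w z) (third w z) + δ * (2 * (4 - (d : ℝ)) * (dot z z ^ 2)⁻¹) := by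
  have hzO := h.mem_of_pos hz
  have hz0 : z ≠ 0 := fun e => h0 (e ▸ hzO)
  have hne := (dot_self_pos hz0).ne'
  have hh : ∀ i j, DifferentiableAt ℝ (hess w i j) z := fun i j =>
    differentiableAt_of_smooth (contDiffOn_hess h.smooth h.isOpen i j) h.isOpen hzO
  have hT : ∀ a b c, DifferentiableAt ℝ (fun y => third w y a b c) z := fun a b c =>
    differentiableAt_of_smooth (contDiffOn_third h.smooth h.isOpen a b c) h.isOpen hzO
  have hr : DifferentiableAt ℝ (fun y : Fin d → ℝ => dot y y) z := contDiff_dot_self.differentiable (by simp) z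
  have step : ∀ k, pd (pd (regSq w δ) k) k z
      = 2 * (∑ i, ∑ j, (third w z i j k * third w z i j k + hess w i j z * pd (fun y => third w y i j k) k z))
        + δ * (-(dot z z ^ 2)⁻¹ * 2 + 8 * (z k * z k) * (dot z z ^ 3)⁻¹) := by
    intro k
    have e : pd (regSq w δ) k =ᶠ[𝓝 z] fun y => 2 * (∑ i, ∑ j, third w y i j k * hess w i j y)
        + (-(2 * δ)) * (y k * ((dot y y ^ 2)⁻¹)) := by
      filter_upwards [h.isOpen.mem_nhds hzO] with y hy
      rw [pd_regSq h.smooth h.isOpen hy (fun e => h0 (e ▸ hy)) δ k]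
      simp only [dot2, hessMat]
      ring
    have hd1 : ∀ i, DifferentiableAt ℝ (fun y => ∑ j, third w y i j k * hess w i j y) z := fun i =>
      DifferentiableAt.fun_sum fun j _ => (hT i j k).mul (hh i j)
    have hd2 : DifferentiableAt ℝ (fun y => ∑ i, ∑ j, third w y i j k * hess w i j y) z :=
      DifferentiableAt.fun_sum fun i _ => hd1 i
    have hr2 : DifferentiableAt ℝ (fun y : Fin d → ℝ => (dot y y ^ 2)⁻¹) z :=
      (hr.fun_pow 2).fun_inv (pow_ne_zero 2 hne)
    have hd3 : DifferentiableAt ℝ (fun y : Fin d → ℝ => y k * (dot y y ^ 2)⁻¹) z :=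
      (differentiableAt_apply k z).fun_mul hr2
    have hderiv : HasDerivAt (fun t : ℝ => (t ^ 2)⁻¹) (-(2 * dot z z) / (dot z z ^ 2) ^ 2) (dot z z) := by
      simpa using (hasDerivAt_pow 2 (dot z z)).fun_inv (pow_ne_zero 2 hne)
    rw [pd_congr e, pd_add ((differentiableAt_const _).fun_mul hd2) ((differentiableAt_const _).fun_mul hd3),
      pd_mul (differentiableAt_const _) hd2, pd_mul (differentiableAt_const _) hd3, pd_const, pd_const,
      pd_sum _ (F := fun i y => ∑ j, third w y i j k * hess w i j y) (fun i _ => hd1 i),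
      pd_mul (differentiableAt_apply k z) hr2, pd_coord, if_pos rfl,
      (pd_comp (f := fun y : Fin d → ℝ => dot y y) (φ := fun t => (t ^ 2)⁻¹) hderiv hr k).trans
        (congrArg _ (pd_dot_self z k))]
    have e2 : ∀ i, pd (fun y => ∑ j, third w y i j k * hess w i j y) k z
        = ∑ j, (third w z i j k * third w z i j k + hess w i j z * pd (fun y => third w y i j k) k z) := fun i => by
      rw [pd_sum _ (F := fun j y => third w y i j k * hess w i j y) (fun j _ => (hT i j k).mul (hh i j))]
      exact sum_congr rfl fun j _ => (pd_mul (hT i j k) (hh i j) k).trans (by simp only [third])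
    simp only [e2, mul_zero, add_zero]
    field_simp
    ring
  simp only [step, sum_add_distrib, ← mul_sum]
  have e3 : ∑ k, ∑ i, ∑ j, hess w i j z * pd (fun y => third w y i j k) k z = 0 := by
    rw [sum_comm]
    refine sum_eq_zero fun i _ => ?_
    rw [sum_comm]
    exact sum_eq_zero fun j _ => by rw [← mul_sum, h.laplace_hess hz i j, mul_zero]
  have e4 : ∑ k, ∑ i, ∑ j, third w z i j k * third w z i j k = dot3 (third w z) (third w z) := by
    rw [sum_comm]
    exact sum_congr rfl fun i _ => sum_comm
  have e5 : ∑ k, (z k * z k) * (dot z z ^ 3)⁻¹ = (dot z z ^ 2)⁻¹ := by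
    rw [← sum_mul, show ∑ k, z k * z k = dot z z from rfl]
    field_simp
  rw [e3, e4]
  simp only [mul_assoc (8 : ℝ), ← mul_sum, e5, sum_const, card_univ, Fintype.card_fin, nsmul_eq_mul]
  ring

/-- Continuity of a product with a cut-off. -/
theorem continuous_mul_of_tsupport {η f : (Fin d → ℝ) → ℝ} (hη : Continuous η) (hO : IsOpen O)
    (hs : tsupport η ⊆ O) (hf : ContinuousOn f O) : Continuous fun y => η y * f y := by
  refine continuous_iff_continuousAt.2 fun y => ?_
  by_cases hy : y ∈ tsupport η
  · exact hη.continuousAt.mul (hf.continuousAt (hO.mem_nhds (hs hy)))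
  · refine (continuousAt_const (y := (0 : ℝ))).congr ?_
    filter_upwards [(isClosed_tsupport η).isOpen_compl.mem_nhds hy] with z hz
    simp [image_eq_zero_of_notMem_tsupport hz]

/-- The condition on the free boundary. -/
def Condition (u w : (Fin d → ℝ) → ℝ) (q : ℝ) : Prop :=
  ∀ x ∈ frontier {y | 0 < u y}, x ≠ 0 →
    dot2 (fun i j => ∑ k, hessMat w x i k * hessMat w x k j) (hessMat w x)
      ≤ (1 / q - 2) * meanCurv w x * hessSq w x

theorem regSq_rpow_le {δ q : ℝ} (hq : 0 < q) (hq1 : q ≤ 1) (hδ : 0 < δ) {z : Fin d → ℝ} (hz : z ≠ 0) :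
    hessSq w z ^ q ≤ regSq w δ z ^ q ∧
      regSq w δ z ^ q ≤ hessSq w z ^ q + δ ^ q * (dot z z)⁻¹ ^ q ∧
      δ * (dot z z)⁻¹ * regSq w δ z ^ (q - 1) ≤ δ ^ q * (dot z z)⁻¹ ^ q := by
  have h0 : 0 < δ * (dot z z)⁻¹ := mul_pos hδ (inv_pos.2 (dot_self_pos hz))
  have hh : 0 ≤ hessSq w z := dot2_self_nonneg _
  have he : δ ^ q * (dot z z)⁻¹ ^ q = (δ * (dot z z)⁻¹) ^ q :=
    (Real.mul_rpow hδ.le (inv_nonneg.2 (dot_self_nonneg z))).symm
  rw [he, regSq]
  refine ⟨Real.rpow_le_rpow hh (by linarith) hq.le, Real.rpow_add_le_add_rpow hh h0.le hq.le hq1, ?_⟩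
  calc δ * (dot z z)⁻¹ * (hessSq w z + δ * (dot z z)⁻¹) ^ (q - 1)
      ≤ δ * (dot z z)⁻¹ * (δ * (dot z z)⁻¹) ^ (q - 1) :=
        mul_le_mul_of_nonneg_left (Real.rpow_le_rpow_of_nonpos h0 (by linarith) (by linarith)) h0.le
    _ = (δ * (dot z z)⁻¹) ^ q := by
        rw [mul_comm, ← Real.rpow_add_one h0.ne', sub_add_cancel]

/-- The stability inequality tested with a power of the regularised Hessian. -/
theorem RegularCone.test_ineq (h : RegularCone u O w) (hP : ∀ y ∈ O, 0 < dot (grad w y) (grad w y))
    (h0 : (0 : Fin d → ℝ) ∉ O) (hmin : IsMinimizer u) (hd : 3 ≤ d) {q : ℝ} (hq : 0 < q) (hq1 : q ≤ 1)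
    (hqk : ((d : ℝ) - 3) / ((d : ℝ) - 1) ≤ q) (hcond : Condition u w q) {η : (Fin d → ℝ) → ℝ}
    (hη : ContDiff ℝ ∞ η) (hηc : HasCompactSupport η) (hηO : tsupport η ⊆ O) :
    q * (1 + q) * ∫ z in {z | 0 < u z}, η z * η z * (hessSq w z ^ q * (dot z z)⁻¹)
      ≤ ∫ z in {z | 0 < u z}, hessSq w z ^ q * dot (grad η z) (grad η z) := by
  set K := tsupport η
  have hKc : IsCompact K := hηc
  obtain ⟨Cf, hCf, hflux⟩ := h.flux_le hP hKc hηO
  have hne : ∀ {z}, z ∈ O → z ≠ 0 := fun hz e => h0 (e ▸ hz)
  have hDc : ContinuousOn (fun z : Fin d → ℝ => (dot z z)⁻¹) O :=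
    (contDiff_dot_self.continuous.continuousOn).inv₀ fun z hz => (dot_self_pos (hne hz)).ne'
  have hgg : Continuous fun z => dot (grad η z) (grad η z) :=
    continuous_finsetSum _ fun i _ => (contDiff_pd hη i).continuous.mul (contDiff_pd hη i).continuous
  have hggs : tsupport (fun z => dot (grad η z) (grad η z)) ⊆ K :=
    tsupport_subset_of_zero (isClosed_tsupport η) fun z hz => sum_eq_zero fun i _ => by
      rw [show grad η z i = pd η i z from rfl,
        image_eq_zero_of_notMem_tsupport fun hh => hz (tsupport_pd _ _ hh), mul_zero]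
  have hη2s : tsupport (fun z => η z * η z) ⊆ K := tsupport_mul_subset_left
  have hHc : ContinuousOn (fun z => |meanCurv w z| * (dot z z)⁻¹ ^ q) O := by
    refine ContinuousOn.mul ?_ (hDc.rpow_const fun z hz => .inr hq.le)
    exact ((continuousOn_finsetSum _ fun i _ => continuousOn_finsetSum _ fun j _ =>
      ((contDiffOn_hess h.smooth h.isOpen i j).continuousOn.mul
        (contDiffOn_pd h.smooth h.isOpen i).continuousOn).mul
        (contDiffOn_pd h.smooth h.isOpen j).continuousOn).neg).abs
  obtain ⟨CH, hCH⟩ := hKc.exists_bound_of_continuousOn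
    ((continuous_mul_of_tsupport (hη.continuous.mul hη.continuous) h.isOpen (hη2s.trans hηO) hHc).continuousOn)
  set I1 : (Fin d → ℝ) → ℝ := fun z => dot (grad η z) (grad η z) * hessSq w z ^ q
  set I2 : (Fin d → ℝ) → ℝ := fun z => η z * η z * (hessSq w z ^ q * (dot z z)⁻¹)
  set J1 : (Fin d → ℝ) → ℝ := fun z => dot (grad η z) (grad η z) * (dot z z)⁻¹ ^ q
  set J2 : (Fin d → ℝ) → ℝ := fun z => η z * η z * ((dot z z)⁻¹ ^ q * (dot z z)⁻¹)
  have hint : ∀ {f g : (Fin d → ℝ) → ℝ}, Continuous f → tsupport f ⊆ K → ContinuousOn g O →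
      IntegrableOn (fun z => f z * g z) {z | 0 < u z} := fun hf hfs hg =>
    ((continuous_mul_of_tsupport hf h.isOpen (hfs.trans hηO) hg).integrable_of_hasCompactSupport
      (HasCompactSupport.intro hKc fun z hz => by
        rw [image_eq_zero_of_notMem_tsupport fun hh => hz (hfs hh), zero_mul])).integrableOn
  have hsq : ContinuousOn (fun z => hessSq w z ^ q) O :=
    (contDiffOn_hessSq h.smooth h.isOpen).continuousOn.rpow_const fun z _ => .inr hq.le
  have hI1 : IntegrableOn I1 {z | 0 < u z} := hint hgg hggs hsq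
  have hI2 : IntegrableOn I2 {z | 0 < u z} :=
    hint (hη.continuous.mul hη.continuous) hη2s (hsq.mul hDc)
  have hJ1 : IntegrableOn J1 {z | 0 < u z} := hint hgg hggs (hDc.rpow_const fun z _ => .inr hq.le)
  have hJ2 : IntegrableOn J2 {z | 0 < u z} :=
    hint (hη.continuous.mul hη.continuous) hη2s ((hDc.rpow_const fun z _ => .inr hq.le).mul hDc)
  have main : ∀ δ : ℝ, 0 < δ → q * (1 + q) * (∫ z in {z | 0 < u z}, I2 z)
      ≤ (∫ z in {z | 0 < u z}, I1 z) + δ ^ q * ((∫ z in {z | 0 < u z}, J1 z)
        + q * ((d : ℝ) - 1) * (∫ z in {z | 0 < u z}, J2 z) + Cf * max CH 0) := by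
    intro δ hδ
    set F := regSq w δ
    have hF : ContDiffOn ℝ 2 F O := contDiffOn_regSq h.smooth h.isOpen h0 δ
    have hFpos : ∀ {z}, z ∈ O → 0 < F z := fun hz => regSq_pos hδ (hne hz)
    set c : (Fin d → ℝ) → ℝ := fun z => F z ^ (q / 2)
    have hc : ContDiffOn ℝ 2 c O := hF.rpow_const_of_ne fun z hz => (hFpos hz).ne'
    set φ : (Fin d → ℝ) → ℝ := fun z => η z * c z
    have hφ : ContDiff ℝ 1 φ := contDiff_cutoff_mul hη h.isOpen hηO (hc.of_le (by norm_num))
    have hst := h.stability hP h0 hmin hφ hηc.mul_right ((tsupport_mul_subset_left).trans hηO)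
    set G : Fin d → (Fin d → ℝ) → ℝ := fun i z =>
      q / 2 * (F z ^ (q - 1) * pd F i z) - F z ^ q * aField w i z
    have hG : ∀ i, ContDiffOn ℝ 1 (G i) O := fun i =>
      (contDiffOn_const.mul (((hF.rpow_const_of_ne fun z hz => (hFpos hz).ne').of_le (by norm_num)).mul
        (contDiffOn_pd hF h.isOpen i))).sub
        (((hF.rpow_const_of_ne fun z hz => (hFpos hz).ne').mul
          (contDiffOn_aField h.smooth h.isOpen i)).of_le (by norm_num))
    set W : Fin d → (Fin d → ℝ) → ℝ := fun i z => η z * η z * G i z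
    have hW : ∀ i, ContDiff ℝ 1 (W i) := fun i =>
      contDiff_cutoff_mul (hη.mul hη) h.isOpen (hη2s.trans hηO) (hG i)
    have hWs : ∀ i, tsupport (W i) ⊆ K := fun i =>
      tsupport_subset_of_zero (isClosed_tsupport η) fun z hz => by
        simp [W, image_eq_zero_of_notMem_tsupport hz]
    -- the flux
    have hfl : ∫ z in {z | 0 < u z}, divg W z ≤ Cf * (δ ^ q * max CH 0) := by
      refine hflux W _ hW hWs (by positivity) fun x hx => ?_
      have hxO : x ∈ O := hηO hx.1
      obtain ⟨-, hAN, hv⟩ := h.free_boundary h0 hx.2 hxO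
      have hxN : ∑ i, x i * pd w i x = 0 := by
        have := h.euler (RegularCone.mem_closure_of_frontier hx.2) hxO
        rw [h.w_eq (RegularCone.mem_closure_of_frontier hx.2) hxO, h.u_eq_zero_of_frontier hx.2] at this
        exact this
      have hN1 : ∑ i, pd w i x * pd w i x = 1 := by
        simpa only [← sq] using h.free x hx.2 (hne hxO)
      have e : ∑ i, W i x * pd w i x = η x * η x * (F x ^ (q - 1)
          * (q * dot (fun k => dot2 (fun i j => third w x i j k) (hessMat w x)) (grad w x))
          + F x ^ q * meanCurv w x) := by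
        have e1 : ∀ i, W i x * pd w i x = η x * η x * F x ^ (q - 1) * q
              * (dot2 (fun a b => third w x a b i) (hessMat w x) * pd w i x)
            + η x * η x * F x ^ (q - 1) * q * (-δ * (dot x x ^ 2)⁻¹) * (x i * pd w i x)
            + η x * η x * F x ^ q * meanCurv w x * (pd w i x * pd w i x) := fun i => by
          simp only [W, G, F]
          rw [pd_regSq h.smooth h.isOpen hxO (hne hxO) δ i,
            show aField w i x = -meanCurv w x * grad w x i from hAN i]
          simp only [grad]
          ring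
        simp only [e1, sum_add_distrib, ← mul_sum, hxN, hN1, dot, grad]
        ring
      rw [e, hv, show dot2 (hessMat w x) (hessMat w x) = hessSq w x from rfl]
      set a := hessSq w x
      have hcd := hcond x hx.2 (hne hxO)
      have hsplit : F x ^ q = F x ^ (q - 1) * F x := by
        rw [← Real.rpow_add_one (hFpos hxO).ne', sub_add_cancel]
      have hη2 : 0 ≤ η x * η x := mul_self_nonneg _
      have hFq : 0 ≤ F x ^ (q - 1) := Real.rpow_nonneg (hFpos hxO).le _
      have h1 : 0 ≤ q * (-2 * meanCurv w x * a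
          - dot2 (fun i j => ∑ k, hessMat w x i k * hessMat w x k j) (hessMat w x)) + a * meanCurv w x := by
        have := mul_le_mul_of_nonneg_left hcd hq.le
        rw [show q * ((1 / q - 2) * meanCurv w x * a) = meanCurv w x * a - q * 2 * meanCurv w x * a by
          field_simp] at this
        linarith
      have h2 : -(δ ^ q * (dot x x)⁻¹ ^ q * |meanCurv w x|)
          ≤ δ * (dot x x)⁻¹ * F x ^ (q - 1) * meanCurv w x := by
        refine le_trans ?_ (mul_le_mul_of_nonneg_left (neg_abs_le (meanCurv w x))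
          (mul_nonneg (mul_nonneg hδ.le (inv_nonneg.2 (dot_self_nonneg x))) hFq))
        rw [mul_neg, neg_le_neg_iff]
        exact mul_le_mul_of_nonneg_right (regSq_rpow_le hq hq1 hδ (hne hxO)).2.2 (abs_nonneg _)
      have h3 := (le_abs_self _).trans (hCH x hx.1)
      have h4 : δ ^ q * (η x * η x * (|meanCurv w x| * (dot x x)⁻¹ ^ q)) ≤ δ ^ q * max CH 0 :=
        mul_le_mul_of_nonneg_left (h3.trans (le_max_left _ _)) (Real.rpow_nonneg hδ.le q)
      have h5 := mul_nonneg (mul_nonneg hη2 hFq) h1
      have h6 := mul_le_mul_of_nonneg_left h2 hη2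
      rw [hsplit]
      have hFx : F x = a + δ * (dot x x)⁻¹ := rfl
      rw [show η x * η x * (F x ^ (q - 1) * (q * (-2 * meanCurv w x * a
          - dot2 (fun i j => ∑ k, hessMat w x i k * hessMat w x k j) (hessMat w x)))
          + F x ^ (q - 1) * F x * meanCurv w x)
        = η x * η x * F x ^ (q - 1) * (q * (-2 * meanCurv w x * a
          - dot2 (fun i j => ∑ k, hessMat w x i k * hessMat w x k j) (hessMat w x)) + a * meanCurv w x)
          + η x * η x * (δ * (dot x x)⁻¹ * F x ^ (q - 1) * meanCurv w x) by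
        linear_combination (η x * η x * F x ^ (q - 1) * meanCurv w x) * hFx]
      linarith
    -- pointwise
    have hdW : IntegrableOn (divg W) {z | 0 < u z} :=
      ((continuous_divg hW).integrable_of_hasCompactSupport (hasCompactSupport_divg hKc hWs)).integrableOn
    have hsφ : IntegrableOn (stabInt w φ) {z | 0 < u z} := by
      have hcs : ∀ i, tsupport (fun y => φ y * φ y * aField w i y) ⊆ K := fun i =>
        tsupport_subset_of_zero (isClosed_tsupport η) fun z hz => by
          simp [φ, image_eq_zero_of_notMem_tsupport hz]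
      have hss : ∀ i, ContDiff ℝ 1 fun y => φ y * φ y * aField w i y := fun i =>
        contDiff_cutoff_mul (hφ.mul hφ) h.isOpen
          ((tsupport_mul_subset_left.trans tsupport_mul_subset_left).trans hηO)
          ((contDiffOn_aField h.smooth h.isOpen i).of_le (by norm_num))
      refine (Continuous.integrable_of_hasCompactSupport ?_ (HasCompactSupport.intro hKc fun z hz => ?_)).integrableOn
      · exact (continuous_finsetSum _ fun i _ => (contDiff_pd hφ i).continuous.mul
          (contDiff_pd hφ i).continuous).sub (continuous_divg hss)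
      · have e1 : ∀ i, pd φ i z = 0 := fun i => image_eq_zero_of_notMem_tsupport fun hh =>
          hz (tsupport_mul_subset_left (tsupport_pd _ _ hh))
        have e2 : divg (fun i y => φ y * φ y * aField w i y) z = 0 := sum_eq_zero fun i _ =>
          image_eq_zero_of_notMem_tsupport fun hh => hz (hcs i (tsupport_pd _ _ hh))
        rw [stabInt, e2]
        simp [dot, grad, e1]
    have hpt : ∀ z, 0 < u z → stabInt w φ z + q * (1 + q) * I2 z
        ≤ I1 z + δ ^ q * J1 z + q * ((d : ℝ) - 1) * (δ ^ q * J2 z) + divg W z := by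
      intro z hz
      have hzO := h.mem_of_pos hz
      have hz0 := hne hzO
      have hFz := hFpos hzO
      have hFd : DifferentiableAt ℝ F z := differentiableAt_of_smooth hF h.isOpen hzO
      have hηd : DifferentiableAt ℝ η z := hη.differentiable (by simp) z
      have hFid : ∀ i, DifferentiableAt ℝ (pd F i) z := fun i =>
        differentiableAt_of_smooth (contDiffOn_pd hF h.isOpen i) h.isOpen hzO
      have had : ∀ i, DifferentiableAt ℝ (aField w i) z := fun i =>
        differentiableAt_of_smooth (contDiffOn_aField h.smooth h.isOpen i) h.isOpen hzO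
      have hcd : DifferentiableAt ℝ c z := differentiableAt_of_smooth hc h.isOpen hzO
      have hpc : ∀ i, pd c i z = q / 2 * F z ^ (q / 2 - 1) * pd F i z := fun i =>
        pd_comp (φ := fun t => t ^ (q / 2)) (Real.hasDerivAt_rpow_const (.inl hFz.ne')) hFd i
      have hd1 : DifferentiableAt ℝ (fun y => F y ^ (q - 1)) z := hFd.rpow_const (.inl hFz.ne')
      have hd2 : DifferentiableAt ℝ (fun y => F y ^ q) z := hFd.rpow_const (.inl hFz.ne')
      have hp1 : ∀ i, pd (fun y => F y ^ (q - 1)) i z = (q - 1) * F z ^ (q - 1 - 1) * pd F i z := fun i =>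
        pd_comp (φ := fun t => t ^ (q - 1)) (Real.hasDerivAt_rpow_const (.inl hFz.ne')) hFd i
      set X := F z ^ (q - 2)
      have r1 : c z * c z = X * F z ^ 2 := by
        simp only [c, X]
        rw [← Real.rpow_add hFz, ← Real.rpow_natCast (F z) 2, ← Real.rpow_add hFz]
        norm_num
      have r2 : F z ^ (q / 2 - 1) * c z = X * F z := by
        simp only [c, X]
        rw [← Real.rpow_add hFz, ← Real.rpow_add_one hFz.ne']
        congr 1; ring
      have r3 : F z ^ (q / 2 - 1) * F z ^ (q / 2 - 1) = X := by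
        simp only [X]
        rw [← Real.rpow_add hFz]
        congr 1; ring
      have r4 : F z ^ (q - 1) = X * F z := by
        simp only [X]
        rw [← Real.rpow_add_one hFz.ne']
        congr 1; ring
      have r5 : F z ^ q = X * F z ^ 2 := by
        simp only [X]
        rw [← Real.rpow_natCast (F z) 2, ← Real.rpow_add hFz]
        norm_num
      set ge := grad η z
      set gF := grad F z
      have key : stabInt w φ z = F z ^ q * dot ge ge
          - η z * η z * (q * X * (F z * ((∑ k, pd (pd F k) k z) / 2) - (2 - q) * (dot gF gF / 4)))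
          + divg W z := by
        have e1 : ∀ i, pd φ i z = η z * (q / 2 * F z ^ (q / 2 - 1) * pd F i z) + c z * pd η i z := fun i => by
          rw [show φ = fun y => η y * c y from rfl, pd_mul hηd hcd, hpc]
        have ed : ∀ i, pd (fun y => φ y * φ y * aField w i y) i z - pd (fun y => η y * η y * (F y ^ q * aField w i y)) i z = 0 := by
          intro i
          rw [sub_eq_zero]
          refine pd_congr ?_ i
          filter_upwards [h.isOpen.mem_nhds hzO] with y hy
          have e : c y * c y = F y ^ q := by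
            simp only [c]; rw [← Real.rpow_add (hFpos hy)]; norm_num
          rw [← e]
          simp only [φ]
          ring
        have ew : ∀ i, pd (W i) i z + pd (fun y => η y * η y * (F y ^ q * aField w i y)) i z
            = pd (fun y => η y * η y * (q / 2 * (F y ^ (q - 1) * pd F i y))) i z := by
          intro i
          have d1 : DifferentiableAt ℝ (fun y => η y * η y * (F y ^ q * aField w i y)) z :=
            (hηd.fun_mul hηd).fun_mul (hd2.fun_mul (had i))
          rw [← pd_add ((hW i).differentiable (by simp) z) d1]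
          refine pd_congr (.of_forall fun y => ?_) i
          simp only [W, G]
          ring
        have ep : ∀ i, pd (fun y => η y * η y * (q / 2 * (F y ^ (q - 1) * pd F i y))) i z
            = 2 * η z * pd η i z * (q / 2 * (F z ^ (q - 1) * pd F i z))
              + η z * η z * (q / 2 * ((q - 1) * F z ^ (q - 1 - 1) * pd F i z * pd F i z
                + F z ^ (q - 1) * pd (pd F i) i z)) := fun i => by
          rw [pd_mul (hηd.fun_mul hηd) ((differentiableAt_const _).fun_mul (hd1.fun_mul (hFid i))),
            pd_mul hηd hηd, pd_mul (differentiableAt_const _) (hd1.fun_mul (hFid i)), pd_const,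
            pd_mul hd1 (hFid i), hp1]
          ring
        have eX : F z ^ (q - 1 - 1) = X := by simp only [X]; congr 1; ring
        simp only [eX] at ep
        have expand : stabInt w φ z - divg W z
            = ∑ i, (pd φ i z * pd φ i z - pd (fun y => η y * η y * (q / 2 * (F y ^ (q - 1) * pd F i y))) i z) := by
          simp only [stabInt, divg, dot, grad, ← sum_sub_distrib]
          exact sum_congr rfl fun i _ => by linarith [ed i, ew i]
        rw [← sub_eq_iff_eq_add, expand]
        simp only [e1, ep, ge, gF, dot, grad, r4, r5, mul_sum, sum_div, ← sum_sub_distrib]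
        refine sum_congr rfl fun i _ => ?_
        linear_combination (η z ^ 2 * q ^ 2 / 4 * pd F i z ^ 2) * r3
          + (η z * q * pd F i z * pd η i z) * r2 + pd η i z ^ 2 * r1
      -- the interior inequality
      have hA : ∀ i j, hessMat w z i j = hessMat w z j i := hess_comm_of h.smooth h.isOpen hzO
      set η' := δ * (dot z z)⁻¹
      have hη' : 0 ≤ η' := mul_nonneg hδ.le (inv_nonneg.2 (dot_self_nonneg z))
      have hii := interior_ineq hd (dot_self_pos hz0).ne' hA (h.trace_pos hz)
        (fun i => h.app_hess_radial (subset_closure hz) hzO i)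
        (third_comm₁ h.smooth h.isOpen hzO) (third_comm₂ h.smooth h.isOpen hzO) (h.third_trace_pos hz)
        (h.third_radial_pos hz) hqk hη'
      have hgF : dot gF gF / 4
          = ∑ k, (dot2 (fun i j => third w z i j k) (hessMat w z) - η' * z k / dot z z) ^ 2 := by
        show (∑ k, pd F k z * pd F k z) / 4 = _
        rw [sum_div]
        refine sum_congr rfl fun k _ => ?_
        rw [pd_regSq h.smooth h.isOpen hzO hz0 δ k]
        simp only [η']
        ring
      have hlap : (∑ k, pd (pd F k) k z) / 2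
          = dot3 (third w z) (third w z) + (4 - (d : ℝ)) * η' / dot z z := by
        rw [h.laplace_regSq h0 hz δ]
        simp only [η']
        ring
      obtain ⟨t1, t2, t3⟩ := regSq_rpow_le (w := w) hq hq1 hδ hz0
      rw [key, hlap, hgF]
      have h1 : q * X * ((dot2 (hessMat w z) (hessMat w z) + η') *
          (((1 + q) * (dot2 (hessMat w z) (hessMat w z) + η') - ((d : ℝ) - 1) * η') / dot z z))
          ≤ q * X * (F z * (dot3 (third w z) (third w z) + (4 - (d : ℝ)) * η' / dot z z)
            - (2 - q) * ∑ k, (dot2 (fun i j => third w z i j k) (hessMat w z) - η' * z k / dot z z) ^ 2) :=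
        mul_le_mul_of_nonneg_left hii (mul_nonneg hq.le (Real.rpow_nonneg hFz.le _))
      have h2 : q * X * ((dot2 (hessMat w z) (hessMat w z) + η') *
          (((1 + q) * (dot2 (hessMat w z) (hessMat w z) + η') - ((d : ℝ) - 1) * η') / dot z z))
          = (q * (1 + q) * F z ^ q - q * ((d : ℝ) - 1) * (η' * F z ^ (q - 1))) * (dot z z)⁻¹ := by
        rw [r4, r5, show F z = dot2 (hessMat w z) (hessMat w z) + η' from rfl]
        ring
      rw [h2] at h1
      have hR : 0 ≤ (dot z z)⁻¹ := inv_nonneg.2 (dot_self_nonneg z)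
      have hd1' : (0 : ℝ) ≤ (d : ℝ) - 1 := by
        have : (3 : ℝ) ≤ d := by exact_mod_cast hd
        linarith
      have hη2 : 0 ≤ η z * η z := mul_self_nonneg _
      have h3 := mul_le_mul_of_nonneg_left h1 hη2
      have h4 : q * (1 + q) * I2 z ≤ η z * η z * (q * (1 + q) * F z ^ q * (dot z z)⁻¹) := by
        simp only [I2]
        have := mul_le_mul_of_nonneg_left t1
          (mul_nonneg (mul_nonneg (by positivity : 0 ≤ q * (1 + q)) hη2) hR)
        linarith
      have h5 : η z * η z * (q * ((d : ℝ) - 1) * (η' * F z ^ (q - 1)) * (dot z z)⁻¹)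
          ≤ q * ((d : ℝ) - 1) * (δ ^ q * J2 z) := by
        simp only [J2]
        have := mul_le_mul_of_nonneg_left t3 (mul_nonneg (mul_nonneg (mul_nonneg hq.le hd1') hη2) hR)
        linarith
      have h6 : F z ^ q * dot ge ge ≤ I1 z + δ ^ q * J1 z := by
        simp only [I1, J1, ge]
        have := mul_le_mul_of_nonneg_right t2 (dot_self_nonneg (grad η z))
        linarith
      linarith
    have hl : IntegrableOn (fun z => stabInt w φ z + q * (1 + q) * I2 z) {z | 0 < u z} :=
      hsφ.add (hI2.const_mul _)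
    have hr1 : IntegrableOn (fun z => I1 z + δ ^ q * J1 z) {z | 0 < u z} := hI1.add (hJ1.const_mul _)
    have hr2 : IntegrableOn (fun z => I1 z + δ ^ q * J1 z + q * ((d : ℝ) - 1) * (δ ^ q * J2 z)) {z | 0 < u z} :=
      hr1.add ((hJ2.const_mul _).const_mul _)
    have hineq := setIntegral_mono_on hl (hr2.add hdW) h.isOpen_pos.measurableSet hpt
    simp only [Pi.add_apply] at hineq
    rw [integral_add hsφ (hI2.const_mul _), integral_add hr2 hdW,
      integral_add hr1 ((hJ2.const_mul _).const_mul _), integral_add hI1 (hJ1.const_mul _),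
      integral_const_mul, integral_const_mul, integral_const_mul, integral_const_mul] at hineq
    linarith
  have hlimit : q * (1 + q) * (∫ z in {z | 0 < u z}, I2 z) ≤ ∫ z in {z | 0 < u z}, I1 z := by
    have hlim : Tendsto (fun δ : ℝ => (∫ z in {z | 0 < u z}, I1 z) + δ ^ q *
        ((∫ z in {z | 0 < u z}, J1 z) + q * ((d : ℝ) - 1) * (∫ z in {z | 0 < u z}, J2 z) + Cf * max CH 0))
        (𝓝[>] 0) (𝓝 (∫ z in {z | 0 < u z}, I1 z)) := by
      have h1 := ((Real.continuous_rpow_const hq.le).tendsto (0 : ℝ)).mono_left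
        (nhdsWithin_le_nhds (s := Ioi (0 : ℝ)))
      rw [Real.zero_rpow hq.ne'] at h1
      simpa using tendsto_const_nhds.add (h1.mul_const _)
    exact ge_of_tendsto hlim (by filter_upwards [self_mem_nhdsWithin] with δ hδ using main δ hδ)
  refine hlimit.trans (le_of_eq ?_)
  exact integral_congr_ae (.of_forall fun z => mul_comm _ _)

end

end Vale.Agent.P098.Cone
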