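import Vale.Agent.P098.Cone.Competitor
import Vale.Agent.P098.Cone.Expansion
import Vale.Agent.P098.Cone.Flux

/-!
# P098: stability of a minimiser, derived from inner variations
-/

namespace Vale.Agent.P098.Cone

open MeasureTheory Set Filter Topology Finset
open scoped ContDiff

noncomputable section

variable {d : ℕ} {u w : (Fin d → ℝ) → ℝ} {O : Set (Fin d → ℝ)}

/-- The Hessian applied to the gradient. -/
def aField (w : (Fin d → ℝ) → ℝ) (i : Fin d) (z : Fin d → ℝ) : ℝ := app (hessMat w z) (grad w z) i

/-- The stability integrand; the boundary term is written as a divergence. -/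
def stabInt (w φ : (Fin d → ℝ) → ℝ) (z : Fin d → ℝ) : ℝ :=
  dot (grad φ z) (grad φ z) - divg (fun i y => φ y * φ y * aField w i y) z

theorem contDiffOn_aField (hw : ContDiffOn ℝ 4 w O) (hO : IsOpen O) (i : Fin d) :
    ContDiffOn ℝ 2 (aField w i) O :=
  show ContDiffOn ℝ 2 (fun z => ∑ j, hess w i j z * pd w j z) O from
    ContDiffOn.sum fun j _ =>
      (contDiffOn_hess hw hO i j).mul ((contDiffOn_pd hw hO j).of_le (by norm_num))

theorem pd_aField (hw : ContDiffOn ℝ 4 w O) (hO : IsOpen O) {z : Fin d → ℝ} (hz : z ∈ O) (i k : Fin d) :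
    pd (aField w i) k z = ∑ j, (third w z i j k * pd w j z + hess w i j z * hess w j k z) := by
  have h1 : ∀ j, DifferentiableAt ℝ (hess w i j) z := fun j =>
    differentiableAt_of_smooth (contDiffOn_hess hw hO i j) hO hz
  have h2 : ∀ j, DifferentiableAt ℝ (pd w j) z := fun j =>
    differentiableAt_of_smooth (contDiffOn_pd hw hO j) hO hz
  rw [show aField w i = fun z => ∑ j, hess w i j z * pd w j z from rfl,
    pd_sum _ (F := fun j z => hess w i j z * pd w j z) (fun j _ => (h1 j).mul (h2 j))]
  exact sum_congr rfl fun j _ => (pd_mul (h1 j) (h2 j) k).trans (by simp only [third, hess]; ring)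

theorem RegularCone.divg_mul_aField (h : RegularCone u O w) {f : (Fin d → ℝ) → ℝ} {z : Fin d → ℝ}
    (hz : 0 < u z) (hf : DifferentiableAt ℝ f z) :
    divg (fun i y => f y * aField w i y) z
      = f z * dot2 (hessMat w z) (hessMat w z) + dot (app (hessMat w z) (grad w z)) (grad f z) := by
  have hzO := h.mem_of_pos hz
  have ha : ∀ i, DifferentiableAt ℝ (aField w i) z := fun i =>
    differentiableAt_of_smooth (contDiffOn_aField h.smooth h.isOpen i) h.isOpen hzO
  have e : ∀ i, pd (fun y => f y * aField w i y) i z = f z * pd (aField w i) i z + aField w i z * pd f i z :=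
    fun i => pd_mul hf (ha i) i
  simp only [divg, e, sum_add_distrib, ← mul_sum]
  congr 1
  congr 1
  have e2 : ∑ i, ∑ j, third w z i j i * pd w j z = 0 := by
    rw [sum_comm]
    refine sum_eq_zero fun j _ => ?_
    rw [← sum_mul, show ∑ i, third w z i j i = ∑ i, third w z i i j from sum_congr rfl fun i _ =>
      third_comm₂ h.smooth h.isOpen hzO i j i, h.third_trace_pos hz j, zero_mul]
  simp only [pd_aField h.smooth h.isOpen hzO, sum_add_distrib, e2, zero_add, dot2, hessMat]
  exact sum_congr rfl fun i _ => sum_congr rfl fun j _ => by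
    rw [hess_comm_of h.smooth h.isOpen hzO j i]

theorem tsupport_subset_of_zero {f : (Fin d → ℝ) → ℝ} {K : Set (Fin d → ℝ)} (hK : IsClosed K)
    (h : ∀ z ∉ K, f z = 0) : tsupport f ⊆ K :=
  closure_minimal (Function.support_subset_iff'.2 h) hK

/-- A minimiser is stable. -/
theorem RegularCone.stability (h : RegularCone u O w) (hP : ∀ y ∈ O, 0 < dot (grad w y) (grad w y))
    (h0 : (0 : Fin d → ℝ) ∉ O) (hmin : IsMinimizer u) {φ : (Fin d → ℝ) → ℝ} (hφ : ContDiff ℝ 1 φ)
    (hφc : HasCompactSupport φ) (hφO : tsupport φ ⊆ O) :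
    0 ≤ ∫ z in {z | 0 < u z}, stabInt w φ z := by
  set K := tsupport φ
  have hKc : IsCompact K := hφc
  set P : (Fin d → ℝ) → ℝ := fun z => dot (grad w z) (grad w z)
  have hPs : ContDiffOn ℝ 1 P O := ContDiffOn.of_le (n := 3) (ContDiffOn.sum fun i _ =>
    (contDiffOn_pd h.smooth h.isOpen i).mul (contDiffOn_pd h.smooth h.isOpen i)) (by norm_num)
  set ψ : (Fin d → ℝ) → ℝ := fun z => φ z * (P z)⁻¹
  have hψ : ContDiff ℝ 1 ψ := contDiff_cutoff_mul hφ h.isOpen hφO (hPs.inv fun z hz => (hP z hz).ne')
  have hψK : ∀ z ∉ K, ψ z = 0 := fun z hz => by simp [ψ, image_eq_zero_of_notMem_tsupport hz]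
  have hψs : tsupport ψ ⊆ K :=
    tsupport_subset_of_zero (isClosed_tsupport φ) hψK
  set X : Fin d → (Fin d → ℝ) → ℝ := fun i z => ψ z * pd w i z
  have hX : ∀ i, ContDiff ℝ 1 (X i) := fun i =>
    contDiff_cutoff_mul hψ h.isOpen (hψs.trans hφO)
      ((contDiffOn_pd h.smooth h.isOpen i).of_le (by norm_num))
  have hXK : ∀ i, ∀ z ∉ K, X i z = 0 := fun i z hz => by simp [X, hψK z hz]
  set M := derivMat X
  have hMc : ∀ i j, Continuous fun z => M z i j := fun i j => (contDiff_pd (hX i) j).continuous
  have hMzero : ∀ z ∉ K, ∀ i j, M z i j = 0 := fun z hz i j =>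
    show pd (X i) j z = 0 from image_eq_zero_of_notMem_tsupport fun hh => hz (tsupport_subset_of_zero (isClosed_tsupport φ) (hXK i) (tsupport_pd _ _ hh))
  obtain ⟨B, hB, hMB⟩ : ∃ B : ℝ, 0 ≤ B ∧ ∀ z i j, |M z i j| ≤ B := by
    have hc : Continuous fun z => ‖M z‖ :=
      (continuous_pi fun i => continuous_pi fun j => hMc i j).norm
    have hs : HasCompactSupport fun z => ‖M z‖ := HasCompactSupport.intro hKc fun z hz => by
      rw [show M z = 0 from funext fun i => funext fun j => hMzero z hz i j, norm_zero]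
    obtain ⟨B, hB⟩ := hc.bounded_above_of_compact_support hs
    refine ⟨max B 0, le_max_right _ _, fun z i j => ?_⟩
    calc |M z i j| ≤ ‖M z i‖ := norm_le_pi_norm (M z i) j
      _ ≤ ‖M z‖ := norm_le_pi_norm (M z) i
      _ = ‖‖M z‖‖ := (norm_norm _).symm
      _ ≤ max B 0 := (hB z).trans (le_max_left _ _)
  obtain ⟨L, hL⟩ := h.lipschitz
  have hNL : ∀ z, 0 < u z → ‖grad w z‖ ≤ (L : ℝ) := fun z hz =>
    (pi_norm_le_iff_of_nonneg L.2).2 fun i => by
      rw [Real.norm_eq_abs, show grad w z i = pd u i z from (h.pd_u_eq hz i).symm]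
      exact abs_pd_le hL i z
  obtain ⟨R, hR, hKR⟩ : ∃ R : ℝ, 0 < R ∧ K ⊆ eball 0 R := by
    obtain ⟨C, hC⟩ := hKc.exists_bound_of_continuousOn
      (f := fun z : Fin d → ℝ => ∑ i, z i ^ 2) (by fun_prop)
    refine ⟨|C| + 1, by positivity, fun z hz => ?_⟩
    show ∑ i, (z i - (0 : Fin d → ℝ) i) ^ 2 < _
    simp only [Pi.zero_apply, sub_zero]
    have := (le_abs_self _).trans (hC z hz)
    nlinarith [le_abs_self C, abs_nonneg C]
  obtain ⟨LX, hLX⟩ : ∃ LX, LipschitzWith LX fun y i => X i y :=
    ⟨_, ((contDiff_pi.2 hX).lipschitzWith_of_hasCompactSupport (HasCompactSupport.intro hKc fun z hz =>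
      funext fun i => hXK i z hz) (by simp)).choose_spec⟩
  obtain ⟨Cd, δd, -, hδd, hdet⟩ := exists_detPlus_bound (d := d) B hB
  obtain ⟨C2, δ2, hδ2, hsec⟩ := exists_second_bound (d := d) B L hB L.2
  set τ := min (min δd δ2) (1 / ((LX : ℝ) + 1))
  have hτ : 0 < τ := lt_min (lt_min hδd hδ2) (by positivity)
  set ts : ℕ → ℝ := fun n => τ / ((n : ℝ) + 1)
  have hts0 : ∀ n, 0 < ts n := fun n => by positivity
  have htsτ : ∀ n, ts n ≤ τ := fun n => div_le_self hτ.le (by simp)
  have hts : Tendsto ts atTop (𝓝[≠] 0) := tendsto_nhdsWithin_iff.2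
    ⟨tendsto_const_nhds.div_atTop (tendsto_atTop_add_const_right _ _ tendsto_natCast_atTop_atTop),
      .of_forall fun n => (hts0 n).ne'⟩
  set S := eball 0 R ∩ {y | 0 < u y}
  have hS : MeasurableSet S := (measurableSet_eball 0 R).inter h.isOpen_pos.measurableSet
  have hcomp : ∀ s : ℝ, |s| ≤ τ → ∃ g : (Fin d → ℝ) → Fin d → ℝ,
      (∀ y, 0 < u y → ∀ j, g y j + s * app (tr (M y)) (g y) j = grad w y j) ∧
      IntegrableOn (fun y => density s (M y) (g y)) S ∧
      ∫ y in S, (dot (grad w y) (grad w y) + 1) ≤ ∫ y in S, density s (M y) (g y) := by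
    intro s hs
    have hsLX : |s| * LX < 1 := by
      have h1 := (le_div_iff₀ (by positivity)).1 (hs.trans (min_le_right _ _))
      rcases (abs_nonneg s).eq_or_lt with h2 | h2
      · rw [← h2, zero_mul]; exact one_pos
      · linarith
    obtain ⟨g, hg, hgi, hge⟩ := h.compete hmin hX hKc hXK hR hKR hLX hsLX
      fun y => (hdet s (M y) (hs.trans ((min_le_left _ _).trans (min_le_left _ _))) (hMB y)).1
    have e : ∀ y, density s (M y) (g y) = ((∑ i, g y i ^ 2) + 1) * detPlus s (M y) := fun y => by
      simp only [density, dot, sq]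
    refine ⟨g, fun y hy j => ?_, hgi.congr_fun (fun y _ => (e y).symm) hS, ?_⟩
    · rw [show grad w y j = pd w j y from rfl, ← hg y hy j]
      simp only [app, tr, M, mul_comm (g y _)]
    · simp only [e, dot, grad, ← sq]
      exact hge
  have hτs : ∀ n, |ts n| ≤ τ := fun n => (abs_of_pos (hts0 n)).trans_le (htsτ n)
  choose gp hgp hgpi hgpe using fun n => hcomp (ts n) (hτs n)
  choose gm hgm hgmi hgme using fun n => hcomp (-ts n) ((abs_neg _).trans_le (hτs n))
  set F : ℕ → (Fin d → ℝ) → ℝ := fun n y =>
    (density (ts n) (M y) (gp n y) + density (-ts n) (M y) (gm n y)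
      - 2 * (dot (grad w y) (grad w y) + 1)) / ts n ^ 2
  have hfin : IsFiniteMeasure (volume.restrict S) := isFiniteMeasure_restrict.2
    ((measure_mono Set.inter_subset_left).trans_lt (isBounded_eball R).measure_lt_top).ne
  have h0i : IntegrableOn (fun y => dot (grad w y) (grad w y) + 1) S := by
    refine Integrable.of_bound (μ := volume.restrict S) (f := fun y => dot (grad w y) (grad w y) + 1) ?_ (d * L * L + 1) ?_
    · have hc : ContinuousOn (fun y => dot (grad w y) (grad w y) + 1) S :=
        (hPs.continuousOn.mono fun y hy => h.mem_of_pos hy.2).add continuousOn_const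
      exact hc.aestronglyMeasurable hS
    · filter_upwards [ae_restrict_mem hS] with y hy
      rw [Real.norm_eq_abs, abs_of_nonneg (by linarith [dot_self_nonneg (grad w y)])]
      refine add_le_add_left ((le_abs_self _).trans ((abs_dot_le _ _).trans ?_)) 1
      exact mul_le_mul (mul_le_mul_of_nonneg_left (hNL y hy.2) (by positivity)) (hNL y hy.2) (norm_nonneg _)
        (by positivity)
  have hFi : ∀ n, IntegrableOn (F n) S := fun n =>
    (((hgpi n).add (hgmi n)).sub (h0i.const_mul 2)).div_const _
  have hF0 : ∀ n, 0 ≤ ∫ y in S, F n y := fun n => by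
    rw [integral_div, integral_sub (f := fun y => density (ts n) (M y) (gp n y)
        + density (-ts n) (M y) (gm n y)) ((hgpi n).add (hgmi n)) (h0i.const_mul 2),
      integral_add (hgpi n) (hgmi n), integral_const_mul]
    exact div_nonneg (by linarith [hgpe n, hgme n]) (sq_nonneg _)
  have hlim : Tendsto (fun n => ∫ y in S, F n y) atTop (𝓝 (∫ y in S, secondVar (M y) (grad w y))) := by
    refine tendsto_integral_of_dominated_convergence (fun _ => C2) (fun n => (hFi n).aestronglyMeasurable)
      (integrable_const _) (fun n => ?_) ?_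
    · filter_upwards [ae_restrict_mem hS] with y hy
      rw [Real.norm_eq_abs, abs_div, abs_of_nonneg (sq_nonneg (ts n)),
        div_le_iff₀ (pow_pos (hts0 n) 2)]
      exact hsec (ts n) (M y) _ _ _ ((hτs n).trans ((min_le_left _ _).trans (min_le_right _ _))) (hMB y)
        (hNL y hy.2) (hgp n y hy.2) (hgm n y hy.2)
    · filter_upwards [ae_restrict_mem hS] with y hy
      exact tendsto_second hB (hMB y) hts (.of_forall fun n => hgp n y hy.2)
        (.of_forall fun n => hgm n y hy.2)
  have hnn := ge_of_tendsto' hlim hF0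
  -- the algebraic identity
  set Z : Fin d → (Fin d → ℝ) → ℝ := fun i z => ψ z * ψ z * (2 * (P z * P z) - (P z + 1)) * aField w i z
  have hψ2s : tsupport (fun z => ψ z * ψ z) ⊆ O :=
    (tsupport_subset_of_zero (isClosed_tsupport φ) fun z hn => by simp [hψK z hn]).trans hφO
  have hZc : ∀ i, ContDiff ℝ 1 (Z i) := fun i => by
    have := contDiff_cutoff_mul (hψ.mul hψ) h.isOpen hψ2s
      ((((contDiffOn_const (c := (2 : ℝ))).mul (hPs.mul hPs)).sub (hPs.add (contDiffOn_const (c := (1 : ℝ))))).mul
        ((contDiffOn_aField h.smooth h.isOpen i).of_le (by norm_num)))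
    have e : Z i = fun z => ψ z * ψ z * ((2 * (P z * P z) - (P z + 1)) * aField w i z) :=
      funext fun z => by simp only [Z]; ring
    rw [e]
    exact this
  have hZs : ∀ i, tsupport (Z i) ⊆ K := fun i =>
    tsupport_subset_of_zero (isClosed_tsupport φ) fun z hn => by simp [Z, hψK z hn]
  have hstab_c : Continuous (stabInt w φ) := by
    refine (continuous_finsetSum _ fun i _ => (contDiff_pd hφ i).continuous.mul
      (contDiff_pd hφ i).continuous).sub (continuous_divg fun i => ?_)
    exact contDiff_cutoff_mul (hφ.mul hφ) h.isOpen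
      ((tsupport_mul_subset_left (f := φ) (g := φ)).trans hφO)
      ((contDiffOn_aField h.smooth h.isOpen i).of_le (by norm_num))
  have hstab_0 : ∀ z ∉ K, stabInt w φ z = 0 := fun z hz => by
    have e1 : grad φ z = 0 := funext fun i =>
      show pd φ i z = 0 from image_eq_zero_of_notMem_tsupport fun hh => hz (tsupport_pd _ _ hh)
    have e2 : divg (fun i y => φ y * φ y * aField w i y) z = 0 := sum_eq_zero fun i _ =>
      image_eq_zero_of_notMem_tsupport fun hh => hz ((tsupport_subset_of_zero (isClosed_tsupport φ)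
        fun y hn => by simp [image_eq_zero_of_notMem_tsupport hn]) (tsupport_pd _ _ hh))
    rw [stabInt, e1, e2]
    simp [dot]
  have key : ∀ z, 0 < u z → secondVar (M z) (grad w z) = 2 * stabInt w φ z + divg Z z := by
    intro z hz
    have hzO := h.mem_of_pos hz
    set A := hessMat w z
    set N := grad w z
    set b := grad ψ z
    set a := app A N
    have hψd : DifferentiableAt ℝ ψ z := hψ.differentiable (by simp) z
    have hPd : DifferentiableAt ℝ P z := differentiableAt_of_smooth hPs h.isOpen hzO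
    have hNd : ∀ i, DifferentiableAt ℝ (pd w i) z := fun i =>
      differentiableAt_of_smooth (contDiffOn_pd h.smooth h.isOpen i) h.isOpen hzO
    have hA : ∀ i j, A i j = A j i := hess_comm_of h.smooth h.isOpen hzO
    have hM : M z = fun i j => ψ z * A i j + N i * b j := funext fun i => funext fun j => by
      simp only [M, derivMat, X, pd_mul hψd (hNd i)]
      rfl
    have hgP : ∀ j, pd P j z = 2 * a j := fun j => by
      rw [show P = fun y => ∑ i, pd w i y * pd w i y from rfl,
        pd_sum _ (F := fun i y => pd w i y * pd w i y) (fun i _ => (hNd i).mul (hNd i))]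
      simp only [pd_mul (hNd _) (hNd _), a, app, mul_sum]
      exact sum_congr rfl fun i _ => by
        rw [show pd (pd w i) j z = hess w i j z from rfl]
        simp only [A, N, hessMat, grad]
        rw [hess_comm_of h.smooth h.isOpen hzO j i]
        ring
    have hφψ : φ =ᶠ[𝓝 z] fun y => P y * ψ y := by
      filter_upwards [h.isOpen.mem_nhds hzO] with y hy
      simp only [ψ]
      rw [mul_left_comm, mul_inv_cancel₀ (hP y hy).ne', mul_one]
    have hgφ : ∀ j, pd φ j z = P z * b j + ψ z * (2 * a j) := fun j => by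
      rw [pd_congr hφψ, pd_mul hPd hψd, hgP]
      rfl
    have hφd : DifferentiableAt ℝ φ z := hφ.differentiable (by simp) z
    have e1 := h.divg_mul_aField (f := fun y => φ y * φ y) hz (hφd.fun_mul hφd)
    have e2 := h.divg_mul_aField (f := fun y => ψ y * ψ y * (2 * (P y * P y) - (P y + 1))) hz
      ((hψd.fun_mul hψd).fun_mul (((differentiableAt_const _).fun_mul (hPd.fun_mul hPd)).fun_sub
        (hPd.fun_add (differentiableAt_const _))))
    have g1 : ∀ j, pd (fun y => φ y * φ y) j z = 2 * φ z * (P z * b j + ψ z * (2 * a j)) := fun j => by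
      rw [pd_mul hφd hφd, hgφ]; ring
    have g2 : ∀ j, pd (fun y => ψ y * ψ y * (2 * (P y * P y) - (P y + 1))) j z
        = 2 * ψ z * (2 * (P z * P z) - (P z + 1)) * b j
          + ψ z * ψ z * (8 * P z - 2) * a j := fun j => by
      have d1 : DifferentiableAt ℝ (fun y => P y * P y) z := hPd.fun_mul hPd
      have d2 : DifferentiableAt ℝ (fun y => 2 * (P y * P y)) z := (differentiableAt_const _).fun_mul d1
      have d3 : DifferentiableAt ℝ (fun y => P y + 1) z := hPd.fun_add (differentiableAt_const _)
      rw [pd_mul (hψd.fun_mul hψd) (d2.fun_sub d3), pd_sub d2 d3, pd_mul (differentiableAt_const _) d1,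
        pd_mul hPd hPd, pd_add hPd (differentiableAt_const _), pd_const, pd_const, pd_mul hψd hψd, hgP]
      simp only [b, grad]
      ring
    have hlin : ∀ c c' : ℝ, dot a (fun j => c * b j + c' * a j) = c * dot a b + c' * dot a a := fun c c' => by
      simp only [dot, mul_sum, ← sum_add_distrib]
      exact sum_congr rfl fun _ _ => by ring
    have s1 : dot a (grad (fun y => φ y * φ y) z)
        = 2 * φ z * P z * dot a b + 4 * φ z * ψ z * dot a a := by
      rw [show grad (fun y => φ y * φ y) z = fun j => (2 * φ z * P z) * b j + (4 * φ z * ψ z) * a j from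
        funext fun j => by rw [grad, g1]; ring, hlin]
    have s2 : dot a (grad (fun y => ψ y * ψ y * (2 * (P y * P y) - (P y + 1))) z)
        = 2 * ψ z * (2 * (P z * P z) - (P z + 1)) * dot a b + ψ z * ψ z * (8 * P z - 2) * dot a a := by
      rw [show grad (fun y => ψ y * ψ y * (2 * (P y * P y) - (P y + 1))) z = fun j =>
        (2 * ψ z * (2 * (P z * P z) - (P z + 1))) * b j + (ψ z * ψ z * (8 * P z - 2)) * a j from
        funext fun j => by rw [grad, g2], hlin]
    have s3 : dot (grad φ z) (grad φ z)
        = P z ^ 2 * dot b b + 4 * P z * ψ z * dot a b + 4 * ψ z ^ 2 * dot a a := by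
      rw [show grad φ z = fun j => P z * b j + ψ z * (2 * a j) from funext hgφ]
      simp only [dot, mul_sum, ← sum_add_distrib]
      exact sum_congr rfl fun _ _ => by ring
    have hφz : φ z = P z * ψ z := hφψ.self_of_nhds
    rw [show divg Z z = _ from e2, stabInt, e1, hM, secondVar_grad hA (h.trace_pos hz), s1, s2, s3, hφz]
    simp only [P, A, N]
    ring
  have hK0 : ∀ z ∉ K, secondVar (M z) (grad w z) = 0 := fun z hz => by
    simp [secondVar, hMzero z hz, app, tr, dot]
  have hext : ∫ y in S, secondVar (M y) (grad w y) = ∫ y in {y | 0 < u y}, secondVar (M y) (grad w y) :=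
    (setIntegral_eq_of_subset_of_forall_sdiff_eq_zero h.isOpen_pos.measurableSet Set.inter_subset_right
      fun y hy => hK0 y fun hh => hy.2 ⟨hKR hh, hy.1⟩).symm
  have hdc : Continuous (divg Z) := continuous_divg hZc
  have hstab_i : Integrable (stabInt w φ) :=
    hstab_c.integrable_of_hasCompactSupport (HasCompactSupport.intro hKc hstab_0)
  have hdiv_i : Integrable (divg Z) :=
    hdc.integrable_of_hasCompactSupport (hasCompactSupport_divg hKc hZs)
  have hflux : ∫ z in {z | 0 < u z}, divg Z z = 0 := by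
    refine h.flux_eq_zero hP hKc hφO hZc hZs fun x hx => ?_
    have hx0 : x ≠ 0 := fun e => h0 (e ▸ hφO hx.1)
    have hPx : P x = 1 := (sum_congr rfl fun i _ => (sq (pd w i x)).symm).trans (h.free x hx.2 hx0)
    exact sum_eq_zero fun i _ => by simp only [Z, hPx]; ring
  rw [hext, setIntegral_congr_fun h.isOpen_pos.measurableSet key,
    integral_add (hstab_i.integrableOn.const_mul 2) hdiv_i.integrableOn, integral_const_mul, hflux,
    add_zero] at hnn
  linarith

end

end Vale.Agent.P098.Cone
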